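import Vale.Agent.P146.H865.Close4

/-!
# P146, the sharp constant: the a priori box and the growth at all scales
-/

open Set Filter Topology

namespace Vale.Agent.N146.Sharp

open Vale.Agent.P146 Vale.Agent.P146.H560 Vale.Agent.P146.U Vale.Agent.P146.H865
open Vale.Agent.P146.U.AP Vale.Agent.P146.H645x

variable {β : ℝ}

theorem e2s (hβ : 1 < β) : Ex2Strong β := ex2_strong (H240.kstar (by linarith)) (cgfU hβ)

theorem e2o (hβ : 1 < β) : Ex2Out β := ex2_of (H240.kstar (by linarith)) (cgfU hβ)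

theorem lst (hβ : 1 < β) : LStar β := lstar_of_lrho (H979.lrho (by linarith))

theorem starOut (hβ : 1 < β) : H444.StarOut β := by
  have hβ0 : 0 < β := by linarith
  have h2 := e2o hβ
  have hLs := lst hβ
  have hI : H444.InUBox β := H444.inUBox_of hβ0 (H393.In.rowUBox hβ h2 hLs)
    (H508.RF.rowFBox hβ h2 hLs) (H310.upE hβ0 h2 hLs)
  exact H595.star_out hβ0 (e2s hβ) h2 hLs (startQ hβ) hI (H310.puC hβ0 h2 hLs)
    (H310.cPs hβ0 h2 hLs) (H310.inc_of hβ0.le h2 hLs) (H112.stP hβ)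

/-- the share of the pure law, from below -/
theorem wn_low (hβ : 1 < β) : ∃ c K : ℝ, ∃ n0 : ℕ, 0 < c ∧ 0 < K ∧ ∀ n : ℕ, n0 ≤ n → ∀ x : ℝ,
    K * (n : ℝ) ^ (-(1 / 6) : ℝ) ≤ x → x ≤ (n : ℝ) ^ (-(1 / 10) : ℝ) →
      c * (n * x ^ 4) ≤ Wn n β x := by
  have h2 := e2o hβ
  have hLs := lst hβ
  exact master hβ (X0 := H444.X0) (Eventually.of_forall fun n => le_rfl)
    (by
      filter_upwards [eventually_ge_atTop 1] with n hn
      exact Real.rpow_le_rpow_of_exponent_le (by exact_mod_cast hn) (by norm_num))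
    (rowsSK_X hβ (H393.In.rowUBox hβ h2 hLs) (H508.RF.rowFBox hβ h2 hLs)
      (H498.RowLQ.rowL hβ h2 hLs) (H437.crsBox hβ h2 hLs) (starOut hβ))

/-- **Growth of the pure laws, both sides.** -/
theorem growth (hβ : 1 < β) : ∃ c C K : ℝ, ∃ n0 : ℕ, 0 < c ∧ 0 < C ∧ 1 ≤ K ∧ ∀ n : ℕ, n0 ≤ n →
    ∀ x y : ℝ, K * (n : ℝ) ^ (-(1 / 6) : ℝ) ≤ x → x ≤ y → y ≤ (n : ℝ) ^ (-(1 / 10) : ℝ) →
      P1 n β x + c * (y - x) * (n * x ^ 4) ≤ P1 n β y ∧ P1 n β y ≤ P1 n β x + C * (n * y ^ 5) := by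
  obtain ⟨c, K, n0, hc, hK, h⟩ := wn_low hβ
  obtain ⟨C, n1, hC, g⟩ := H310.inc_of (by linarith : 0 ≤ β) (e2o hβ) (lst hβ)
  refine ⟨c / 2, C, max K 1, max (max n0 n1) 1, by positivity, hC, le_max_right _ _,
    fun n hn x y hx hxy hy => ?_⟩
  have hn0 : n0 ≤ n := (le_max_left _ _).trans ((le_max_left _ _).trans hn)
  have hn1 : n1 ≤ n := (le_max_right _ _).trans ((le_max_left _ _).trans hn)
  have hn2 : 1 ≤ n := (le_max_right _ _).trans hn
  have hN : (0 : ℝ) < n := by exact_mod_cast hn2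
  have hs : 0 < (n : ℝ) ^ (-(1 / 6) : ℝ) := by positivity
  have x1 : K * (n : ℝ) ^ (-(1 / 6) : ℝ) ≤ x :=
    (mul_le_mul_of_nonneg_right (le_max_left _ _) hs.le).trans hx
  have x2 : (n : ℝ) ^ (-(1 / 6) : ℝ) ≤ x :=
    (le_mul_of_one_le_left hs.le (le_max_right _ _)).trans hx
  refine ⟨?_, g n hn1 x y x2 hxy hy⟩
  have k1 := P1_ge_tan (n := n) (β := β) (hs.trans_le x2) hxy
  have k2 := mul_le_mul_of_nonneg_left (h n hn0 x x1 (hxy.trans hy))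
    (show 0 ≤ (y - x) / 2 by linarith)
  linarith

/-- **The a priori box at all scales.** -/
theorem bx_all (hβ : 1 < β) : ∃ B K : ℝ, ∃ n0 : ℕ, 0 < B ∧ 1 ≤ K ∧ ∀ n : ℕ, n0 ≤ n → ∀ u : ℝ,
    K * (n : ℝ) ^ (-(1 / 6) : ℝ) ≤ u → u ≤ (n : ℝ) ^ (-(23 / 200) : ℝ) → H444.Bx n β B u := by
  obtain ⟨c, C, K, n0, hc, -, hK, h⟩ := growth hβ
  obtain ⟨B, K1, n1, hB, g⟩ := starOut hβ (1 / 200) c (by norm_num) le_rfl hc
  have hz : Tendsto (fun n : ℕ => (n : ℝ) ^ (-(3 / 200) : ℝ)) atTop (𝓝 0) :=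
    (tendsto_rpow_neg_atTop (show (0 : ℝ) < 3 / 200 by norm_num)).comp tendsto_natCast_atTop_atTop
  obtain ⟨n2, hn2⟩ := eventually_atTop.1 (hz.eventually_le_const (show (0 : ℝ) < 1 / 2 by norm_num))
  refine ⟨B, max K K1, max (max n0 n1) (max n2 1), hB, hK.trans (le_max_left _ _),
    fun n hn u hu hu1 => ?_⟩
  have hn0 : n0 ≤ n := (le_max_left _ _).trans ((le_max_left _ _).trans hn)
  have hn1 : n1 ≤ n := (le_max_right _ _).trans ((le_max_left _ _).trans hn)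
  have hn3 : n2 ≤ n := (le_max_left _ _).trans ((le_max_right _ _).trans hn)
  have hn4 : 1 ≤ n := (le_max_right _ _).trans ((le_max_right _ _).trans hn)
  have hN : (0 : ℝ) < n := by exact_mod_cast hn4
  have hs : 0 < (n : ℝ) ^ (-(1 / 6) : ℝ) := by positivity
  have u1 : K * (n : ℝ) ^ (-(1 / 6) : ℝ) ≤ u :=
    (mul_le_mul_of_nonneg_right (le_max_left _ _) hs.le).trans hu
  have u0 : 0 < u := lt_of_lt_of_le (by positivity) u1
  refine g n hn1 u ((mul_le_mul_of_nonneg_right (le_max_right _ _) hs.le).trans hu) hu1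
    fun y hy => ⟨y, ⟨by linarith [hy.1], le_rfl⟩, ?_⟩
  have y0 : 0 < y := u0.trans_le hy.1
  have y1 : (1 + 1 / 200) * y ≤ (n : ℝ) ^ (-(1 / 10) : ℝ) := by
    have e : (n : ℝ) ^ (-(23 / 200) : ℝ) =
        (n : ℝ) ^ (-(3 / 200) : ℝ) * (n : ℝ) ^ (-(1 / 10) : ℝ) := by
      rw [← Real.rpow_add hN]
      norm_num
    have k1 : y ≤ (n : ℝ) ^ (-(23 / 200) : ℝ) := hy.2
    have k2 := mul_le_mul_of_nonneg_right (hn2 n hn3)
      (show 0 ≤ (n : ℝ) ^ (-(1 / 10) : ℝ) by positivity)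
    rw [e] at k1
    linarith
  have k := (h n hn0 y ((1 + 1 / 200) * y) (u1.trans hy.1) (by linarith) y1).1
  unfold QU
  rw [le_div_iff₀ (by positivity)]
  have e : c * ((1 + 1 / 200) * y - y) * (n * y ^ 4) = c * (1 / 200 * (n * y ^ 5)) := by ring
  linarith

end Vale.Agent.N146.Sharp
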