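import Vale.Agent.N146.Sharp.Grow
import Vale.Agent.N146.Soft
import Vale.Agent.N146.SlopeDefs
import Vale.Agent.N146.Parts
import Vale.Agent.P146.R3.H316.Order2

/-!
# P146, the sharp constant: identification with the slope of the Parisi order parameter
-/

open MeasureTheory ProbabilityTheory Filter Topology

namespace Vale.Agent.N146.Sharp

open Vale.Agent.P146 Vale.Agent.P146.U Vale.Agent.P146.U.AP
open Vale.Agent.P146.H196 (meanF)
open Vale.Agent.P146.H509 (Yn lawY)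

variable {b : ℝ}

/-- the constant of the sharp law is unique -/
lemma top_eq {Λ L p : ℝ} (hT : Top b Λ)
    (hp : Tendsto (fun n : ℕ => (∫ g, freeEnergy n b g ∂(disorder n)) / n) atTop (𝓝 p))
    (hL : ∀ ε : ℝ, 0 < ε → ∃ δ : ℝ, 0 < δ ∧ ∀ᶠ n : ℕ in atTop,
      ∀ s : ℝ, (n : ℝ) ^ (-(1 / 36) : ℝ) ≤ s → s ≤ δ →
        |Real.log (∫ g, Real.exp (s * (freeEnergy n b g - n * p)) ∂(disorder n)) -
          L * n * s ^ 6| ≤ ε * n * s ^ 6) : Λ = L := by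
  refine eq_of_forall_dist_le fun ε hε => ?_
  obtain ⟨d1, hd1, h1⟩ := hT (ε / 3) (by positivity)
  obtain ⟨d2, hd2, h2⟩ := hL (ε / 3) (by positivity)
  obtain ⟨s, hs⟩ : ∃ s, s = min d1 d2 := ⟨_, rfl⟩
  have s0 : 0 < s := by rw [hs]; exact lt_min hd1 hd2
  have ev : ∀ a : ℝ, 0 < a → ∀ᶠ n : ℕ in atTop, (n : ℝ) ^ (-a) ≤ s := fun a ha =>
    ((tendsto_rpow_neg_atTop ha).comp tendsto_natCast_atTop_atTop).eventually_le_const s0
  have h3 := (Metric.tendsto_nhds.1 hp) (ε / 3 * s ^ 5) (by positivity)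
  obtain ⟨n, ⟨⟨k1, k2⟩, k3, k4⟩, k5, hn⟩ := (((h1.and h2).and ((ev (23 / 200) (by norm_num)).and
    (ev (1 / 36) (by norm_num)))).and (h3.and (eventually_ge_atTop 1))).exists
  have hn0 : (0 : ℝ) < n := by exact_mod_cast hn
  have a1 := abs_le.1 (k1 s k3 (by rw [hs]; exact min_le_left _ _))
  have a2 := k2 s k4 (by rw [hs]; exact min_le_right _ _)
  rw [H479.Kn_p] at a2
  have a3 := abs_le.1 a2
  have hm : ∫ g, freeEnergy n b g ∂(disorder n) = meanF n b := rfl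
  rw [hm, Real.dist_eq] at k5
  have a4 := abs_lt.1 k5
  have e : s * (n * p - meanF n b) = -(n * s * (meanF n b / n - p)) := by
    field_simp
    ring
  have a5 := mul_le_mul_of_nonneg_left a4.1.le (show 0 ≤ n * s by positivity)
  have a6 := mul_le_mul_of_nonneg_left a4.2.le (show 0 ≤ n * s by positivity)
  have W : 0 < (n : ℝ) * s ^ 6 := by positivity
  rw [Real.dist_eq, abs_le]
  constructor
  · refine le_of_mul_le_mul_right ?_ W
    linarith [a1.1, a1.2, a3.1, a3.2]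
  · refine le_of_mul_le_mul_right ?_ W
    linarith [a1.1, a1.2, a3.1, a3.2]

/-- **The sharp constant at all scales, in terms of the Parisi order parameter.** -/
theorem all_slope (hb : 1 < b) (hK : KL b) :
    ∃ a : ℝ, 0 < a ∧ Slope b a ∧ All b (9 * b ^ 3 / (640 * a ^ 3)) := by
  obtain ⟨a, -, h⟩ := R3.P316.order2
  obtain ⟨ha, p, x, -, h1, h2, h3, -, h5, -, h7, h8, -⟩ := h b hb
  obtain ⟨Λ, -, g⟩ := top
  obtain ⟨g1, g2⟩ := g b hb
  refine ⟨a b, ha, ⟨p, x, h2, h3, h5, h7⟩, ?_⟩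
  rw [← top_eq g2 h1 h8]
  exact all_of hb g1 g2 (step_of hK (grow hb))

theorem part6_of (hb : 1 < b) (hK : KL b) : ∃ a L J : ℝ, 0 < a ∧ Slope b a ∧
    L = 9 * b ^ 3 / (640 * a ^ 3) ∧ J = 5 / 6 * (6 * L) ^ (-(1 / 5) : ℝ) ∧
    ∀ ε : ℝ, 0 < ε → ∃ K d : ℝ, 0 < d ∧
      (∀ᶠ n : ℕ in atTop, ∀ u : ℝ, K ≤ u →
        (u ≤ d * (n : ℝ) ^ (1 / 6 : ℝ) →
          |Real.log (∫ g, Real.exp (u * Yn n b g) ∂(disorder n)) - L * u ^ 6| ≤ ε * u ^ 6) ∧
        (u ≤ d * (n : ℝ) ^ (5 / 6 : ℝ) →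
          |Real.log ((lawY b n : Measure ℝ).real (Set.Ici u)) + J * u ^ (6 / 5 : ℝ)| ≤
            ε * u ^ (6 / 5 : ℝ))) ∧
      ∀ ν ∈ limits b, ∀ u : ℝ, K ≤ u →
        |Real.log (∫ y, Real.exp (u * y) ∂(ν : Measure ℝ)) - L * u ^ 6| ≤ ε * u ^ 6 ∧
        |Real.log ((ν : Measure ℝ).real (Set.Ici u)) + J * u ^ (6 / 5 : ℝ)| ≤
          ε * u ^ (6 / 5 : ℝ) ∧
        ∀ p : ℝ → ℝ, LogConc p →
          ((ν : Measure ℝ) = volume.withDensity fun x => ENNReal.ofReal (p x)) →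
          |Real.log (p u) + J * u ^ (6 / 5 : ℝ)| ≤ ε * u ^ (6 / 5 : ℝ) := by
  obtain ⟨a, ha, hs, hA⟩ := all_slope hb hK
  obtain ⟨D, hD, hU⟩ := H566.mgU hb
  have hL : 0 < 9 * b ^ 3 / (640 * a ^ 3) := by
    have : 0 < b := by linarith
    positivity
  refine ⟨a, _, _, ha, hs, rfl, rfl, fun ε hε => ?_⟩
  generalize 9 * b ^ 3 / (640 * a ^ 3) = L at hL hA ⊢
  have hS : Soft.Sharp b L := fun e he => by
    obtain ⟨K, d, hd, h⟩ := hA e he
    refine ⟨K, d, hd, h.mono fun n hn x h1 h2 => ?_⟩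
    rw [mul_assoc, mul_assoc]
    exact hn x h1 h2
  obtain ⟨K1, d1, hd1, h1, h2⟩ := Soft.soft hL hD hU hS hε
  obtain ⟨K2, d2, hd2, h3⟩ := hS.win hε
  refine ⟨max K1 K2, min d1 d2, lt_min hd1 hd2, ?_, fun ν ⟨φ, hφ, hν⟩ u hu => ?_⟩
  · filter_upwards [h1, h3, eventually_ge_atTop 2] with n g1 g3 hn u hu
    refine ⟨fun h => ?_, fun h => ?_⟩
    · have k := g3 u ((le_max_right _ _).trans hu)
        (h.trans (mul_le_mul_of_nonneg_right (min_le_right _ _) (by positivity)))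
      rwa [H509.int_lawY (by fun_prop)] at k
    · rw [law_Ici hn]
      exact g1 u ((le_max_left _ _).trans hu)
        (h.trans (mul_le_mul_of_nonneg_right (min_le_left _ _) (by positivity)))
  · obtain ⟨g1, g2, g3⟩ := h2 φ hφ.tendsto_atTop ν hν
    have k := (le_max_left _ _).trans hu
    exact ⟨g1 u k, g2 u k, fun p hp e => g3 p hp.1 hp.2 e u k⟩

end Vale.Agent.N146.Sharp
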