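import Vale.Agent.N146.Sharp.IdC
import Vale.Agent.N146.KapC

/-!
# P146 (c): the package `IdC` (helper96)
-/

namespace Vale.Agent.N146.Sharp

theorem kapU {β : ℝ} (hβ : 1 < β) : KapU β := by
  obtain ⟨k, -, hk⟩ := Vale.Agent.N146.Kap.kap_sk hβ
  refine ⟨k, fun ε hε => ?_⟩
  obtain ⟨δ, hδ, h⟩ := hk ε hε
  exact ⟨δ, hδ, fun n K Q m b w q _ _ hQ hm hb hw h1 h2 h3 h4 h5 h6 h7 h8 h9 =>
    h n K Q m b w q hm hb hw h1 (fun j hj _ => h2 j hj) hQ h3 h4 h5 h6 h7 h8 h9⟩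

/-- **ID**: the cubic coefficient of the row is universal. -/
theorem idc {β : ℝ} (hβ : 1 < β) : IdC β := idc_of (kapU hβ)

end Vale.Agent.N146.Sharp
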