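import Vale.Agent.N146.Sharp.Grow
import Vale.Agent.P146.H479.ThUp
import Vale.Agent.P146.H479.Expo

/-!
# P146, the sharp constant: two blocks of levels, the lower link
-/

open Finset

namespace Vale.Agent.N146.Sharp

open Vale.Agent.P157 Vale.Agent.P157.Lv Vale.Agent.P157.Lv.Sy Vale.Agent.P146
open Vale.Agent.P146.H425 Vale.Agent.P146.U Vale.Agent.P146.H93 Vale.Agent.P146.H479
open Vale.Agent.P146.H758 (tv tv_nonneg VG_const Ap Ex2 near em_mono)
open Vale.Agent.P146.H66 (fe_mono_m)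

variable {n K a : ℕ} {β x y z T : ℝ} {m b w : ℕ → ℝ}

/-- the exponent `x` on the levels `1..a`, `z` on the levels `a+1..K` -/
noncomputable def tb (K a : ℕ) (x z : ℝ) (j : ℕ) : ℝ :=
  if j = 0 then 0 else if j ≤ a then x else if j ≤ K then z else 1

/-- two amplitudes -/
noncomputable def a2 (s t : ℝ) (j : ℕ) : ℝ := if j ≤ 1 then √s else √t

/-- the variance of the levels `a+1..K` -/
def hv (K a : ℕ) (b : ℕ → ℝ) : ℝ := ∑ j ∈ Ico (a + 1) (K + 1), b j ^ 2

lemma tb_lo {j : ℕ} (h1 : 1 ≤ j) (h2 : j ≤ a) : tb K a x z j = x := by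
  unfold tb
  rw [if_neg (by omega), if_pos h2]

lemma tb_hi {j : ℕ} (h1 : a < j) (h2 : j ≤ K) : tb K a x z j = z := by
  unfold tb
  rw [if_neg (by omega), if_neg (by omega), if_pos h2]

lemma em_tb (ha : 1 ≤ a) (haK : a < K) (hx : 0 < x) (hxz : x ≤ z) (hz : z ≤ 1) :
    Em K (tb K a x z) where
  m0 := by simp [tb]
  mK := by
    unfold tb
    rw [if_neg (by omega), if_neg (by omega), if_neg (by omega)]
  mono := fun l hl => by
    unfold tb
    split_ifs <;> first | omega | linarith | contradiction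
  pos := by rw [tb_lo le_rfl ha]; exact hx

lemma na_a2 (s t : ℝ) (K : ℕ) : Na K (a2 s t) := fun j _ _ => by
  unfold a2
  split_ifs <;> exact Real.sqrt_nonneg _

lemma a2_one (s t : ℝ) : a2 s t 1 = √s := if_pos le_rfl

lemma a2_two (s t : ℝ) : a2 s t 2 = √t := if_neg (by norm_num)

lemma hv_nonneg (K a : ℕ) (b : ℕ → ℝ) : 0 ≤ hv K a b := sum_nonneg fun _ _ => sq_nonneg _

lemma hv_eq (haK : a ≤ K) (b : ℕ → ℝ) :
    hv K a b = ∑ j ∈ range (K - a), b (a + 1 + j) ^ 2 := by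
  unfold hv
  rw [sum_Ico_eq_sum_range, show K + 1 - (a + 1) = K - a by omega]

lemma tv_split (haK : a ≤ K) (b : ℕ → ℝ) : tv K b = tv a b + hv K a b := by
  rw [hv_eq haK]
  unfold tv
  obtain ⟨d, rfl⟩ : ∃ d, K = a + d := ⟨K - a, by omega⟩
  rw [sum_range_add, Nat.add_sub_cancel_left]
  congr 1
  exact sum_congr rfl fun j _ => by rw [show a + j + 1 = a + 1 + j by omega]

lemma tv_a2 {s t : ℝ} (hs : 0 ≤ s) (ht : 0 ≤ t) : tv 2 (a2 s t) = s + t := by
  simp only [tv, sum_range_succ, range_zero, sum_empty, zero_add]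
  rw [a2_one, show 1 + 1 = 2 from rfl, a2_two, Real.sq_sqrt hs, Real.sq_sqrt ht]

/-- **Two blocks of levels are two levels.** -/
theorem fe_tb (ha : 1 ≤ a) (haK : a < K) (hx : 0 < x) (hxz : x ≤ z) (hz : z ≤ 1)
    (b w : ℕ → ℝ) : (skS n K (tb K a x z) b w).fe =
      (skS n 2 (tb 2 1 x z) (a2 (tv a b) (hv K a b)) (a2 (tv a w) (hv K a w))).fe := by
  have hz0 : 0 < z := hx.trans_le hxz
  rw [fe_eq (em_tb ha haK hx hxz hz), fe_eq (em_tb le_rfl one_lt_two hx hxz hz)]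
  have e1 := VG_add (m := tb K a x z) (v := va (n := n) b w) (F0 n) (K - a) a 0
  rw [show a + (K - a) = K by omega, zero_add,
    VG_const (F0_lip n) hz0 (K - a) a (fun j h1 h2 => tb_hi h1 (by omega)),
    VG_const (Lip.VW (F0_lip n) hz0 _) hx a 0 (fun j h1 h2 => tb_lo h1 (by omega))] at e1
  have e2 : ∀ (m : ℕ → ℝ) (v : ℕ → Es n → ℝ),
      VG m v (F0 n) 0 2 = VW (m 1) (v 1) (VW (m 2) (v 2) (F0 n)) := fun _ _ => rfl
  rw [← e1, e2, tb_lo le_rfl le_rfl, tb_hi one_lt_two le_rfl]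
  congr 1
  · funext e
    rcases e with p | i
    · simp only [va_inl, tv, Nat.zero_add, a2_one]
      congr 1
      exact sum_congr rfl fun j _ => by rw [add_comm]
    · simp only [va_inr, tv, Nat.zero_add, a2_one]
      congr 1
      exact sum_congr rfl fun j _ => by rw [add_comm]
  · congr 1
    funext e
    rcases e with p | i
    · simp only [va_inl, hv_eq haK.le]
      exact (a2_two _ _).symm
    · simp only [va_inr, hv_eq haK.le]
      exact (a2_two _ _).symm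

lemma sqrt_bn (hβ : 0 ≤ β) (s : ℝ) : √(β ^ 2 / n * s) = β / √n * √s := by
  rw [Real.sqrt_mul (by positivity), Real.sqrt_div (sq_nonneg _), Real.sqrt_sq hβ]

/-- two levels without field -/
lemma fe_P2 (hβ : 0 ≤ β) (hx : 0 < x) (hxz : x ≤ z) (hz : z ≤ 1) :
    (skS n 2 (tb 2 1 x z) (a2 (β ^ 2 / n * (1 - T)) (β ^ 2 / n * T)) (a2 0 0)).fe =
      P2 n β x T z := by
  rw [fe_two (β := β) (c1 := √(1 - T)) (c2 := √T) (em_tb le_rfl one_lt_two hx hxz hz)
    (by rw [a2_one, sqrt_bn hβ]) (by rw [a2_two, sqrt_bn hβ]) (by rw [a2_one, Real.sqrt_zero])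
    (by rw [a2_two, Real.sqrt_zero]), tb_lo le_rfl le_rfl, tb_hi one_lt_two le_rfl]
  rfl

/-- convexity in the root exponent -/
lemma P2_mid (hβ : 0 ≤ β) (hx : 0 < x) (hxy : x ≤ y) (hy : y ≤ 1) (hT : 0 ≤ T) (hT1 : T ≤ 1) :
    P2 n β ((x + y) / 2) T y ≤ (P2 n β x T y + P1 n β y) / 2 := by
  have hy0 : 0 < y := hx.trans_le hxy
  have h := fe_conv (n := n) (em_tb le_rfl one_lt_two hx hxy hy)
    (em_tb le_rfl one_lt_two hy0 le_rfl hy) (a2 (β ^ 2 / n * (1 - T)) (β ^ 2 / n * T)) (a2 0 0)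
    (a := 1 / 2) (c := 1 / 2) (by norm_num) (by norm_num) (by norm_num)
  have e : (fun j => 1 / 2 * tb 2 1 x y j + 1 / 2 * tb 2 1 y y j) = tb 2 1 ((x + y) / 2) y := by
    funext j
    unfold tb
    split_ifs <;> ring
  rw [e, fe_P2 hβ hx hxy hy, fe_P2 hβ hy0 le_rfl hy, fe_P2 hβ (by linarith) (by linarith) hy,
    AP.P2_self hy0 hT hT1] at h
  unfold P1
  linarith

/-- **The tail**, for any root exponent. -/
theorem tail_any (hβ : 1 < β) {ε : ℝ} (hε : 0 < ε) : ∃ Λ : ℝ, ∃ n0 : ℕ, 1 ≤ Λ ∧ ∀ n : ℕ, n0 ≤ n →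
    ∀ x y T : ℝ, 0 < x → x ≤ y → 2 * (n : ℝ) ^ (-(1 / 6) : ℝ) ≤ y →
      y ≤ (n : ℝ) ^ (-(1 / 10) : ℝ) → Λ * y ^ 2 ≤ 1 / 2 → Λ * y ^ 2 ≤ T → T ≤ 1 →
      P1 n β y - ε * (n * y ^ 5) ≤ P2 n β x T y := by
  have hβ0 : 0 ≤ β := by linarith
  obtain ⟨C, n0, hC, h⟩ := tail_P2 hβ0 (e2o hβ) (lst hβ)
  obtain ⟨Λ, hΛ, -, hΛC⟩ := H97.small_A C (show 0 < ε / 2 by positivity) 0
  refine ⟨Λ, max n0 1, by linarith, fun n hn x y T hx hxy hy hy1 hΛy hT hT1 => ?_⟩
  have hn1 : 1 ≤ n := (le_max_right _ _).trans hn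
  have hN : (0 : ℝ) < n := by exact_mod_cast hn1
  have y0 : 0 < y := hx.trans_le hxy
  have y1 : y ≤ 1 := H97.rpow_le_one' hn1 (by norm_num) hy1
  have Λ0 : 0 < Λ := by linarith
  obtain ⟨s, hs⟩ : ∃ s, s = (x + y) / 2 := ⟨_, rfl⟩
  have s0 : 0 < s := by rw [hs]; positivity
  have s1 : s ≤ y := by linarith
  have s2 : s ^ 2 ≤ y ^ 2 := pow_le_pow_left₀ s0.le s1 2
  have s3 : y ^ 2 ≤ Λ * y ^ 2 := le_mul_of_one_le_left (by positivity) (by linarith)
  have k1 := h n ((le_max_left _ _).trans hn) s y (Λ * y ^ 2) (by linarith) (s1.trans hy1) s1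
    (by linarith) (s2.trans s3) hΛy
  rw [AP.P2_one s0] at k1
  have k2 := P2_mid (n := n) (T := Λ * y ^ 2) hβ0 hx hxy y1 (by positivity) (by linarith)
  rw [← hs] at k2
  have k3 := AP.P2_mono_T (n := n) (β := β) hx hxy (by positivity) hT hT1
  have k4 : (Λ * y ^ 2 / s ^ 2) ^ (-(1 / 1000) : ℝ) ≤ Λ ^ (-(1 / 1000) : ℝ) := by
    refine Real.rpow_le_rpow_of_nonpos Λ0 ?_ (by norm_num)
    rw [le_div_iff₀ (by positivity)]
    exact mul_le_mul_of_nonneg_left s2 Λ0.le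
  have k5 : C * (n * s ^ 5) * (Λ * y ^ 2 / s ^ 2) ^ (-(1 / 1000) : ℝ) ≤
      C * (n * y ^ 5) * Λ ^ (-(1 / 1000) : ℝ) := by gcongr
  have k6 := mul_le_mul_of_nonneg_right hΛC (show 0 ≤ (n : ℝ) * y ^ 5 by positivity)
  have e : W y 1 (Fsk n β) 0 = P1 n β y := rfl
  rw [e] at k1
  linarith

/-- concavity along the ray of a field -/
lemma fe_ray (hm : Em K m) (hb : Na K b) (hw : Na K w) {k : ℝ} (hk : 0 < k) (hk1 : k ≤ 1) :
    (1 - k) * (skS n K m b fun _ => 0).fe + k * (skS n K m b fun j => w j / √k).fe ≤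
      (skS n K m b w).fe := by
  have h0 := fe_super (n := n) (w' := fun _ => 0) hm hb hw hb fun _ _ _ => le_rfl
  have h1 := fe_super (n := n) (w' := fun j => w j / √k) hm hb hw hb
    fun j h1 h2 => div_nonneg (hw j h1 h2) (Real.sqrt_nonneg _)
  have e : (1 - k) * gv n K m b w b (fun _ => 0) + k * gv n K m b w b (fun j => w j / √k) = 0 := by
    unfold gv
    rw [mul_left_comm, mul_left_comm k, ← mul_add, mul_sum, mul_sum, ← sum_add_distrib,
      sum_eq_zero, mul_zero]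
    intro j _
    rw [div_pow, Real.sq_sqrt hk.le]
    field_simp
    ring
  have h2 := mul_le_mul_of_nonneg_left h0 (show 0 ≤ 1 - k by linarith)
  have h3 := mul_le_mul_of_nonneg_left h1 hk.le
  linarith

lemma tv_zero (K : ℕ) : tv K (fun _ => 0) = 0 := by simp [tv]

lemma tv_div (K : ℕ) (w : ℕ → ℝ) {k : ℝ} (hk : 0 < k) : tv K (fun j => w j / √k) = tv K w / k := by
  unfold tv
  rw [sum_div]
  exact sum_congr rfl fun j _ => by rw [div_pow, Real.sq_sqrt hk.le]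

/-- a small field, from below -/
lemma field_lo {Y V1 A E k : ℝ} (hA : Ap n β y Y V1 A E) (h : Ex2 K m y Y) (hβ : 0 ≤ β)
    (hb : Na K b) (hw : Na K w) (htb : tv K b = β ^ 2 / n) (hk : 0 < k) (hk1 : k ≤ 1)
    (hV : tv K w ≤ k * V1) :
    (skS n K m b fun _ => 0).fe + n / (2 * β) * tv K w - 2 * k * E ≤ (skS n K m b w).fe := by
  have V0 := tv_nonneg K w
  have V2 : tv K w / k ≤ V1 := by rwa [div_le_iff₀' hk]
  have h0 := near (w := fun _ => 0) hA h hβ htb
    (by rw [tv_zero]; exact (div_nonneg V0 hk.le).trans V2)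
  have h1 := near (w := fun j => w j / √k) hA h hβ htb (by rwa [tv_div K w hk])
  rw [tv_zero, mul_zero, add_zero] at h0
  rw [tv_div K w hk] at h1
  have h2 := fe_ray (n := n) h.em hb hw hk hk1
  have h3 := mul_le_mul_of_nonneg_left (abs_le.1 h0).2 hk.le
  have h4 := mul_le_mul_of_nonneg_left (abs_le.1 h1).1 hk.le
  have e : k * (n / β / 2 * (tv K w / k)) = n / (2 * β) * tv K w := by
    field_simp
  linarith

/-- **LINK, lower side.** -/
theorem linkLo (hβ : 1 < β) : LinkLo β := by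
  intro ε hε
  have hβ0 : 0 < β := by linarith
  obtain ⟨Λ, n1, hΛ, h1⟩ := tail_any hβ (show 0 < ε / 2 by positivity)
  refine ⟨Λ, hΛ, fun N hN => ?_⟩
  obtain ⟨B, K1, n2, hB, h2⟩ := box hβ N hN
  obtain ⟨n3, hn3, h3⟩ := ev_top (show 0 < N by linarith)
  obtain ⟨n4, -, h4⟩ := H97.ev_small (c := 1 / (2 * Λ)) (by positivity)
  obtain ⟨k, hk⟩ : ∃ k, k = min 1 (ε / (128 * B)) := ⟨_, rfl⟩
  have k0 : 0 < k := by rw [hk]; exact lt_min one_pos (by positivity)
  have k1 : k ≤ 1 := by rw [hk]; exact min_le_left _ _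
  have k2 : k * (128 * B) ≤ ε := by
    have : k ≤ ε / (128 * B) := by rw [hk]; exact min_le_right _ _
    rwa [le_div_iff₀ (by positivity)] at this
  refine ⟨k, max K1 4, max (max n1 n2) (max n3 n4), k0,
    fun n hn u hu y K a m b w hy hm ha haK hm1 hma hmK hb hw htb hhd hV => ?_⟩
  have hn1 : n1 ≤ n := (le_max_left _ _).trans ((le_max_left _ _).trans hn)
  have hn2 : n2 ≤ n := (le_max_right _ _).trans ((le_max_left _ _).trans hn)
  have hn3' : n3 ≤ n := (le_max_left _ _).trans ((le_max_right _ _).trans hn)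
  have hn4 : n4 ≤ n := (le_max_right _ _).trans ((le_max_right _ _).trans hn)
  have hN0 : (0 : ℝ) < n := by exact_mod_cast hn3.trans hn3'
  have u0 : 0 < u := hu.pos (lt_max_of_lt_right (by norm_num)) (hn3.trans hn3')
  obtain ⟨a1, a2', a3⟩ := h3 n hn3' _ u hu
  have y0 : 0 < y := by linarith
  have yN : y ≤ N * u := hma.trans ((em_mono hm (by omega) (by omega)).trans hmK)
  have y1 : y ≤ 1 := by linarith
  have b1 := hu.half (K := 2) (by linarith [le_max_right K1 4])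
  have c1 := field_lo (h2 n hn2 u (hu.wk (le_max_left _ _)))
    ⟨hm, by omega, by linarith, by linarith, hm1, hmK⟩ hβ0.le hb hw htb k0 k1 hV
  have c2 := fe_mono_m (n := n) (em_tb ha haK (show 0 < u / 2 by linarith) hy y1) hm
    (fun j j1 j2 => by
      rcases le_or_gt j a with h | h
      · rw [tb_lo j1 h]
        exact hm1.trans (em_mono hm j1 (by omega))
      · rw [tb_hi h j2]
        exact hma.trans (em_mono hm h (by omega))) b fun _ => 0
  have bn : 0 < β ^ 2 / n := by positivity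
  obtain ⟨T, hT⟩ : ∃ T, T = hv K a b / (β ^ 2 / n) := ⟨_, rfl⟩
  have T1 : hv K a b = β ^ 2 / n * T := by rw [hT]; field_simp
  have T2 : tv a b = β ^ 2 / n * (1 - T) := by linarith [tv_split haK.le b]
  have T3 : T ≤ 1 := by
    have := tv_nonneg a b
    rw [T2] at this
    linarith [nonneg_of_mul_nonneg_right this bn]
  have T4 : Λ * y ^ 2 ≤ T := le_of_mul_le_mul_left (by rw [← T1]; exact hhd) bn
  have z0 : hv K a (fun _ => 0) = 0 := by simp [hv]
  rw [fe_tb ha haK (show 0 < u / 2 by linarith) hy y1, T1, T2, tv_zero, z0,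
    fe_P2 hβ0.le (show 0 < u / 2 by linarith) hy y1] at c2
  have c3 := h1 n hn1 (u / 2) y T (by linarith) hy (by linarith) (by linarith) (by
    have := h4 n hn4 y y0.le (by linarith)
    rw [le_div_iff₀ (by positivity)] at this
    linarith) T4 T3
  have c4 : u ^ 5 ≤ 32 * y ^ 5 := by
    have := pow_le_pow_left₀ u0.le (show u ≤ 2 * y by linarith) 5
    linarith [show (2 * y) ^ 5 = 32 * y ^ 5 by ring]
  have c5 := mul_le_mul_of_nonneg_left c4 (show 0 ≤ 2 * k * B * n by positivity)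
  have c6 := mul_le_mul_of_nonneg_right k2 (show 0 ≤ (n : ℝ) * y ^ 5 by positivity)
  linarith

end Vale.Agent.N146.Sharp
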