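import Vale.Agent.N146.Sharp.LinkA
import Vale.Agent.N146.Sharp.LinkB

/-!
# P146, the sharp constant: the upper link
-/

open MeasureTheory Finset

namespace Vale.Agent.N146.Sharp

open Vale.Agent.P157 Vale.Agent.P157.Lv Vale.Agent.P157.Lv.Sy Vale.Agent.P146
open Vale.Agent.P146.H425 Vale.Agent.P146.R1 Vale.Agent.P146.U Vale.Agent.P146.H93
open Vale.Agent.P146.H479 Vale.Agent.P146.H112 Vale.Agent.P146.H379.FS
open Vale.Agent.P146.H758 (tv tv_nonneg Ap Ex2 near em_mono)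
open Vale.Agent.P146.H66 (fe_mono_m)
open Vale.Agent.P146.H97 (RR RR_two Rep)
open Vale.Agent.P146.H186 (cSK)

variable {n K a : ℕ} {β x y z T : ℝ} {m b w : ℕ → ℝ}

lemma VV_le {κ : Type} [Fintype κ] {F : (κ → ℝ) → ℝ} {D : κ → (κ → ℝ) → ℝ} {B L : ℝ}
    (h : C11 F D B L) (hc : Cv F) (hy : 0 < y) (hyx : y ≤ x) (s : ℕ → ℝ) (j : ℕ) :
    (∃ D B L, C11 (VV y s F j) D B L) ∧ Cv (VV y s F j) ∧ ∀ v, VV y s F j v ≤ VV x s F j v := by
  have hF : Lip F := h.lip.lip h.B0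
  induction j with
  | zero => exact ⟨⟨_, _, _, h⟩, hc, fun _ => le_rfl⟩
  | succ j ih =>
    obtain ⟨⟨D', B', L', h1⟩, h2, h3⟩ := ih
    have p : 0 < 2 ^ (j + 1) * y := by positivity
    refine ⟨⟨_, _, _, h1.W' p (s j)⟩, Cv.W h1 h2 p _, fun v => ?_⟩
    exact (AP.W_mono_b h1 h2 p (by gcongr) _ v).trans
      (W_mono (lip_VV hF hy s j) (lip_VV hF (hy.trans_le hyx) s j)
        (by have := hy.trans_le hyx; positivity) h3 _ v)

/-- three amplitudes -/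
noncomputable def a3 (r s t : ℝ) (j : ℕ) : ℝ := if j ≤ 1 then √r else if j = 2 then √s else √t

/-- **A field on the root level, a head with a large exponent.** -/
theorem rem_core (hβ : 1 < β) : ∃ C : ℝ, ∃ n0 : ℕ, 0 < C ∧ ∀ n : ℕ, n0 ≤ n →
    ∀ y x z T K0 V : ℝ, 0 < y → y ≤ z → z ≤ x → (n : ℝ) ^ (-(1 / 6) : ℝ) ≤ x →
      x ≤ (n : ℝ) ^ (-(21 / 200) : ℝ) → 4 * x ^ 2 ≤ K0 → K0 ≤ 1 / 2 → 0 ≤ T → 2 * T ≤ K0 →
      0 ≤ V → 4 * (y * V) ≤ β →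
      (skS n 2 (tb 2 1 y z) (a2 (β ^ 2 / n * (1 - T)) (β ^ 2 / n * T)) (a2 V 0)).fe ≤
        P2 n β y T z + n * V / (2 * β) + (β / 2 + Real.log (2 * RR) / (2 * y) + n * (K0 * V) / β +
          2 * n * y * V ^ 2 / β ^ 2 + C * (n * x ^ 5) * (K0 / x ^ 2) ^ (-(1 / 1000) : ℝ)) := by
  have hβ0 : 0 < β := by linarith
  obtain ⟨C, n0, hC, h⟩ := tailG hβ0.le (e2o hβ) (lst hβ)
  refine ⟨C, max n0 1, hC, fun n hn y x z T K0 V hy hyz hzx hx hx1 hK hK1 hT hTK hV hVβ => ?_⟩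
  have hn1 : 1 ≤ n := (le_max_right _ _).trans hn
  have hn' : (0 : ℝ) < n := by exact_mod_cast hn1
  have x1 : x ≤ 1 := H97.rpow_le_one' hn1 (by norm_num) hx1
  have z0 : 0 < z := hy.trans_le hyz
  have x0 : 0 < x := z0.trans_le hzx
  have K00 : 0 < K0 := lt_of_lt_of_le (by positivity) hK
  have hm : Em (2 + 1) (tb 3 2 y z) := em_tb one_le_two (by norm_num) hy hyz (by linarith)
  have m1 : tb 3 2 y z 1 = y := tb_lo le_rfl one_le_two
  have m2 : tb 3 2 y z 2 = y := tb_lo one_le_two le_rfl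
  have m3 : tb 3 2 y z 3 = z := tb_hi (by norm_num) le_rfl
  obtain ⟨c, hc⟩ : ∃ c, c = a3 (1 - K0) (K0 - T) T := ⟨_, rfl⟩
  have c1 : c 1 = √(1 - K0) := by simp [hc, a3]
  have c2 : c 2 = √(K0 - T) := by simp [hc, a3]
  have c3 : c 3 = √T := by simp [hc, a3]
  have w1 : a3 V 0 0 1 = √V := by simp [a3]
  have w2 : ∀ j, 1 < j → a3 V 0 0 j = 0 := fun j hj => by
    unfold a3
    rw [if_neg (by omega), Real.sqrt_zero, ite_self]
  have sn : (β / √(n : ℝ)) ^ 2 = β ^ 2 / n := by rw [div_pow, Real.sq_sqrt hn'.le]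
  have e3 := fe_tb (n := n) (K := 3) one_le_two (by norm_num) hy hyz (by linarith)
    (fun j => β / √n * c j) (a3 V 0 0)
  have t1 : tv 2 (fun j => β / √(n : ℝ) * c j) = β ^ 2 / n * (1 - T) := by
    simp only [tv, sum_range_succ, range_zero, sum_empty, zero_add]
    rw [c1, show 1 + 1 = 2 from rfl, c2, mul_pow, mul_pow, sn, Real.sq_sqrt (by linarith),
      Real.sq_sqrt (by linarith)]
    ring
  have t2 : hv 3 2 (fun j => β / √(n : ℝ) * c j) = β ^ 2 / n * T := by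
    simp only [hv, Nat.Ico_succ_singleton, sum_singleton]
    rw [show 2 + 1 = 3 from rfl, c3, mul_pow, sn, Real.sq_sqrt hT]
  have t3 : tv 2 (a3 V 0 0) = V := by
    simp only [tv, sum_range_succ, range_zero, sum_empty, zero_add]
    rw [w1, w2 _ (by norm_num), Real.sq_sqrt hV]
    ring
  have t4 : hv 3 2 (a3 V 0 0) = 0 := by
    simp only [hv, Nat.Ico_succ_singleton, sum_singleton]
    rw [w2 _ (by norm_num)]
    ring
  rw [t1, t2, t3, t4] at e3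
  rw [← e3]
  obtain ⟨J, hJ⟩ : ∃ J, J = 1 - K0 := ⟨_, rfl⟩
  have hJ2 : 1 / 2 ≤ J := by linarith
  have hJ0 : 0 < J := by linarith
  have hr0 : 0 < √(1 - K0) := Real.sqrt_pos.2 (by linarith)
  have hlam : J * √(n / 2 : ℝ) / √(1 - K0) ^ 2 = √(n / 2) := by
    rw [Real.sq_sqrt (by linarith), ← hJ]
    field_simp
  have hβJ : 0 < β * J := by positivity
  have hβJ2 : β / 2 ≤ β * J := by nlinarith
  have hyV : 0 ≤ y * V := by positivity
  have h1 := field_spikeG (n := n) (K := 2) (J := J) (b := fun j => β / √n * c j) (w := a3 V 0 0)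
    hn1 hβ0 hJ0 hm (r := √(1 - K0)) (by rw [c1])
    (by rw [m1, w1, Real.sq_sqrt hV]; linarith) hr0
  obtain ⟨V0, hV0⟩ : ∃ V0, V0 = W y √(K0 - T) (W z √T (Fsk n β)) := ⟨_, rfl⟩
  have hGJ : ∀ v : Es n → ℝ,
      GJ n β (VG (tb 3 2 y z) (va (fun j => β / √n * c j) (a3 V 0 0)) (F0 n) 1 2) v =
      V0 fun p => v (Sum.inl p) := by
    intro v
    unfold GJ
    rw [VG_jb (c := c) 2 1 ((Em.pm hm).mono (by omega) (by omega))
      (fun j h1 _ => ⟨rfl, w2 j h1⟩), hV0, ← c2, ← c3, ← m3]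
    nth_rewrite 1 [← m2]
    rfl
  simp only [hGJ] at h1
  rw [hlam, m1, w1, Real.sq_sqrt hV] at h1
  have k1 := (AP.c11_Fsk n β).W' z0 √T
  have k2 := Cv.W (AP.c11_Fsk n β) (AP.cv_Fsk n β) z0 √T
  have k3 := k1.W' hy √(K0 - T)
  have k4 := Cv.W k1 k2 hy √(K0 - T)
  rw [← hV0] at k3 k4
  have hL : Lip V0 := k3.lip.lip k3.B0
  have hrep : Rep (Fsk n β) y (2 * x) K0 V0 := by
    rw [hV0]
    exact H97.Rep.two (AP.c11_Fsk n β) (AP.cv_Fsk n β) hy hyz (by linarith) le_rfl (by linarith)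
      hT hTK
  have e1 : W y √(1 - K0) V0 0 = P2 n β y T z := by
    rw [hV0, W_W k1.lip k1.B0 hy (c := √(1 - T))]
    · rfl
    · rw [Real.sq_sqrt (by linarith), Real.sq_sqrt (by linarith), Real.sq_sqrt (by linarith)]
      ring
  obtain ⟨E, hE⟩ : ∃ E, E = C * (n * x ^ 5) * (K0 / x ^ 2) ^ (-(1 / 1000) : ℝ) := ⟨_, rfl⟩
  have h2 := spikeG (n := n) (R := RR) (E := P2 n β y T z + E) hn1 (by linarith [RR_two]) hy K00
    hK1 hL fun N hN hN1 => by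
      obtain ⟨s, hs⟩ : ∃ s : ℕ → ℝ, s = fun j => √(RR ^ (j + 1) * K0 - RR ^ j * K0) := ⟨_, rfl⟩
      have g := h n ((le_max_left _ _).trans hn) y x K0 N (VV x s V0) hy (hyz.trans hzx) hx hx1 hK
        hN (by rw [pow_succ']; linarith) hrep (fun j _ => by rw [hs]; rfl)
      rw [← hs, hE, ← e1]
      obtain ⟨⟨D', B', L', g1⟩, g2, g3⟩ := VV_le k3 k4 hy (hyz.trans hzx) s N
      refine le_trans ?_ g
      exact (AP.W_mono_b g1 g2 (by positivity) (by gcongr; exact hyz.trans hzx) _ 0).trans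
        (W_mono (lip_VV hL hy s N) (lip_VV hL x0 s N) (by positivity) g3 _ 0)
  obtain ⟨q, hq⟩ : ∃ q, q = y * V / (β * J) := ⟨_, rfl⟩
  rw [← hq] at h1
  have hq0 : 0 ≤ q := by rw [hq]; positivity
  have hq1 : q ≤ 1 / 2 := by
    rw [hq, div_le_iff₀ hβJ]
    linarith
  have h6 := mul_le_mul_of_nonneg_left (neg_log_le hq0 hq1) (by positivity : (0 : ℝ) ≤ n / 2)
  have eA : K0 / y ^ 2 * y ^ 2 = K0 := by field_simp
  have h7 := num_end (A := K0 / y ^ 2) (E := E) (L := Real.log (2 * RR)) (F0 := P2 n β y T z)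
    (F := (skS n 3 (tb 3 2 y z) (fun j => β / √n * c j) (a3 V 0 0)).fe) hn' hβ0 hy hV
    (by rw [eA]; exact hJ) hJ2 hq0 hq (by rw [eA]; exact K00.le) (by linarith)
  rw [show K0 / y ^ 2 * V * y ^ 2 = K0 * V by field_simp] at h7
  rw [← hE]
  exact h7

/-- **The head**, for a large exponent. -/
theorem head_any (hβ : 1 < β) {N ε : ℝ} (hN : 1 ≤ N) (hε : 0 < ε) : ∃ s0 : ℝ, ∃ n0 : ℕ, 0 < s0 ∧
    ∀ n : ℕ, n0 ≤ n → ∀ y z T : ℝ, (n : ℝ) ^ (-(1 / 6) : ℝ) ≤ y → y ≤ (n : ℝ) ^ (-(1 / 10) : ℝ) →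
      0 < z → z ≤ N * y → 0 < T → T ≤ s0 * y ^ 2 →
      P2 n β y T z ≤ P1 n β y + ε * (n * y ^ 5) := by
  obtain ⟨C, η, n0, hC, hη, hη1, h⟩ := e2s hβ
  obtain ⟨σ0, hσ0⟩ : ∃ σ0, σ0 = 1 + N + N * C / ε := ⟨_, rfl⟩
  have p0 : 0 ≤ N * C / ε := by positivity
  have σ1 : 1 ≤ σ0 := by linarith
  refine ⟨σ0 ^ (-600 : ℝ), max n0 1, by positivity, fun n hn y z T hy hy1 hz hzN hT hT1 => ?_⟩
  have hn1 : 1 ≤ n := (le_max_right _ _).trans hn
  have hn' : (0 : ℝ) < n := by exact_mod_cast hn1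
  have y0 : 0 < y := lt_of_lt_of_le (by positivity) hy
  have y1 : y ≤ 1 := H97.rpow_le_one' hn1 (by norm_num) hy1
  obtain ⟨s, hs⟩ : ∃ s, s = T / y ^ 2 := ⟨_, rfl⟩
  have s0 : 0 < s := by rw [hs]; positivity
  have s1 : s ≤ σ0 ^ (-600 : ℝ) := by rwa [hs, div_le_iff₀ (by positivity)]
  have s2 : s ≤ 1 := s1.trans (Real.rpow_le_one_of_one_le_of_nonpos σ1 (by norm_num))
  have T1 : T ≤ 1 := by
    rw [hs, div_le_one (by positivity)] at s2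
    exact s2.trans (pow_le_one₀ y0.le y1)
  obtain ⟨σ, hσ⟩ : ∃ σ, σ = s ^ (-(1 / 600) : ℝ) := ⟨_, rfl⟩
  have σ2 : σ0 ≤ σ := by
    have := Real.rpow_le_rpow_of_nonpos s0 s1 (show (-(1 / 600) : ℝ) ≤ 0 by norm_num)
    rw [← Real.rpow_mul (by linarith), ← hσ] at this
    norm_num at this
    exact this
  have σp : 0 < σ := by linarith
  have k1 := h n ((le_max_left _ _).trans hn) y (y * σ) T hy hy1
    (le_mul_of_one_le_right y0.le (by linarith)) hT T1 (by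
      rw [← hs, hσ]
      exact mul_le_mul_of_nonneg_left (Real.rpow_le_rpow_of_exponent_ge s0 s2 (by linarith)) y0.le)
  have e1 : σ ^ 6 * s ^ (1 / 100 : ℝ) = 1 := by
    rw [hσ, ← Real.rpow_natCast, ← Real.rpow_mul s0.le, ← Real.rpow_add s0]
    norm_num
  have e2 : C * (n * y ^ 4 * (y * σ) * (y * σ / y) ^ 5 * (T / y ^ 2) ^ (1 / 100 : ℝ)) =
      C * (n * y ^ 5) * (σ ^ 6 * s ^ (1 / 100 : ℝ)) := by
    rw [← hs]
    field_simp
  have e3 : P2 n β y T y = P1 n β y := AP.P2_self y0 hT.le T1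
  rw [e2, e1, mul_one, e3] at k1
  obtain ⟨l, hl⟩ : ∃ l, l = N / (σ - 1) := ⟨_, rfl⟩
  have σ3 : 0 < σ - 1 := by linarith
  have l0 : 0 ≤ l := by rw [hl]; positivity
  have l1 : l ≤ 1 := by rw [hl, div_le_one σ3]; linarith
  have l2 : l * C ≤ ε := by
    rw [hl, div_mul_eq_mul_div, div_le_iff₀ σ3]
    have : N * C / ε ≤ σ - 1 := by linarith
    rwa [div_le_iff₀' hε] at this
  have k2 := AP.P2_convex (n := n) (β := β) (T := T) y0 (show 0 ≤ 1 - l by linarith) l0 (by ring)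
    y0 (mul_pos y0 σp)
  have e4 : (1 - l) * y + l * (y * σ) = y + N * y := by
    rw [hl]
    field_simp
    ring
  rw [e4, e3] at k2
  have k3 := AP.P2_mono_b (n := n) (β := β) (T := T) y0 hz (show z ≤ y + N * y by linarith)
  have k4 := mul_le_mul_of_nonneg_left k1 l0
  have k5 := mul_le_mul_of_nonneg_right l2 (show 0 ≤ (n : ℝ) * y ^ 5 by positivity)
  linarith

/-- the field of the head is moved to the root -/
lemma move_root {y0 Y V1 A E B1 B2 V V2 r : ℝ} (hn : 0 < n) (hβ : 0 ≤ β)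
    (hA : Ap n β y0 Y V1 A E) (hy0 : 0 < y0) (hy : y0 ≤ y) (hyz : y ≤ z) (hz : 2 * z ≤ Y)
    (hY : Y ≤ 1) (hB1 : 0 ≤ B1) (hB2 : 0 < B2) (hB : B1 + B2 = β ^ 2 / n) (hV2 : 0 ≤ V2)
    (hV : V2 ≤ V) (hV1 : V ≤ V1) (hr : 0 ≤ r)
    (hE : 1 / n + 8 * E / (n ^ 2 * z * B2) ≤ r ^ 2) :
    (skS n 2 (tb 2 1 y z) (a2 B1 B2) (a2 (V - V2) V2)).fe ≤
      (skS n 2 (tb 2 1 y z) (a2 B1 B2) (a2 V 0)).fe + V2 / 2 * (z * (n * r)) := by
  have y1 : 0 < y := hy0.trans_le hy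
  have z0 : 0 < z := y1.trans_le hyz
  have hn' : (0 : ℝ) < n := by exact_mod_cast hn
  have hm := em_tb le_rfl one_lt_two y1 hyz (show z ≤ 1 by linarith)
  have hm' := em_tb le_rfl one_lt_two y1 (show y ≤ 2 * z by linarith) (hz.trans hY)
  have h := fe_super (n := n) hm (na_a2 B1 B2 2) (na_a2 V 0 2) (na_a2 B1 B2 2)
    (na_a2 (V - V2) V2 2)
  have tB : tv 2 (a2 B1 B2) = β ^ 2 / n := by rw [tv_a2 hB1 hB2.le, hB]
  have tV : tv 2 (a2 V 0) ≤ V1 := by rw [tv_a2 (hV2.trans hV) le_rfl]; linarith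
  have n1 := near hA ⟨hm, one_le_two, hy0, hY, by rwa [tb_lo le_rfl le_rfl],
    by rw [tb_hi one_lt_two le_rfl]; linarith⟩ hβ tB tV
  have n2 := near hA ⟨hm', one_le_two, hy0, hY, by rwa [tb_lo le_rfl le_rfl],
    by rwa [tb_hi one_lt_two le_rfl]⟩ hβ tB tV
  have q1 := Tq_up (w := a2 V 0) (l := 1) hn hm hm' (na_a2 B1 B2 2) (na_a2 V 0 2)
    (fun j j1 j2 => by
      rcases le_or_gt j 1 with h | h
      · rw [tb_lo j1 h, tb_lo j1 h]
      · rw [tb_hi h j2, tb_hi h j2]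
        linarith) one_le_two z0 hB2
    (fun j j1 j2 => by rw [tb_hi j1 j2, tb_hi j1 j2]; linarith)
    (by rw [show 1 + 1 = 2 from rfl, Nat.Ico_succ_singleton, sum_singleton, a2_two,
      Real.sq_sqrt hB2.le])
  have q2 : Tq n 2 (tb 2 1 y z) (a2 B1 B2) (a2 V 0) 1 ≤ r ^ 2 := by
    refine q1.trans (le_trans (add_le_add le_rfl ?_) hE)
    exact div_le_div_of_nonneg_right (by linarith [(abs_le.1 n1).1, (abs_le.1 n2).2])
      (by positivity)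
  have q3 : Rq n 2 (tb 2 1 y z) (a2 B1 B2) (a2 V 0) 1 ≤ r :=
    (Rq_le_sqrt hn hm one_le_two).trans (Real.sqrt_le_iff.2 ⟨hr, q2⟩)
  have q4 := Rq_nonneg (b := a2 B1 B2) (w := a2 V 0) hn hm one_le_two
  have e : gv n 2 (tb 2 1 y z) (a2 B1 B2) (a2 V 0) (a2 B1 B2) (a2 (V - V2) V2) =
      V2 / 2 * ((z - y) * (n * Rq n 2 (tb 2 1 y z) (a2 B1 B2) (a2 V 0) 1)) := by
    unfold gv
    rw [Fin.sum_univ_two]
    simp only [Fin.val_zero, Fin.val_one, zero_add, show 1 + 1 = 2 from rfl, a2_one, a2_two,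
      cSK_eq]
    rw [sum_eq_sum_Ico_succ_bot (show 1 < 2 + 1 by norm_num), QW_eq hn,
      Real.sq_sqrt (sub_nonneg.2 hV), Real.sq_sqrt (hV2.trans hV), Real.sq_sqrt hV2,
      Real.sq_sqrt le_rfl, tb_lo le_rfl le_rfl, tb_hi (j := 1 + 1) one_lt_two le_rfl]
    ring
  rw [e] at h
  refine h.trans (add_le_add le_rfl ?_)
  gcongr
  linarith

lemma up_num {n u y V V2 k β L A N ρ ε : ℝ} (hn : 0 < n) (hu : 0 < u) (hu1 : u ≤ 1) (hβ : 1 ≤ β)
    (hy : u / 2 ≤ y) (hy2 : y ≤ 2 * u) (hV2 : V2 ≤ V) (hV0 : 0 ≤ V) (hV : V ≤ k * u ^ 3)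
    (hk : 0 < k) (hk1 : k ≤ 1) (hL : 0 ≤ L) (hA : 0 ≤ A) (hN : 0 ≤ N) (hρ : 0 ≤ ρ)
    (h1 : β / 2 + L ≤ ε / 4 * (n * u ^ 6)) (h2 : k * (N * ρ + A * N ^ 2 + 4) ≤ ε / 4) :
    V2 / 2 * (N * u * (n * (ρ * u))) + (β / 2 + L / (2 * y) + n * (A * (N * u) ^ 2 * V) / β +
      2 * n * y * V ^ 2 / β ^ 2) ≤ ε / 2 * (n * u ^ 5) := by
  have y0 : 0 < y := by linarith
  have a1 : V2 / 2 * (N * u * (n * (ρ * u))) ≤ k * (N * ρ) * (n * u ^ 5) := by
    calc V2 / 2 * (N * u * (n * (ρ * u))) ≤ k * u ^ 3 * (N * u * (n * (ρ * u))) :=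
          mul_le_mul_of_nonneg_right (by linarith) (by positivity)
      _ = _ := by ring
  have a2 : β / 2 + L / (2 * y) ≤ ε / 4 * (n * u ^ 5) := by
    have b1 : L / (2 * y) ≤ L / u := div_le_div_of_nonneg_left hL hu (by linarith)
    have b2 : β / 2 ≤ β / 2 / u := le_div_self (by linarith) hu hu1
    have b3 : (β / 2 + L) / u ≤ ε / 4 * (n * u ^ 5) := by
      rw [div_le_iff₀ hu]
      linarith
    rw [add_div] at b3
    linarith
  have a3 : n * (A * (N * u) ^ 2 * V) / β ≤ k * (A * N ^ 2) * (n * u ^ 5) := by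
    calc n * (A * (N * u) ^ 2 * V) / β ≤ n * (A * (N * u) ^ 2 * V) :=
          div_le_self (by positivity) hβ
      _ ≤ n * (A * (N * u) ^ 2 * (k * u ^ 3)) := by gcongr
      _ = _ := by ring
  have a4 : 2 * n * y * V ^ 2 / β ^ 2 ≤ k * 4 * (n * u ^ 5) := by
    have b1 : k * u ^ 2 ≤ 1 := mul_le_one₀ hk1 (by positivity) (pow_le_one₀ hu.le hu1)
    calc 2 * n * y * V ^ 2 / β ^ 2 ≤ 2 * n * y * V ^ 2 :=
          div_le_self (by positivity) (one_le_pow₀ hβ)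
      _ ≤ 2 * n * (2 * u) * (k * u ^ 3) ^ 2 := by gcongr
      _ = k * 4 * (n * u ^ 5) * (k * u ^ 2) := by ring
      _ ≤ _ := mul_le_of_le_one_right (by positivity) b1
  have a5 := mul_le_mul_of_nonneg_right h2 (show 0 ≤ n * u ^ 5 by positivity)
  linarith

/-- reduction to two levels -/
lemma red_two (hm : Em K m) (ha : 1 ≤ a) (haK : a < K) (y0 : 0 < y) (yz : y ≤ z) (z1 : z ≤ 1)
    (hma : m a ≤ y) (hmK : m K ≤ z) (htb : tv K b = β ^ 2 / n) (e1 : hv K a b = β ^ 2 / n * T) :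
    (skS n K m b w).fe ≤ (skS n 2 (tb 2 1 y z) (a2 (β ^ 2 / n * (1 - T)) (β ^ 2 / n * T))
      (a2 (tv K w - hv K a w) (hv K a w))).fe := by
  have c2 := fe_mono_m (n := n) hm (em_tb ha haK y0 yz z1)
    (fun j j1 j2 => by
      rcases le_or_gt j a with h | h
      · rw [tb_lo j1 h]
        exact (em_mono hm h (by omega)).trans hma
      · rw [tb_hi h j2]
        exact (em_mono hm j2 (by omega)).trans hmK) b w
  have e2 : tv a b = β ^ 2 / n * (1 - T) := by linarith [tv_split haK.le b]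
  have e3 : tv a w = tv K w - hv K a w := by linarith [tv_split haK.le w]
  rwa [fe_tb ha haK y0 yz z1, e1, e2, e3] at c2

/-- the move of the field in the units of the scale -/
lemma move_u {u N A B V V2 ρ : ℝ} (hn : 0 < n) (hβ : 0 < β) (u0 : 0 < u) (N0 : 0 < N)
    (hT : 0 < T) (T2 : T ≤ 1) (hA : Ap n β (u / 2) (2 * N * u) (u ^ 3) A (B * (n * u ^ 5)))
    (hy : u / 2 ≤ y) (yz : y ≤ N * u) (z1 : 2 * N * u ≤ 1) (u1 : u ≤ 1) (n6 : 1 ≤ n * u ^ 6)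
    (hV2 : 0 ≤ V2) (hV : V2 ≤ V) (hV1 : V ≤ u ^ 3) (ρ0 : 0 ≤ ρ)
    (ρ2 : ρ ^ 2 = 1 + 8 * B / (N * β ^ 2 * T)) :
    (skS n 2 (tb 2 1 y (N * u)) (a2 (β ^ 2 / n * (1 - T * u ^ 2)) (β ^ 2 / n * (T * u ^ 2)))
      (a2 (V - V2) V2)).fe ≤
    (skS n 2 (tb 2 1 y (N * u)) (a2 (β ^ 2 / n * (1 - T * u ^ 2)) (β ^ 2 / n * (T * u ^ 2)))
      (a2 V 0)).fe + V2 / 2 * (N * u * (n * (ρ * u))) := by
  have hN0 : (0 : ℝ) < n := by exact_mod_cast hn
  have u2 : u ^ 2 ≤ 1 := pow_le_one₀ u0.le u1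
  have Tu : T * u ^ 2 ≤ u ^ 2 := mul_le_of_le_one_left (by positivity) T2
  refine move_root hn hβ.le hA (by linarith) hy yz (by linarith) z1
    (mul_nonneg (by positivity) (by linarith)) (by positivity) (by ring) hV2 hV hV1
    (by positivity) ?_
  have f1 : 8 * (B * (n * u ^ 5)) / (n ^ 2 * (N * u) * (β ^ 2 / n * (T * u ^ 2))) =
      8 * B / (N * β ^ 2 * T) * u ^ 2 := by field_simp
  have f2 : 1 / (n : ℝ) ≤ u ^ 2 := by
    rw [div_le_iff₀ hN0]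
    have f3 : u ^ 6 ≤ u ^ 2 := pow_le_pow_of_le_one u0.le u1 (by norm_num)
    have f4 := mul_le_mul_of_nonneg_left f3 hN0.le
    linarith
  rw [f1, mul_pow, ρ2]
  linarith

lemma up_end {F F1 F2 P Q n u V β C N A ε M R : ℝ} (hn : 0 < n) (u0 : 0 < u) (y0 : 0 < y)
    (hy2 : y ≤ 2 * u) (hε : 0 < ε) (c2 : F ≤ F1) (c3 : F1 ≤ F2 + M)
    (c4 : F2 ≤ Q + n * V / (2 * β) + (R + C * (n * (N * u) ^ 5) * A))
    (c5 : Q ≤ P + ε / 128 * (n * y ^ 5)) (c6 : M + R ≤ ε / 2 * (n * u ^ 5))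
    (hAC : C * N ^ 5 * A ≤ ε / 4) : F ≤ P + n / (2 * β) * V + ε * (n * u ^ 5) := by
  have c7 : y ^ 5 ≤ 32 * u ^ 5 := by
    have := pow_le_pow_left₀ y0.le hy2 5
    linarith [show (2 * u) ^ 5 = 32 * u ^ 5 by ring]
  have c8 := mul_le_mul_of_nonneg_left c7 (show 0 ≤ ε / 128 * n by positivity)
  have c9 := mul_le_mul_of_nonneg_right hAC (show 0 ≤ n * u ^ 5 by positivity)
  have e4 : n * V / (2 * β) = n / (2 * β) * V := by ring
  have e5 : C * (n * (N * u) ^ 5) * A = C * N ^ 5 * A * (n * u ^ 5) := by ring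
  rw [e4, e5] at c4
  linarith

lemma up_side {u N A k V s0 : ℝ} (u0 : 0 < u) (hN : 2 ≤ N) (hA : 4 ≤ A) (hβ : 1 < β)
    (T2 : T ≤ 1) (T1 : T ≤ s0 / 4) (hs0 : 0 < s0) (hy : u / 2 ≤ y) (hy2 : y ≤ 2 * u)
    (u1 : 2 * N * u ≤ 1) (k1 : k ≤ 1) (V0 : 0 ≤ V) (hV : V ≤ k * u ^ 3)
    (h4 : (N * u) ^ 2 ≤ 1 / (2 * A)) :
    4 * (N * u) ^ 2 ≤ A * (N * u) ^ 2 ∧ A * (N * u) ^ 2 ≤ 1 / 2 ∧
      2 * (T * u ^ 2) ≤ A * (N * u) ^ 2 ∧ 4 * (y * V) ≤ β ∧ N * u ≤ 2 * N * y ∧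
      T * u ^ 2 ≤ s0 * y ^ 2 ∧ V ≤ u ^ 3 := by
  have uN : 2 * u ≤ N * u := mul_le_mul_of_nonneg_right hN u0.le
  have A2 : 4 * (N * u) ^ 2 ≤ A * (N * u) ^ 2 := mul_le_mul_of_nonneg_right hA (by positivity)
  have A3 : u ^ 2 ≤ (N * u) ^ 2 := pow_le_pow_left₀ u0.le (by linarith) 2
  have Tu : T * u ^ 2 ≤ u ^ 2 := mul_le_of_le_one_left (by positivity) T2
  have u3 : k * u ^ 3 ≤ u ^ 3 := mul_le_of_le_one_left (by positivity) k1
  refine ⟨A2, ?_, by linarith [sq_nonneg u], ?_, ?_, ?_, hV.trans u3⟩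
  · rw [le_div_iff₀ (by linarith)] at h4
    linarith
  · have f1 : u ^ 3 ≤ (1 / 4) ^ 3 := pow_le_pow_left₀ u0.le (by linarith) 3
    have f2 : y * V ≤ 1 * (1 / 4) ^ 3 := mul_le_mul (by linarith) (by linarith) V0 zero_le_one
    linarith
  · have := mul_le_mul_of_nonneg_left hy (show 0 ≤ N by linarith)
    linarith
  · have f1 : (u / 2) ^ 2 ≤ y ^ 2 := pow_le_pow_left₀ (by positivity) hy 2
    have f2 := mul_le_mul_of_nonneg_left f1 hs0.le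
    have f3 := mul_le_mul_of_nonneg_right T1 (sq_nonneg u)
    linarith

/-- **LINK, upper side.** -/
theorem linkUp (hβ : 1 < β) : LinkUp β := by
  intro N ε hN hε
  have hβ0 : 0 < β := by linarith
  have N0 : 0 < N := by linarith
  obtain ⟨s0, n1, hs0, h1⟩ := head_any hβ (N := 2 * N) (by linarith)
    (show 0 < ε / 128 by positivity)
  refine ⟨min (s0 / 4) 1, lt_min (by positivity) one_pos, fun T hT hT0 => ?_⟩
  have T1 : T ≤ s0 / 4 := hT0.trans (min_le_left _ _)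
  have T2 : T ≤ 1 := hT0.trans (min_le_right _ _)
  obtain ⟨B, K1, n2, hB, h2⟩ := box hβ (2 * N) (by linarith)
  obtain ⟨C, n5, hC, h5⟩ := rem_core hβ
  obtain ⟨A, hA, -, hAC⟩ := H97.small_A (C * N ^ 5) (show 0 < ε / 4 by positivity) 0
  obtain ⟨n3, hn3, h3⟩ := ev_top (show 0 < 2 * N by linarith)
  obtain ⟨n4, -, h4⟩ := H97.ev_small (c := 1 / (2 * A)) (by positivity)
  obtain ⟨ρ, ρ0, ρ2⟩ : ∃ ρ, 0 ≤ ρ ∧ ρ ^ 2 = 1 + 8 * B / (N * β ^ 2 * T) :=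
    ⟨√_, Real.sqrt_nonneg _, Real.sq_sqrt (by positivity)⟩
  have L0 : 0 ≤ Real.log (2 * RR) := Real.log_nonneg (by linarith [RR_two])
  generalize Real.log (2 * RR) = L at h5 L0
  have G0 : 0 < N * ρ + A * N ^ 2 + 4 := by positivity
  obtain ⟨k, k0, k1, k2⟩ : ∃ k, 0 < k ∧ k ≤ 1 ∧ k * (N * ρ + A * N ^ 2 + 4) ≤ ε / 4 :=
    ⟨min 1 (ε / 4 / _), lt_min one_pos (div_pos (by positivity) G0), min_le_left _ _,
      (le_div_iff₀ G0).1 (min_le_right _ _)⟩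
  obtain ⟨K2, K21, K22⟩ : ∃ K2, 2 ≤ K2 ∧ (β / 2 + L) / (ε / 4) ≤ K2 :=
    ⟨max _ _, le_max_left _ _, le_max_right _ _⟩
  refine ⟨k, max K1 K2, max (max (max n1 n2) n5) (max n3 n4), k0,
    fun n hn u hu y K a m b w hy hy2 hm ha haK hma hmK hb hw htb hhd hV => ?_⟩
  have hn0 : 0 < n := by omega
  have hN0 : (0 : ℝ) < n := by exact_mod_cast hn0
  have r2 := hu.wk (le_max_right K1 K2)
  have u0 : 0 < u := r2.pos (by linarith) hn0
  obtain ⟨a1, a2', a3'⟩ := h3 n (by omega) _ u hu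
  have y0 : 0 < y := by linarith
  have uN : 2 * u ≤ N * u := mul_le_mul_of_nonneg_right hN u0.le
  have b1 := r2.half (K := 1) (by linarith)
  rw [one_mul] at b1
  have yz : y ≤ N * u := hy2.trans uN
  have z1 : 2 * N * u ≤ 1 := (a1.trans a2').trans a3'
  have z2 : N * u ≤ (n : ℝ) ^ (-(21 / 200) : ℝ) := by linarith
  have V0 := tv_nonneg K w
  have V2 : hv K a w ≤ tv K w := by linarith [tv_nonneg a w, tv_split haK.le w]
  have n7 : K2 ≤ n * u ^ 6 :=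
    (le_self_pow₀ (by linarith) (by norm_num)).trans (H97.nxK (by linarith) hn0 r2.1)
  obtain ⟨s1, s2, s3, s4, s5, s6, s7⟩ := up_side u0 hN hA hβ T2 T1 hs0 hy hy2 z1 k1 V0 hV
    (h4 n (by omega) (N * u) (by positivity) z2)
  have c4 := h5 n (by omega) y (N * u) (N * u) (T * u ^ 2) (A * (N * u) ^ 2) (tv K w) y0 yz le_rfl
    (by linarith) z2 s1 s2 (by positivity) s3 V0 s4
  rw [mul_div_cancel_right₀ _ (by positivity : (N * u) ^ 2 ≠ 0)] at c4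
  exact up_end hN0 u0 y0 hy2 hε (red_two hm ha haK y0 yz (by linarith) hma hmK htb hhd)
    (move_u hn0 hβ0 u0 N0 hT T2 (h2 n (by omega) u (hu.wk (le_max_left _ _))) hy yz z1
      (by linarith) (by linarith) (hv_nonneg K a w) V2 s7 ρ0 ρ2) c4
    (h1 n (by omega) y (N * u) (T * u ^ 2) (b1.trans hy) (yz.trans (z2.trans a2'))
      (by positivity) s5 (by positivity) s6)
    (up_num hN0 u0 (by linarith) hβ.le hy hy2 V2 V0 hV k0 k1 L0 (by linarith) N0.le ρ0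
      ((div_le_iff₀' (by positivity)).1 (K22.trans n7)) k2) hAC

end Vale.Agent.N146.Sharp
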