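import Vale.Agent.N146.Sharp.Defs
import Vale.Agent.N146.DeepB

/-!
# P146 (c): the packages `M4`, `Sel`, `Deep`, `Resp` (helper86)
-/

namespace Vale.Agent.N146.Sharp

open Finset
open Vale.Agent.P157 Vale.Agent.P157.Lv Vale.Agent.P157.Lv.Sy
open Vale.Agent.P146 Vale.Agent.P146.U
open Vale.Agent.P146.H93 (skS Em)
open Vale.Agent.P146.H479 (Na)
open Vale.Agent.P146.H758 (tv Ap Pu em_mono)
open Vale.Agent.P146.H186 (cSK amp amp_mem)
open Vale.Agent.P146.H295 (gg spn zs zs_eq)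
open Vale.Agent.P146.H66 (nP nP_eq)
open Vale.Agent.N146.Deep Vale.Agent.N146.Four

lemma m4_num {c1 c2 τ E0 n x m1 mQ P bQ A : ℝ} (hc1 : 0 < c1) (hc2 : 0 < c2) (hτ : 0 < τ)
    (hE : 0 < E0) (hn : 2 ≤ n) (hx : 0 < x) (h1 : c1 * x ≤ m1) (h1Q : m1 ≤ mQ)
    (hP : P = n * (n - 1) / 2) (hb : τ * x ^ 2 ≤ n * bQ ^ 2) (hA0 : 0 ≤ A)
    (hA : A ≤ (1 + c2 * E0) * (n * x ^ 6)) :
    A / (1 * (m1 * mQ * (P * bQ ^ 2))) ≤ 4 * (1 + c2 * E0) / (c1 ^ 2 * τ) * x ^ 2 := by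
  have hn0 : 0 < n := by linarith
  have k0 : 0 < c1 * x := by positivity
  have k1 : (c1 * x) ^ 2 ≤ m1 * mQ := by nlinarith
  have k2 : n / 4 * (τ * x ^ 2) ≤ P * bQ ^ 2 := by
    have a1 : n / 4 * (τ * x ^ 2) ≤ n / 4 * (n * bQ ^ 2) :=
      mul_le_mul_of_nonneg_left hb (by positivity)
    have a2 : n / 4 * n ≤ P := by rw [hP]; nlinarith
    have a3 := mul_le_mul_of_nonneg_right a2 (sq_nonneg bQ)
    nlinarith
  have k3 : (c1 * x) ^ 2 * (n / 4 * (τ * x ^ 2)) ≤ m1 * mQ * (P * bQ ^ 2) :=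
    mul_le_mul k1 k2 (by positivity) ((sq_nonneg _).trans k1)
  have k4 : 0 < (c1 * x) ^ 2 * (n / 4 * (τ * x ^ 2)) := by positivity
  rw [one_mul]
  calc A / (m1 * mQ * (P * bQ ^ 2)) ≤ A / ((c1 * x) ^ 2 * (n / 4 * (τ * x ^ 2))) :=
        div_le_div_of_nonneg_left hA0 k4 k3
    _ ≤ (1 + c2 * E0) * (n * x ^ 6) / ((c1 * x) ^ 2 * (n / 4 * (τ * x ^ 2))) :=
        div_le_div_of_nonneg_right hA k4.le
    _ = _ := by field_simp

/-- **The fourth moment.** -/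
theorem m4 : M4 := by
  intro c1 c2 τ E0 hc1 hc2 hτ hE
  obtain ⟨G, hG⟩ : ∃ G, G = 4 * (1 + c2 * E0) / (c1 ^ 2 * τ) := ⟨_, rfl⟩
  have hG0 : 0 ≤ G := by rw [hG]; positivity
  refine ⟨540 * G ^ 2 + 2, by nlinarith [sq_nonneg G], ?_⟩
  intro n K Q l m b w x hn hm hQK hl hx hx1 hnx h1 hQ h2 hb _ hbQ hfe
  have hn' : (2 : ℝ) ≤ n := by exact_mod_cast hn
  have hQ1 : 1 ≤ Q := by omega
  have h1Q : m 1 ≤ m Q := em_mono hm hQ1 (by omega)
  have hbp : 0 < b Q := by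
    refine lt_of_le_of_ne (hb Q hQ1 hQK.le) fun h0 => ?_
    rw [← h0] at hbQ
    have : 0 < τ * x ^ 2 := by positivity
    nlinarith
  have e : upQ Q 1 m = Function.update m Q (2 * m Q) := by
    funext j
    unfold upQ
    by_cases h : j = Q
    · rw [if_pos h, h, Function.update_self]
      ring
    · rw [if_neg h, Function.update_of_ne h]
  have hA : max 1 (m 1 * (E0 * (n * x ^ 5))) ≤ (1 + c2 * E0) * (n * x ^ 6) := by
    have a1 : 0 ≤ c2 * E0 * (n * x ^ 6) := by positivity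
    refine max_le (by linarith) ?_
    have a2 : m 1 * (E0 * (n * x ^ 5)) ≤ c2 * x * (E0 * (n * x ^ 5)) :=
      mul_le_mul_of_nonneg_right (h1Q.trans hQ) (by positivity)
    have a3 : c2 * x * (E0 * (n * x ^ 5)) = c2 * E0 * (n * x ^ 6) := by ring
    linarith
  have k := sk_four_cut (n := n) (w := w) (κ := 1) hn hQ1 hQK.le hm hbp one_pos le_rfl
    (by linarith) (A := max 1 (m 1 * (E0 * (n * x ^ 5)))) (le_max_left _ _)
    (by
      rw [e]
      exact (mul_le_mul_of_nonneg_left hfe hm.pos.le).trans (le_max_right _ _))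
    (show l < Q by omega)
  have k1 := m4_num hc1 hc2 hτ hE hn' hx h1 h1Q (nP_eq n) hbQ
    ((zero_le_one).trans (le_max_left 1 (m 1 * (E0 * (n * x ^ 5))))) hA
  rw [← hG] at k1
  have k0 : 0 ≤ max 1 (m 1 * (E0 * (n * x ^ 5))) / (1 * (m 1 * m Q * (nP n * b Q ^ 2))) := by
    have a1 : 0 < m 1 := hm.pos
    have a2 : 0 < m Q := a1.trans_le h1Q
    have a3 : (0 : ℝ) ≤ max 1 (m 1 * (E0 * (n * x ^ 5))) := (zero_le_one).trans (le_max_left _ _)
    positivity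
  have k2 := pow_le_pow_left₀ k0 k1 2
  have k3 : 2 / (n : ℝ) ^ 2 ≤ 2 * x ^ 4 := by
    rw [div_le_iff₀ (by positivity)]
    have a1 : x ^ 6 ≤ x ^ 2 := pow_le_pow_of_le_one hx.le hx1 (by norm_num)
    have a2 : 1 ≤ n * x ^ 2 := hnx.trans (mul_le_mul_of_nonneg_left a1 (by positivity))
    nlinarith
  have k4 : (540 * G ^ 2 + 2) * x ^ 4 ≤ ((540 * G ^ 2 + 2) * x) ^ 4 := by
    rw [mul_pow]
    refine mul_le_mul_of_nonneg_right ?_ (by positivity)
    exact le_self_pow₀ (by nlinarith [sq_nonneg G]) (by norm_num)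
  refine le_trans ?_ k4
  refine le_trans k ?_
  have k5 : (G * x ^ 2) ^ 2 = G ^ 2 * x ^ 4 := by ring
  rw [k5] at k2
  linarith

/-- the extension by zero -/
noncomputable def ext0 (P : Finset ℕ) (v : {p // p ∈ P} → ℝ) (j : ℕ) : ℝ :=
  if h : j ∈ P then v ⟨j, h⟩ else 0

lemma amp_ext0 (P : Finset ℕ) (v : {p // p ∈ P} → ℝ) :
    amp (fun _ => 0) P v = fun j => √(ext0 P v j) := by
  funext j
  unfold amp ext0
  by_cases h : j ∈ P
  · rw [dif_pos h, dif_pos h]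
  · rw [dif_neg h, dif_neg h, Real.sqrt_zero]

lemma ext0_mem (P : Finset ℕ) (v : {p // p ∈ P} → ℝ) {j : ℕ} (h : j ∈ P) :
    ext0 P v j = v ⟨j, h⟩ := dif_pos h

/-- **The selection.** -/
theorem sel : Sel := by
  intro n K hK m b c R δ y hn hm h1 h2
  have hP : ∀ p ∈ Icc 1 K, 1 ≤ p ∧ p ≤ K := fun p hp => mem_Icc.1 hp
  have hb : ∀ v ∈ BxA (fun p : {p // p ∈ Icc 1 K} => c p) (fun p => R p), ∀ p, 1 ≤ p → p ≤ K →
      |cSK n K m b (amp (fun _ => 0) (Icc 1 K) v) p - y p| ≤ δ p := by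
    intro v hv
    rw [amp_ext0]
    refine h2 _ fun p hp1 hp2 => ?_
    rw [ext0_mem _ _ (mem_Icc.2 ⟨hp1, hp2⟩)]
    exact hv ⟨p, mem_Icc.2 ⟨hp1, hp2⟩⟩
  obtain ⟨v, hv, hg⟩ := sel_ggB (J := Unit) (n := n) (K := fun _ => K) (m := fun _ => m)
    (b := fun _ => b) (w := fun _ _ => 0) (P := Icc 1 K) (c := fun p => c p) (R := fun p => R p)
    (δ := fun p => 2 * δ p) hn (fun _ => hm) (fun _ => hP)
    (fun p => (h1 p (hP p p.2).1 (hP p p.2).2).1)
    (fun p => by linarith [(h1 p (hP p p.2).1 (hP p p.2).2).2.2])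
    (fun p => (h1 p (hP p p.2).1 (hP p p.2).2).2.1)
    (fun _ v hv p => by
      have a1 := abs_le.1 (hb v hv p (hP p p.2).1 (hP p p.2).2)
      have a2 := abs_le.1 (hb (fun p => c p) (fun q => by
        simpa using (h1 q (hP q q.2).1 (hP q q.2).2).1.le) p (hP p p.2).1 (hP p p.2).2)
      rw [abs_le]
      constructor <;> linarith [a1.1, a1.2, a2.1, a2.2])
  refine ⟨ext0 (Icc 1 K) v, fun p hp1 hp2 => ?_, fun p hp1 hp2 => ?_⟩
  · rw [ext0_mem _ _ (mem_Icc.2 ⟨hp1, hp2⟩)]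
    exact hv ⟨p, mem_Icc.2 ⟨hp1, hp2⟩⟩
  · have k := hg () (zs hK) ⟨p, mem_Icc.2 ⟨hp1, hp2⟩⟩ (funext fun i => zs_eq hK ⟨hp1, hp2⟩ i)
    rw [amp_ext0] at k
    refine k.trans (le_of_eq ?_)
    simp only [Fintype.card_unit, Nat.cast_one]
    ring

lemma dv_eq (Q J : ℕ) (w : ℕ → ℝ) : dv Q (Q + J) w = ∑ j ∈ Ico (Q + 1) (Q + J + 1), w j ^ 2 := by
  unfold dv
  exact Finset.sum_Ico_add' (fun j => w j ^ 2) Q (Q + J) 1

/-- **Removal of the deep levels.** -/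
theorem deep : Deep := by
  intro n Q J m b w hm hQ hb0 _ _
  have k := fe_tr (n := n) hm hQ (Nat.le_add_right Q J) b w
  rw [dv_zero fun j h _ => hb0 j h, dv_eq] at k
  have e : tr Q m = mlow Q m := rfl
  rw [e] at k
  exact ⟨k.1, by linarith [k.2]⟩

lemma amp_single (w : ℕ → ℝ) (p : ℕ) (t : ℝ) :
    amp w {p} (fun _ => t) = Function.update w p √t := by
  funext j
  unfold amp
  by_cases h : j = p
  · subst h
    rw [dif_pos (mem_singleton_self j), Function.update_self]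
  · rw [dif_neg fun h' => h (mem_singleton.1 h'), Function.update_of_ne h]

lemma dv_update {Q K p : ℕ} (f : ℕ → ℝ) (hp : p ≤ Q) (t : ℝ) :
    dv Q K (Function.update f p t) = dv Q K f := by
  refine Finset.sum_congr rfl fun j hj => ?_
  have := (mem_Ico.1 hj).1
  rw [Function.update_of_ne (by omega)]

/-- **The responses.** -/
theorem resp : Resp := by
  intro n Q J β y Y V1 A E R m b w hβ hm hQ hb0 _ hw
  refine ⟨fun p _ hp => cSK_mem hm (by omega), ?_⟩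
  intro hA hy hy1 hY hY1 hb hR hV p hp1 hp2 hc
  have hD : ExD (Q + J) Q m y Y := ⟨hm, hQ, Nat.le_add_right Q J, hy, hY1, hy1, hY⟩
  have hP : ∀ q ∈ ({p} : Finset ℕ), 1 ≤ q ∧ q ≤ Q + J := by
    intro q hq
    rw [mem_singleton] at hq
    omega
  have k := respD (n := n) (w := w) (P := {p}) (D := dv Q (Q + J) w) hA hD hβ hb
    (fun j h _ => hb0 j h) hP (c := fun _ => w p ^ 2) (R := fun _ => R) (fun _ => hR)
    (fun _ => hc)
    (by
      rw [amp_single, tv_update _ hp1 hp2, Real.sq_sqrt (by positivity)]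
      linarith)
    (by rw [amp_single, dv_update _ hp2]) (v := fun _ => w p ^ 2)
    (fun _ => by simpa using hR.le) ⟨p, mem_singleton_self p⟩ hp2
  rw [amp_single, Real.sqrt_sq (hw p hp1 (by omega)), Function.update_eq_self, dv_eq] at k
  refine k.trans (div_le_div_of_nonneg_right ?_ hR.le)
  have h0 : 0 ≤ ∑ j ∈ Ico (Q + 1) (Q + J + 1), w j ^ 2 := sum_nonneg fun _ _ => sq_nonneg _
  have h1 : (0 : ℝ) ≤ n * ∑ j ∈ Ico (Q + 1) (Q + J + 1), w j ^ 2 := by positivity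
  linarith

end Vale.Agent.N146.Sharp
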