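import Vale.Agent.N146.Sharp.RDef

/-! P146 (c): the K-side of the real-number part. -/

namespace Vale.Agent.N146.Sharp

open Finset

namespace RK

theorem tele {G : ℕ → Prop} [DecidablePred G] {x Φ : ℕ → ℝ} {B X : ℝ} (h0 : ∀ k, G k → 0 ≤ Φ k)
    (h1 : ∀ j k, G j → G k → j < k → x j ≤ Φ k - Φ j) (hB : ∀ k, G k → Φ k ≤ B)
    (hX : ∀ k, G k → x k ≤ X) (hBX : 0 ≤ B + X) (n : ℕ) :
    ∑ j ∈ range n, (if G j then x j else 0) ≤ B + X := by
  have hP : ∀ l k, G k → l ≤ k → ∑ j ∈ range l, (if G j then x j else 0) ≤ Φ k := by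
    intro l
    induction l with
    | zero => intro k hk _; simpa using h0 k hk
    | succ l ih =>
      intro k hk hl
      rw [sum_range_succ]
      split_ifs with h
      · linarith [ih l h le_rfl, h1 l k h hk hl]
      · linarith [ih k hk (Nat.le_of_succ_le hl)]
  induction n with
  | zero => simpa using hBX
  | succ l ih =>
    rw [sum_range_succ]
    split_ifs with h
    · linarith [hP l l h le_rfl, hB l h, hX l h]
    · linarith

/-- the primitive of `s ^ 2 (1 - 2 c s)` -/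
noncomputable def psi (c s : ℝ) : ℝ := s ^ 3 / 3 - c * s ^ 4 / 2

theorem psi_low {c x y : ℝ} (hc : 0 < c) (hx : 0 ≤ x) (hxy : x ≤ y) (hy : 2 * c * y ≤ 1) :
    x ^ 2 * ((y - c * y ^ 2) - (x - c * x ^ 2)) ≤ psi c y - psi c x := by
  obtain ⟨d, rfl⟩ : ∃ d, y = x + d := ⟨y - x, by ring⟩
  have hd : 0 ≤ d := by linarith
  have h1 : 0 ≤ (1 - 2 * c * (x + d)) * (x * d ^ 2 + d ^ 3 / 3) :=
    mul_nonneg (by linarith) (by positivity)
  have h2 : 0 ≤ 2 * c * (x * d ^ 3 / 3 + d ^ 4 / 12) := by positivity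
  unfold psi
  linarith

theorem psi_min {c x y : ℝ} (hc : 0 < c) (hx : 0 ≤ x) (hxy : x ≤ y) :
    x ^ 2 * ((y - c * y ^ 2) - (x - c * x ^ 2)) ≤
      psi c (min y (1 / (2 * c))) - psi c (min x (1 / (2 * c))) := by
  set b := 1 / (2 * c) with hb
  have e : 2 * c * b = 1 := by rw [hb]; field_simp
  rcases le_total y b with h | h
  · rw [min_eq_left h, min_eq_left (hxy.trans h)]
    exact psi_low hc hx hxy (by nlinarith)
  rcases le_total x b with h' | h'
  · rw [min_eq_right h, min_eq_left h']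
    refine le_trans (mul_le_mul_of_nonneg_left ?_ (sq_nonneg x)) (psi_low hc hx h' e.le)
    have h3 : 0 ≤ c * (y - b) ^ 2 := by positivity
    linear_combination h3 + (b - y) * e
  · rw [min_eq_right h, min_eq_right h', sub_self]
    refine mul_nonpos_of_nonneg_of_nonpos (sq_nonneg x) ?_
    have h3 : 0 ≤ c * ((y - x) * ((x - b) + (y - b))) :=
      mul_nonneg hc.le (mul_nonneg (by linarith) (by linarith))
    linear_combination h3 + (x - y) * e

theorem psi_nonneg {c x : ℝ} (hc : 0 < c) (hx : 0 ≤ x) : 0 ≤ psi c (min x (1 / (2 * c))) := by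
  have h := psi_min hc le_rfl hx
  rw [min_eq_left (by positivity : (0 : ℝ) ≤ 1 / (2 * c))] at h
  simpa [psi] using h

theorem psi_le {c x : ℝ} (hc : 0 < c) (hx : 0 ≤ x) :
    psi c (min x (1 / (2 * c))) ≤ 1 / (96 * c ^ 3) := by
  set b := 1 / (2 * c) with hb
  have e : 2 * c * b = 1 := by rw [hb]; field_simp
  have e2 : psi c b = 1 / (96 * c ^ 3) := by
    rw [hb, psi]
    field_simp
    norm_num
  have b0 : 0 ≤ b := by positivity
  have h := psi_low hc (le_min hx b0) (min_le_right x b) e.le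
  have h3 : 0 ≤ c * (min x b - b) ^ 2 := by positivity
  have h4 : 0 ≤ (b - c * b ^ 2) - (min x b - c * min x b ^ 2) := by
    linear_combination h3 + (b - min x b) * e
  have := mul_nonneg (sq_nonneg (min x b)) h4
  linarith

/-- two rows -/
theorem two {c C H x y ax ay vx vy gx gy hx hy : ℝ} (hc : 0 < c) (x0 : 0 ≤ x) (hxy : x ≤ y)
    (xC : x ≤ C) (hv : vx ≤ vy) (v1 : vy ≤ 1) (g0 : 0 ≤ gx) (hg : gx ≤ gy) (hH : |hy| ≤ H)
    (ex : ax * x = vx * x ^ 2 - c * x ^ 3 + gx + hx)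
    (ey : ay * y = vy * y ^ 2 - c * y ^ 3 + gy + hy) :
    x ^ 2 * (ay - ax) ≤ psi c (min y (1 / (2 * c))) - psi c (min x (1 / (2 * c))) +
      C ^ 3 * (vy - vx) + C * (gy - gx) + (y * hy - x * hx) + 2 * H * (y - x) := by
  have h1 := psi_min hc x0 hxy
  have C0 : 0 ≤ C := x0.trans xC
  have hH' := abs_le.1 hH
  have H0 : 0 ≤ H := (abs_nonneg _).trans hH
  have k1 : 0 ≤ C ^ 3 * (vy - vx) := mul_nonneg (by positivity) (by linarith)
  have k2 : 0 ≤ C * (gy - gx) := mul_nonneg C0 (by linarith)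
  rcases x0.eq_or_lt with rfl | x1
  · have k3 : 0 ≤ y * (hy + 2 * H) := mul_nonneg hxy (by linarith)
    linarith
  have y1 : 0 < y := x1.trans_le hxy
  obtain ⟨u, rfl⟩ : ∃ u, x = u * y := ⟨x / y, by field_simp⟩
  have u0 : 0 < u := (mul_pos_iff_of_pos_right y1).1 x1
  have u1 : u ≤ 1 := le_of_mul_le_mul_right (by linarith) y1
  have k3 : (u * y) ^ 2 * ((vy - 1) * y - (vx - 1) * (u * y)) ≤ C ^ 3 * (vy - vx) := by
    have j1 : (u * y) ^ 2 * ((vy - 1) * (y - u * y)) ≤ 0 :=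
      mul_nonpos_of_nonneg_of_nonpos (sq_nonneg _)
        (mul_nonpos_of_nonpos_of_nonneg (by linarith) (by linarith))
    have j2 := mul_le_mul_of_nonneg_right (pow_le_pow_left₀ x0 xC 3) (sub_nonneg.2 hv)
    linarith
  have k4 : u * (u * y) * gy - u * y * gx ≤ C * (gy - gx) := by
    have j1 : u * (u * y * gy) ≤ u * y * gy :=
      mul_le_of_le_one_left (mul_nonneg x0 (g0.trans hg)) u1
    have j2 := mul_le_mul_of_nonneg_right xC (sub_nonneg.2 hg)
    linarith
  have k5 : u * (u * y) * hy ≤ y * hy + 2 * H * (y - u * y) := by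
    have j1 : 0 ≤ y * (1 - u) := mul_nonneg y1.le (by linarith)
    have j2 : -hy * (1 + u) ≤ 2 * H := by nlinarith
    have j3 := mul_le_mul_of_nonneg_left j2 j1
    linarith
  linear_combination h1 + k3 + k4 + k5 + u * (u * y) * ey - u * y * ex

variable {M : ℕ} {κ q N S τ : ℝ}

theorem vv_A {l : ℕ} (h2 : 2 ≤ l) (h : l ≤ M + 2) :
    vv M κ q N l = 1 - q + ((l : ℝ) - 2) * q / M := by
  unfold vv
  rw [if_neg (by omega), if_pos h]

theorem dv_A {l : ℕ} (h2 : 2 ≤ l) (h : l ≤ M + 1) :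
    vv M κ q N (l + 1) - vv M κ q N l = q / M := by
  rw [vv_A (by omega) (by omega), vv_A h2 (by omega)]
  push_cast
  ring

theorem dv_one : vv M κ q N (1 + 1) - vv M κ q N 1 = κ - q := by
  rw [vv_A le_rfl (by omega)]
  simp [vv]

end RK

open RK

theorem realK : RealK := by
  classical
  intro c0 ε S C hc0 hε hS hC
  have C0 : 0 < C := by linarith
  refine ⟨ε / (16 * C ^ 3), by positivity, fun δ hδ _ => ?_⟩
  set a0 := ε / (16 * C ^ 3) with ha0
  have a00 : 0 < a0 := by positivity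
  obtain ⟨M0, hM0⟩ := exists_nat_ge (S * (C ^ 2 + (1 + C ^ 2 / δ ^ 2) * (6 * C ^ 2)) / (ε / 2))
  refine ⟨M0 + 1, fun M hM κ q N τ c e f0 F α r th f hq hκ hqa _ _ hc he hf0 hF H => ?_⟩
  have hc' : 0 < c := hc0.trans_le hc
  have M1 : 1 ≤ M := by omega
  have M0' : (0 : ℝ) < M := by exact_mod_cast M1
  have SM : 0 < S / M := by positivity
  set v := vv M κ q N with hv
  set a := aR (2 * M + 1) α v (TT M S τ) r with ha
  set g := gR v th with hg
  have th0 : ∀ l, 1 ≤ l → l ≤ 2 * M + 1 → 0 ≤ th l := fun l h1 h2 =>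
    (sq_nonneg _).trans (H.rt l h1 h2)
  have rC : ∀ l, 1 ≤ l → l ≤ 2 * M + 1 → r l ≤ C := fun l h1 h2 =>
    le_of_sq_le_sq (by linarith [H.rt l h1 h2, H.tC l h1 h2]) C0.le
  have dv0 : ∀ i, 1 ≤ i → i ≤ M + 1 → 0 ≤ v (i + 1) - v i := fun i h1 h2 => by
    rcases h1.eq_or_lt with rfl | h1
    · rw [hv, dv_one]; linarith
    · rw [hv, dv_A h1 h2]; positivity
  have gd : ∀ j k, 1 ≤ j → j ≤ k → g k - g j = ∑ i ∈ Ico j k, (v (i + 1) - v i) * th i :=
    fun j k h1 h2 => by
      rw [hg, gR, gR, ← sum_Ico_consecutive _ h1 h2]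
      ring
  have gm : ∀ j k, 1 ≤ j → j ≤ k → k ≤ M + 1 → g j ≤ g k := fun j k h1 h2 h3 => by
    rw [← sub_nonneg, gd j k h1 h2]
    exact sum_nonneg fun i hi => by
      rw [mem_Ico] at hi
      exact mul_nonneg (dv0 i (by omega) (by omega)) (th0 i (by omega) (by omega))
  have g1 : g 1 = 0 := by simp [hg, gR]
  have gu : ∀ k, 2 ≤ k → k ≤ M + 1 → g k - g 2 ≤ q * C ^ 2 := fun k h1 h2 => by
    rw [gd 2 k (by norm_num) h1]
    refine (sum_le_card_nsmul _ _ (q / M * C ^ 2) fun i hi => ?_).trans ?_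
    · rw [mem_Ico] at hi
      rw [hv, dv_A hi.1 (by omega)]
      exact mul_le_mul_of_nonneg_left (H.tC i (by omega) (by omega)) (by positivity)
    · have h3 : ((k - 2 : ℕ) : ℝ) ≤ M := by exact_mod_cast (by omega : k - 2 ≤ M)
      rw [Nat.card_Ico, nsmul_eq_mul]
      refine (mul_le_mul_of_nonneg_right h3 (by positivity)).trans (le_of_eq ?_)
      field_simp
  have vm : ∀ j k, 2 ≤ j → j ≤ k → k ≤ M + 2 → v j ≤ v k := fun j k h1 h2 h3 => by
    rw [hv, vv_A h1 (h2.trans h3), vv_A (h1.trans h2) h3]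
    have : (j : ℝ) ≤ k := by exact_mod_cast h2
    gcongr
  have v2 : v 2 = 1 - q := by rw [hv, vv_A le_rfl (by omega)]; simp
  have v1 : v (M + 2) = 1 := by
    rw [hv, vv_A (by omega) le_rfl]
    push_cast
    field_simp
    ring
  have am : ∀ j k, 1 ≤ j → j < k → k ≤ M + 1 → S / M ≤ a k - a j := fun j k h1 h2 h3 => by
    have e1 := sum_Ico_consecutive (fun i => (v (i + 1) - v i) * r i)
      (by omega : j + 1 ≤ k + 1) (by omega : k + 1 ≤ 2 * M + 1 + 1)
    have e2 : 0 ≤ ∑ i ∈ Ico (j + 1) (k + 1), (v (i + 1) - v i) * r i := sum_nonneg fun i hi => by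
      rw [mem_Ico] at hi
      exact mul_nonneg (dv0 i (by omega) (by omega)) (H.r0 i (by omega) (by omega))
    have e3 : S / M ≤ TT M S τ j - TT M S τ k := by
      unfold TT
      rw [if_pos (by omega), if_pos h3]
      have h4 : (j : ℝ) + 1 ≤ k := by exact_mod_cast h2
      have h5 := mul_le_mul_of_nonneg_left (by linarith : (1 : ℝ) ≤ k - j) SM.le
      refine le_trans (by linarith) (h5.trans (le_of_eq ?_))
      ring
    simp only [ha, aR]
    linarith
  set h : ℕ → ℝ := fun l => a l * r l - v (l + 1) * r l ^ 2 + c * r l ^ 3 - g l with hh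
  set G : ℕ → Prop := fun l => 2 ≤ l ∧ l ≤ M + 1 ∧ th l ≤ r l ^ 2 + δ ^ 2 with hG
  have hb : ∀ l, G l → |h l| ≤ 2 * a0 := fun l hl => by
    have h1 := abs_le.1 (H.row l hl.1 (by omega) hl.2.2)
    have h2 := H.fb l hl.1 (by omega) hl.2.2
    simp only [hh]
    exact abs_le.2 ⟨by linarith, by linarith⟩
  have key := tele (G := G) (x := fun l => S / M * r l ^ 2)
    (Φ := fun l => psi c (min (r l) (1 / (2 * c))) + C ^ 3 * (v (l + 1) - v 2) + C * (g l - g 2) +
      r l * h l + 2 * (2 * a0) * r l) (B := 1 / (96 * c ^ 3) + ε / 2) (X := S / M * C ^ 2)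
    (fun k hk => by
      have r0 := H.r0 k (by omega) (by omega)
      have k1 := psi_nonneg hc' r0
      have k2 := mul_nonneg (pow_pos C0 3).le (sub_nonneg.2 (vm 2 (k + 1) le_rfl (by omega) (by omega)))
      have k3 := mul_nonneg C0.le (sub_nonneg.2 (gm 2 k (by norm_num) hk.1 hk.2.1))
      have k4 := mul_le_mul_of_nonneg_left (abs_le.1 (hb k hk)).1 r0
      have k5 := mul_nonneg a00.le r0
      linarith)
    (fun j k hj hk hjk => by
      have k1 := two (C := C) (ax := a j) (ay := a k) (hx := h j) hc' (H.r0 j (by omega) (by omega))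
        (H.rm j k (by omega) hjk.le (by omega)) (rC j (by omega) (by omega))
        (vm (j + 1) (k + 1) (by omega) (by omega) (by omega))
        ((vm (k + 1) (M + 2) (by omega) (by omega) le_rfl).trans v1.le)
        (g1.ge.trans (gm 1 j le_rfl (by omega) hj.2.1)) (gm j k (by omega) hjk.le hk.2.1)
        (hb k hk) (by simp only [hh]; ring) (by simp only [hh]; ring)
      have k2 := mul_le_mul_of_nonneg_left (am j k (by omega) hjk hk.2.1) (sq_nonneg (r j))
      linarith)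
    (fun k hk => by
      have r0 := H.r0 k (by omega) (by omega)
      have k1 := psi_le hc' r0
      have k2 := mul_le_mul_of_nonneg_left (show v (k + 1) - v 2 ≤ a0 by
        linarith [vm (k + 1) (M + 2) (by omega) (by omega) le_rfl]) (pow_pos C0 3).le
      have k3 := mul_le_mul_of_nonneg_left ((gu k hk.1 hk.2.1).trans
        (mul_le_mul_of_nonneg_right hqa (sq_nonneg C))) C0.le
      have k4 := mul_le_mul_of_nonneg_left (abs_le.1 (hb k hk)).2 r0
      have k5 := mul_le_mul_of_nonneg_left ((rC k (by omega) (by omega)).trans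
        (le_self_pow₀ hC (by norm_num : 3 ≠ 0))) a00.le
      have k6 : a0 * C ^ 3 = ε / 16 := by rw [ha0]; field_simp
      linarith)
    (fun k hk => mul_le_mul_of_nonneg_left
      ((H.rt k (by omega) (by omega)).trans (H.tC k (by omega) (by omega))) SM.le)
    (by positivity) (M + 2)
  have s1 : ∑ i ∈ Icc 2 (M + 1), S / M * th i ≤ ∑ i ∈ Icc 2 (M + 1),
      ((if G i then S / M * r i ^ 2 else 0) + S / M * (1 + C ^ 2 / δ ^ 2) * (th i - r i ^ 2)) := by
    refine sum_le_sum fun i hi => ?_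
    rw [mem_Icc] at hi
    have k1 := sub_nonneg.2 (H.rt i (by omega) (by omega))
    split_ifs with h1
    · have := mul_nonneg SM.le (mul_nonneg (by positivity : 0 ≤ C ^ 2 / δ ^ 2) k1)
      linarith
    · have k2 : δ ^ 2 ≤ th i - r i ^ 2 := by
        have := not_le.1 fun h2 => h1 ⟨hi.1, hi.2, h2⟩
        linarith
      have k3 := mul_le_mul_of_nonneg_left k2 (by positivity : 0 ≤ C ^ 2 / δ ^ 2)
      rw [div_mul_cancel₀ _ (pow_pos hδ 2).ne'] at k3
      have k4 := mul_le_mul_of_nonneg_left (show th i ≤ (1 + C ^ 2 / δ ^ 2) * (th i - r i ^ 2) by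
        linarith [H.rt i (by omega) (by omega), H.tC i (by omega) (by omega)]) SM.le
      linarith
  have s2 : ∑ i ∈ Icc 2 (M + 1), (if G i then S / M * r i ^ 2 else 0) ≤
      ∑ i ∈ range (M + 2), (if G i then S / M * r i ^ 2 else 0) :=
    sum_le_sum_of_subset_of_nonneg (fun i hi => by rw [mem_Icc] at hi; rw [mem_range]; omega)
      fun i _ _ => by split_ifs <;> positivity
  have s3 : ∑ i ∈ Icc 2 (M + 1), (th i - r i ^ 2) ≤ 6 * C ^ 2 :=
    (sum_le_sum_of_subset_of_nonneg (fun i hi => by rw [mem_Icc] at hi; rw [mem_Ico]; omega)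
      fun i hi _ => by
        rw [mem_Ico] at hi
        exact sub_nonneg.2 (H.rt i (by omega) (by omega))).trans H.var
  rw [sum_add_distrib, ← mul_sum _ _ (S / M * (1 + C ^ 2 / δ ^ 2))] at s1
  have s4 := mul_le_mul_of_nonneg_left s3 (by positivity : 0 ≤ S / M * (1 + C ^ 2 / δ ^ 2))
  have s5 : S / M * (C ^ 2 + (1 + C ^ 2 / δ ^ 2) * (6 * C ^ 2)) ≤ ε / 2 := by
    have k1 : (M0 : ℝ) ≤ M := by exact_mod_cast (by omega : M0 ≤ M)
    have k2 := hM0.trans k1
    rw [div_le_iff₀ (by positivity)] at k2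
    rw [div_mul_eq_mul_div, div_le_iff₀ M0']
    linarith
  linarith

end Vale.Agent.N146.Sharp
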