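import Vale.Agent.N146.Sharp.RealL2

/-!
# P146 (c): L-side, constants (helper68)
-/

namespace Vale.Agent.N146.Sharp.RL

open Finset Filter

lemma ev_div (A : ℝ) {B : ℝ} (hB : 0 < B) : ∀ᶠ M : ℕ in atTop, A / M ≤ B :=
  (tendsto_const_div_atTop_nhds_zero_nat A).eventually (ge_mem_nhds hB)

variable {M : ℕ} {κ q N S τ C c e δ f0 F α : ℝ} {r th f : ℕ → ℝ}

lemma key (h : RD M κ q N S τ C c e δ f0 F α r th f) (hq : 0 ≤ q) (hk : q ≤ κ)
    (hN : 8 ≤ N) (hS : 0 ≤ S) (hτ : 0 < τ) (hC : 1 ≤ C) (hc : 0 ≤ c) {nb : ℕ}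
    {b e1 c0 c1 a0 : ℝ} (hb : 0 < b) (hcb : c * b ≤ 1 / 2) (he1 : 0 < e1) (he2 : e1 ≤ 1)
    (hc0 : 0 < c0) (hc1 : 0 < c1) (hb0 : b ≤ 1 / (2 * c0)) (hb1 : 1 / (2 * c1) ≤ b)
    (hnb : 6 * C ^ 2 ≤ (nb + 1) * δ ^ 2) (hδ : 0 < δ) (hδ0 : δ ≤ 1 / (2 * c0))
    (ha0 : a0 * (1 / (2 * c0) + 1 + 2 * c1) ≤ e1 / 4) (hκ : κ ≤ a0) (hτ0 : τ ≤ a0) (hF : F ≤ a0)
    (hq1 : q ≤ e1 / (8 * C)) (he : e ≤ e1 / (32 * c1)) (he' : e ≤ e1 * τ / (32 * C * N * c1) / 12)
    (hf : κ * δ ^ 2 + e < f0) (hM : 8 ≤ M)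
    (m3 : (nb + 8) * C ^ 2 * N / M ≤ e1 / (16 * c1)) (m4 : (nb + 1) * N / M ≤ e1 / (16 * C))
    (m5 : 7 * C ^ 2 * N / M ≤ e1 * τ / (32 * C * N * c1) / 2)
    (hg : ∀ l, 1 ≤ l → l ≤ 2 * M → N / 4 ≤ vv M κ q N (l + 1) → 1 / c0 ^ 2 ≤ th l)
    {l : ℕ} (l2 : 2 ≤ l) (lM : l ≤ M + 1) (g : th l ≤ r l ^ 2 + δ ^ 2) (rl : r l ≤ b) :
    b / 2 - e1 - S * ((M : ℝ) + 1 - l) / M - 2 * q * C ≤ (1 + κ) * r l - c * r l ^ 2 := by
  have hM0 : 0 < M := by omega
  have hM' : (0 : ℝ) < M := by positivity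
  have hC0 : 0 < C := by linarith only [hC]
  have hN0 : 0 < N := by linarith only [hN]
  have ha : 0 < a0 := hτ.trans_le hτ0
  have ha1 : a0 ≤ e1 / 4 := by
    have : a0 * 1 ≤ a0 * (1 / (2 * c0) + 1 + 2 * c1) := by
      apply mul_le_mul_of_nonneg_left _ ha.le
      have : 0 < 1 / (2 * c0) := by positivity
      linarith only [this, hc1]
    linarith only [this, ha0]
  have hqN : q ≤ N := by linarith only [hk, hκ, ha1, he2, hN]
  have hb1' : 1 ≤ 2 * c1 * b := by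
    rw [div_le_iff₀ (by positivity)] at hb1
    linarith only [hb1]
  obtain ⟨m0, k1, k2⟩ : ∃ m0 : ℕ, e1 * M / (16 * C * N) ≤ m0 ∧ (m0 : ℝ) ≤ e1 * M / (16 * C * N) + 1 :=
    ⟨_, Nat.le_ceil _, (Nat.ceil_lt_add_one (by positivity)).le⟩
  have w1 : (m0 + nb) * (N / M) ≤ e1 / (8 * C) := by
    have c1 : ((m0 : ℝ) + nb) * (N / M) ≤ (e1 * M / (16 * C * N) + 1 + nb) * (N / M) :=
      mul_le_mul_of_nonneg_right (by linarith only [k2]) (by positivity)
    have c2 : (e1 * M / (16 * C * N) + 1 + nb) * (N / M) = e1 / (16 * C) + (nb + 1) * N / M := by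
      field_simp
      ring
    have c3 : e1 / (8 * C) = e1 / (16 * C) + e1 / (16 * C) := by
      field_simp
      norm_num
    linarith only [c1, c2, c3, m4]
  have w2 : 64 * (m0 + nb) ≤ M := by
    have c1 : e1 / (8 * C) ≤ 1 / 8 := by
      rw [div_le_div_iff₀ (by positivity) (by norm_num)]
      linarith only [he2, hC]
    have c2 : ((m0 : ℝ) + nb) * (8 / M) ≤ (m0 + nb) * (N / M) := by gcongr
    have c3 : ((m0 : ℝ) + nb) * 8 / M ≤ 1 / 8 := by
      rw [mul_div_assoc]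
      linarith only [c1, c2, w1]
    rw [div_le_iff₀ hM'] at c3
    have : (64 : ℝ) * (m0 + nb) ≤ M := by linarith only [c3]
    exact_mod_cast this
  obtain ⟨l1, a1, a2, g1⟩ := good_win h hnb (a := M + 2 + M / 4) (by omega) (by omega)
  have r1 : b < r l1 := by
    have c1 : 5 * M + 4 ≤ 4 * l1 := by omega
    have c2 : 5 * (M : ℝ) + 4 ≤ 4 * l1 := by exact_mod_cast c1
    have c3 := hg l1 (by omega) (by omega) (by
      rw [vv_B hM0 (by omega) (by omega)]
      have : N / 4 ≤ (((l1 + 1 : ℕ) : ℝ) - (M + 2)) * N / M := by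
        rw [le_div_iff₀ hM']
        push_cast
        nlinarith only [c2, hN0]
      linarith only [this])
    have c4 : δ ^ 2 ≤ (1 / (2 * c0)) ^ 2 := pow_le_pow_left₀ hδ.le hδ0 2
    have c5 : b ^ 2 ≤ (1 / (2 * c0)) ^ 2 := pow_le_pow_left₀ hb.le hb0 2
    have c6 : 1 / c0 ^ 2 = 4 * (1 / (2 * c0)) ^ 2 := by
      field_simp
      norm_num
    have c7 : 0 < (1 / (2 * c0)) ^ 2 := by positivity
    apply lt_of_pow_lt_pow_left₀ 2 (h.r0 l1 (by omega) (by omega))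
    linarith only [c3, c4, c5, c6, c7, g1]
  have z1 : e1 / (16 * c1) ≤ e1 * b / 8 := by
    rw [div_le_iff₀ (by positivity)]
    nlinarith only [hb1', he1]
  have z2 : (nb + 8) * C ^ 2 * (N / M) ≤ e1 * b / 8 := by
    rw [← mul_div_assoc]
    exact m3.trans z1
  have cl := claim h hM0 hq hk hqN hS hτ.le hC hc (m0 := m0) (l0 := l) (l1 := l1) hb hcb he1 hnb
    (by
      have c1 : C ^ 2 * (N / M) ≤ (nb + 8) * C ^ 2 * (N / M) := by
        have : (0 : ℝ) ≤ (nb + 7) * (C ^ 2 * (N / M)) := by positivity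
        linarith only [this]
      have c2 : q * b ≤ a0 * (1 / (2 * c0)) := mul_le_mul (hk.trans hκ) hb0 hb.le ha.le
      have c3 := mul_le_mul_of_nonneg_right c2 hb.le
      have c4 := mul_le_mul_of_nonneg_right hτ0 hb.le
      have c5 := mul_le_mul_of_nonneg_left hb1' ha.le
      have c6 := mul_le_mul_of_nonneg_right ha0 hb.le
      have c7 : 0 < e1 * b := mul_pos he1 hb
      linarith only [c1, c3, c4, c5, c6, c7, z2, hF])
    (by
      have y1 : e1 / (32 * c1) = e1 / (16 * c1) / 2 := by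
        field_simp
        norm_num
      linarith only [y1, he, z1, z2])
    (by
      have c1 : e1 / (4 * C) = e1 / (8 * C) + e1 / (8 * C) := by
        field_simp
        norm_num
      linarith only [c1, w1, hq1])
    (by
      have y1 : e1 * M / (16 * C * N) * (τ / M) * (1 / (2 * c1)) ≤ m0 * (τ / M) * b := by
        gcongr
      have y2 : e1 * M / (16 * C * N) * (τ / M) * (1 / (2 * c1)) = e1 * τ / (32 * C * N * c1) := by
        field_simp
        norm_num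
      have y3 : 0 < e1 * τ / (32 * C * N * c1) := by positivity
      rw [← mul_div_assoc]
      linarith only [y1, y2, y3, he', m5])
    l2 (by omega) g rl (by omega) (by omega) g1 r1
  have x1 := rowA h hM0 hq hk hN0.le hf l2 lM g
  have x2 := aA h hM0 hq hk hN0.le hC0.le l2 lM
  linarith only [cl, x1, x2]

end Vale.Agent.N146.Sharp.RL

namespace Vale.Agent.N146.Sharp

open Finset Filter RL

/-- **L-side** -/
theorem realL : RealL := by
  intro c0 c1 ε N hc0 hc01 hε hN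
  have hc1 : 0 < c1 := hc0.trans_le hc01
  have hN0 : 0 < N := by linarith only [hN]
  obtain ⟨e1, he1, E1, E2, E3⟩ : ∃ e1 : ℝ, 0 < e1 ∧ e1 ≤ 1 ∧ e1 ≤ c0 ^ 2 * ε ∧
      e1 ≤ 1 / (160 * c0) :=
    ⟨min 1 (min (c0 ^ 2 * ε) (1 / (160 * c0))), by positivity, min_le_left _ _,
      (min_le_right _ _).trans (min_le_left _ _), (min_le_right _ _).trans (min_le_right _ _)⟩
  obtain ⟨a0, ha, ha0⟩ : ∃ a0 : ℝ, 0 < a0 ∧ a0 * (1 / (2 * c0) + 1 + 2 * c1) ≤ e1 / 4 :=
    ⟨e1 / 4 / (1 / (2 * c0) + 1 + 2 * c1), by positivity,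
      (div_mul_cancel₀ _ (by positivity)).le⟩
  have hi0 : 0 < 1 / (2 * c0) := by positivity
  have ha1 : a0 ≤ e1 / 4 := by nlinarith only [ha0, ha, hi0, hc1]
  have ha2 : a0 * (1 / (2 * c0)) ≤ e1 / 4 := by nlinarith only [ha0, ha, hi0, hc1]
  refine ⟨a0, 1 / (2 * c0), ha, ?_⟩
  intro τ S C f0 hτ hτ0 hS hC hf0
  have hC0 : 0 < C := by linarith only [hC]
  have hS0 : 0 < S := hi0.trans_le hS
  obtain ⟨a1, ha', A1, A2, A3, A4, A5, A6⟩ : ∃ a1 : ℝ, 0 < a1 ∧ a1 ≤ f0 / 4 ∧ a1 ≤ 1 ∧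
      a1 ≤ 1 / (2 * c0) ∧ a1 ≤ e1 / (8 * C) ∧ a1 ≤ e1 / (32 * c1) ∧
      a1 ≤ e1 * τ / (32 * C * N * c1) / 12 := by
    refine ⟨min (f0 / 4) (min 1 (min (1 / (2 * c0)) (min (e1 / (8 * C)) (min (e1 / (32 * c1))
      (e1 * τ / (32 * C * N * c1) / 12))))), by positivity, ?_⟩
    simp only [min_le_iff, le_refl, true_or, or_true, and_self]
  refine ⟨a1, ha', ?_⟩
  intro δ hδ hδ1
  obtain ⟨nb, hnb⟩ := ex_nb C hδ
  obtain ⟨M0, hM0⟩ := eventually_atTop.1 ((eventually_ge_atTop (2 * nb + 8)).and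
    ((ev_div ((nb + 1) * S) he1).and
    ((ev_div ((nb + 8) * C ^ 2 * N) (B := e1 / (16 * c1)) (by positivity)).and
    ((ev_div ((nb + 1) * N) (B := e1 / (16 * C)) (by positivity)).and
    (ev_div (7 * C ^ 2 * N) (B := e1 * τ / (32 * C * N * c1) / 2) (by positivity))))))
  refine ⟨M0, ?_⟩
  intro M hM κ q c e F α r th f hq hk hκ hq1 hc hcc he hF h hg
  obtain ⟨m1, m2, m3, m4, m5⟩ := hM0 M hM
  have hM' : (0 : ℝ) < M := by
    have : 0 < M := by omega
    positivity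
  have hκ0 : 0 ≤ κ := hq.le.trans hk
  have hκ1 : κ ≤ 1 := by linarith only [hκ, ha1, E1]
  have hf : κ * δ ^ 2 + e < f0 := by
    have c1 : δ ^ 2 ≤ δ := by nlinarith only [hδ, hδ1, A2]
    have c2 : κ * δ ^ 2 ≤ 1 * δ ^ 2 := mul_le_mul_of_nonneg_right hκ1 (sq_nonneg _)
    linarith only [c1, c2, hδ1, he, A1, hf0]
  have hqC : 2 * q * C ≤ e1 := by
    have := hq1.trans A4
    rw [le_div_iff₀ (by positivity)] at this
    nlinarith only [this, he1]
  have hK : 1 / (2 * c0) / 2 ≤ ((M : ℝ) - 1 - nb) * (S / M) := by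
    have c1 : 2 * nb + 2 ≤ M := by omega
    have c2 : 2 * (nb : ℝ) + 2 ≤ M := by exact_mod_cast c1
    have c3 : (M : ℝ) / 2 * (S / M) ≤ ((M : ℝ) - 1 - nb) * (S / M) :=
      mul_le_mul_of_nonneg_right (by linarith only [c2]) (by positivity)
    have c4 : (M : ℝ) / 2 * (S / M) = S / 2 := by field_simp
    linarith only [c3, c4, hS]
  have m2' : (nb + 1) * (S / M) ≤ e1 := by rwa [← mul_div_assoc]
  have K := fun (b : ℝ) (hb : 0 < b) (hcb : c * b ≤ 1 / 2) (hb0 : b ≤ 1 / (2 * c0))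
      (hb1 : 1 / (2 * c1) ≤ b) (l : ℕ) =>
    key (l := l) h hq.le hk hN hS0.le hτ hC hc hb hcb he1 E1 hc0 hc1 hb0 hb1 hnb hδ (hδ1.trans A3)
      ha0 hκ hτ0 hF (hq1.trans A4) (he.trans A5) (he.trans A6) hf (by omega) m3 m4 m5 hg
  constructor
  · intro hc2
    have hcp : 0 < c := hc0.trans_le hc2
    obtain ⟨b, hb⟩ : ∃ b, b = 1 / (2 * c) := ⟨_, rfl⟩
    have b0 : 0 < b := by rw [hb]; positivity
    have b1 : c * b = 1 / 2 := by rw [hb]; field_simp
    have b2 : b ≤ 1 / (2 * c0) := by rw [hb]; gcongr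
    have b3 : 1 / (2 * c1) ≤ b := by rw [hb]; gcongr
    have s := sumL h hS0.le hnb (by omega) hcp b0.le (e2 := 3 * e1) (by positivity)
      (by
        have : c * b ^ 2 = b / 2 := by linear_combination b * b1
        linarith only [hK, this, b2]) (by
        intro l l2 lM g rl
        have k1 := K b b0 b1.le b2 b3 l l2 lM g rl.le
        have k2 : κ * r l ≤ a0 * (1 / (2 * c0)) :=
          mul_le_mul hκ (rl.le.trans b2) (h.r0 l (by omega) (by omega)) ha.le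
        have k3 : c * (b - r l) ^ 2 = b / 2 - r l + c * r l ^ 2 := by
          linear_combination (b - 2 * r l) * b1
        linarith only [k1, k2, k3, ha2, hqC, he1])
    have t1 : c * b ^ 4 / 6 = 1 / (96 * c ^ 3) := by
      rw [hb]
      field_simp
      norm_num
    have t2 : (3 * e1 + (nb + 1) * (S / M)) * b ^ 2 ≤ 4 * (c0 ^ 2 * ε) * (1 / (2 * c0)) ^ 2 :=
      mul_le_mul (by linarith only [m2', E2]) (pow_le_pow_left₀ b0.le b2 2) (by positivity)
        (by positivity)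
    have t3 : 4 * (c0 ^ 2 * ε) * (1 / (2 * c0)) ^ 2 = ε := by
      field_simp
      norm_num
    linarith only [s, t1, t2, t3]
  · intro hc2
    obtain ⟨b, hb⟩ : ∃ b, b = 1 / (2 * c0) := ⟨_, rfl⟩
    have b0 : 0 < b := by rw [hb]; positivity
    have b1 : c0 * b = 1 / 2 := by rw [hb]; field_simp
    have b3 : 1 / (2 * c1) ≤ b := by rw [hb]; gcongr
    have b4 : c * b ≤ 1 / 2 := by nlinarith only [b1, b0, hc2]
    rw [← hb] at hK
    have s := sumL h hS0.le hnb (by omega) (cc := 16 * c0) (b := b / 4) (by positivity)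
      (by positivity) (e2 := 3 * e1) (by positivity)
      (by
        have : 16 * c0 * (b / 4) ^ 2 = b / 2 := by linear_combination b * b1
        linarith only [hK, this]) (by
        intro l l2 lM g rl
        have r0 := h.r0 l (by omega) (by omega)
        have k1 := K b b0 b4 hb.le b3 l l2 lM g (by linarith only [rl, b0])
        have k2 := mul_le_mul_of_nonneg_right hκ1 r0
        have k3 : 0 ≤ c * r l ^ 2 := by positivity
        have k4 : 0 ≤ c0 * r l * (b / 4 - r l) := mul_nonneg (by positivity) (by linarith only [rl])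
        have k5 : 16 * c0 * (b / 4 - r l) ^ 2 =
            b / 2 - 2 * r l - 16 * (c0 * r l * (b / 4 - r l)) := by
          linear_combination (b - 4 * r l) * b1
        linarith only [k1, k2, k3, k4, k5, hqC, he1])
    have t1 : 16 * c0 * (b / 4) ^ 4 / 6 = 1 / (1536 * c0 ^ 3) := by
      rw [hb]
      field_simp
      norm_num
    have t2 : (3 * e1 + (nb + 1) * (S / M)) * (b / 4) ^ 2 ≤ 4 * (1 / (160 * c0)) * (b / 4) ^ 2 :=
      mul_le_mul_of_nonneg_right (by linarith only [m2', E3]) (by positivity)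
    have t3 : 4 * (1 / (160 * c0)) * (b / 4) ^ 2 = 1 / (2560 * c0 ^ 3) := by
      rw [hb]
      field_simp
      norm_num
    have t4 : 1 / (5000 * c0 ^ 3) ≤ 1 / (1536 * c0 ^ 3) - 1 / (2560 * c0 ^ 3) := by
      have : 1 / (1536 * c0 ^ 3) - 1 / (2560 * c0 ^ 3) = 1 / (3840 * c0 ^ 3) := by
        field_simp
        norm_num
      rw [this]
      gcongr
      norm_num
    linarith only [s, t1, t2, t3, t4]

end Vale.Agent.N146.Sharp
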