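import Vale.Agent.N146.Sharp.KL
import Vale.Agent.N146.Sharp.RealK
import Vale.Agent.N146.Sharp.RealL3
import Vale.Agent.N146.Sharp.M86
import Vale.Agent.N146.Sharp.LinkC
import Vale.Agent.N146.Sharp.IdC2
import Vale.Agent.N146.Sharp.Final

/-!
# P146, the sharp constant: the two increments
-/

namespace Vale.Agent.N146.Sharp

theorem kl {b : ℝ} (hb : 1 < b) : KL b :=
  kl_of hb realK realL m4 sel deep resp (box hb) (grow hb) (linkUp hb) (linkLo hb) (idc hb)

end Vale.Agent.N146.Sharp
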