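import Vale.Agent.N146.Sharp.Ener

/-!
# P146 (c): one law, links with the pure laws (helper38)
-/

namespace Vale.Agent.N146.Sharp

open Finset
open Vale.Agent.P157 Vale.Agent.P157.Lv Vale.Agent.P157.Lv.Sy
open Vale.Agent.P146 Vale.Agent.P146.U
open Vale.Agent.P146.H93 (Cd skS Em linS_sk)
open Vale.Agent.P146.H479
open Vale.Agent.P146.H758 (tv Ap Pu Ex2)

set_option linter.unusedSectionVars false

/-- the body of `LinkUp` -/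
def UpB (n : ℕ) (β u N T k ε : ℝ) : Prop :=
  ∀ (y : ℝ) (K a : ℕ) (m b w : ℕ → ℝ), u / 2 ≤ y → y ≤ 2 * u → Em K m → 1 ≤ a → a < K →
    m a ≤ y → m K ≤ N * u → Na K b → Na K w → tv K b = β ^ 2 / n →
    ∑ j ∈ Ico (a + 1) (K + 1), b j ^ 2 = β ^ 2 / n * (T * u ^ 2) → tv K w ≤ k * u ^ 3 →
    (skS n K m b w).fe ≤ P1 n β y + n / (2 * β) * tv K w + ε * (n * u ^ 5)

/-- the body of `LinkLo` -/
def LoB (n : ℕ) (β u Λ N k ε : ℝ) : Prop :=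
  ∀ (y : ℝ) (K a : ℕ) (m b w : ℕ → ℝ), u / 2 ≤ y → Em K m → 1 ≤ a → a < K →
    u / 2 ≤ m 1 → y ≤ m (a + 1) → m K ≤ N * u → Na K b → Na K w → tv K b = β ^ 2 / n →
    β ^ 2 / n * (Λ * y ^ 2) ≤ ∑ j ∈ Ico (a + 1) (K + 1), b j ^ 2 → tv K w ≤ k * u ^ 3 →
    P1 n β y + n / (2 * β) * tv K w - ε * (n * y ^ 5) ≤ (skS n K m b w).fe

/-- the body of `M4` -/
def M4B (c1 c2 τ E0 C4 : ℝ) : Prop :=
  ∀ (n K Q l : ℕ) (m b w : ℕ → ℝ) (x : ℝ), 2 ≤ n → Em K m → Q < K → l + 2 ≤ Q →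
    0 < x → x ≤ 1 → 1 ≤ n * x ^ 6 → c1 * x ≤ m 1 → m Q ≤ c2 * x → 2 * m Q ≤ m (Q + 1) →
    Na K b → τ * x ^ 2 ≤ n * b (Q - 1) ^ 2 → τ * x ^ 2 ≤ n * b Q ^ 2 →
    (skS n K (Function.update m Q (2 * m Q)) b w).fe - (skS n K m b w).fe ≤
      E0 * (n * x ^ 5) →
    (skS n K m b w).pairEx l (fun x y => Rov H325.sp x y ^ 4) ≤ (C4 * x) ^ 4

lemma cross_arith {Λ cg c0 N v θ : ℝ} (hΛ : 0 < Λ) (hcg : 0 < cg) (hc0 : 0 < c0) (hN0 : 0 ≤ N)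
    (hv : N / 4 ≤ v) (hN : 8 * Λ ≤ cg * c0 ^ 2 * N ^ 2) (h : cg / 2 * v ^ 2 ≤ Λ * θ / 4) :
    1 / c0 ^ 2 ≤ θ := by
  have a9 : (N / 4) ^ 2 ≤ v ^ 2 := pow_le_pow_left₀ (by linarith) hv 2
  have a10 := mul_le_mul_of_nonneg_left a9 hcg.le
  have a12 : cg * N ^ 2 / 8 ≤ Λ * θ := by linarith [show cg * (N / 4) ^ 2 = cg * N ^ 2 / 16 by ring]
  have a13 := mul_le_mul_of_nonneg_right a12 (sq_nonneg c0)
  rw [div_le_iff₀ (by positivity)]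
  refine le_of_mul_le_mul_left (?_ : Λ * 1 ≤ _) hΛ
  linarith [show cg * N ^ 2 / 8 * c0 ^ 2 = cg * c0 ^ 2 * N ^ 2 / 8 by ring,
    show Λ * (θ * c0 ^ 2) = Λ * θ * c0 ^ 2 by ring]

namespace Pa

variable {P : Pa} {w m' b' : ℕ → ℝ} {k k' R ω ε Λ y C C4 B0 A0 cg c0 : ℝ} {a l : ℕ}

lemma Bw.tk (B : Bw P w k R ω) (hu : 0 < P.u) (hR : 0 < R) (hk : 2 * k ≤ k') :
    tv P.Q w ≤ k' * P.u ^ 3 := by
  have := mul_le_mul_of_nonneg_right hk (by positivity : 0 ≤ P.u ^ 3)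
  linarith [B.tQ]

namespace Ad

variable (A : P.Ad)
include A

lemma deep_le (hD : Deep) (B : Bw P w k R ω) (hm : Em P.K m') (hb : Na P.K b')
    (hb0 : ∀ j, P.Q < j → b' j = 0) :
    (skS P.n P.Q (mlow P.Q m') b' w).fe ≤ (skS P.n P.K m' b' w).fe ∧
      (skS P.n P.K m' b' w).fe ≤ (skS P.n P.Q (mlow P.Q m') b' w).fe +
        P.n / 2 * (3 * P.J * ω) := by
  obtain ⟨h1, h2⟩ := hD P.n P.Q P.J m' b' w hm (by have := Q3 (P := P); omega) hb0 hb B.na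
  refine ⟨h1, h2.trans ?_⟩
  have := mul_le_mul_of_nonneg_left B.dp (by positivity : (0 : ℝ) ≤ P.n / 2)
  exact add_le_add le_rfl this

lemma fe_up (hD : Deep) (B : Bw P w k R ω) (hR : 0 < R) (hk : 2 * k ≤ k')
    (hU : UpB P.n P.β P.u (P.N + 1) (3 * P.τ) k' ε)
    (hW : P.n / 2 * (3 * P.J * ω) ≤ ε * (P.n * P.u ^ 5)) (hm : Em P.K m')
    (hy0 : P.u / 2 ≤ y) (hy1 : y ≤ 2 * P.u) (h1 : m' (P.M + 1) ≤ y)
    (h2 : m' P.Q ≤ (P.N + 1) * P.u) :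
    (skS P.n P.K m' P.b w).fe ≤
      P1 P.n P.β y + P.n / (2 * P.β) * tv P.Q w + 2 * ε * (P.n * P.u ^ 5) := by
  have hQ : P.M + 1 < P.Q := by show P.M + 1 < 2 * P.M + 3; omega
  have a1 := (A.deep_le hD B hm (A.na _) fun _ h => b_deep h).2
  have a2 := hU y P.Q (P.M + 1) (mlow P.Q m') P.b w hy0 hy1 (em_mlow hm (by omega)) (by omega) hQ
    (by rwa [mlow_le _ hQ.le]) (by rwa [mlow_le _ le_rfl]) (A.na _) (na_mono B.na QK)
    (A.tv_top le_rfl) (by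
      rw [A.sum_top (by omega) hQ.le]
      show _ * (TT P.M P.S P.τ (P.M + 1) * _) = _
      rw [TT_mid]) (B.tk A.u0 hR hk)
  linarith

lemma fe_lo (hD : Deep) (B : Bw P w k R ω) (hR : 0 < R) (hk : 2 * k ≤ k')
    (hL : LoB P.n P.β P.u Λ (P.N + 1) k' ε) (hb : Na P.K b') (hb0 : ∀ j, P.Q < j → b' j = 0)
    (hb1 : tv P.Q b' = P.β ^ 2 / P.n) (ha : 1 ≤ a) (ha' : a < P.Q) (hy0 : P.u / 2 ≤ y)
    (hy : y ≤ P.m (a + 1))
    (hs : P.β ^ 2 / P.n * (Λ * y ^ 2) ≤ ∑ j ∈ Ico (a + 1) (P.Q + 1), b' j ^ 2) :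
    P1 P.n P.β y + P.n / (2 * P.β) * tv P.Q w - ε * (P.n * y ^ 5) ≤
      (skS P.n P.K P.m b' w).fe := by
  have a1 := (A.deep_le hD B A.em hb hb0).1
  have a2 := hL y P.Q a (mlow P.Q P.m) b' w hy0 (em_mlow A.em (by omega)) ha ha'
    (by rw [mlow_le _ (by omega)]; exact A.m_half le_rfl (by omega))
    (by rwa [mlow_le _ ha']) (by rw [mlow_le _ le_rfl, A.m_Q]) (na_mono hb QK) (na_mono B.na QK)
    hb1 hs (B.tk A.u0 hR hk)
  linarith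

lemma fe_lo1 (hD : Deep) (B : Bw P w k R ω) (hR : 0 < R) (hk : 2 * k ≤ k')
    (hL : LoB P.n P.β P.u Λ (P.N + 1) k' ε) (hΛ : Λ ≤ P.S) (hε : 0 ≤ ε) :
    P1 P.n P.β ((1 - P.q) * P.u) + P.n / (2 * P.β) * tv P.Q w - ε * (P.n * P.u ^ 5) ≤
      (skS P.n P.K P.m P.b w).fe := by
  have hu := A.u0
  have hq := A.q0
  have hq4 : P.q ≤ 1 / 4 := A.qκ.trans A.κ4
  have hQ := Q3 (P := P)
  have y0 : 0 ≤ (1 - P.q) * P.u := mul_nonneg (by linarith) hu.le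
  have y1 : (1 - P.q) * P.u ≤ P.u := by nlinarith
  have a1 := A.fe_lo hD B hR hk hL (A.na _) (fun _ h => b_deep h) (A.tv_top le_rfl) (a := 1)
    le_rfl (by omega) (y := (1 - P.q) * P.u) (by nlinarith) (by
      rw [m_low (by omega) (by omega)]
      show _ ≤ vv P.M P.κ P.q P.N 2 * P.u
      rw [vv_two]) (by
      rw [A.sum_top le_rfl (by omega)]
      refine mul_le_mul_of_nonneg_left (mul_le_mul ?_ (pow_le_pow_left₀ y0 y1 2) (by positivity)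
        (A.T_nonneg 1)) (by positivity)
      show Λ ≤ TT P.M P.S P.τ 1
      rw [TT_one A.M1]
      linarith [A.τ0])
  have a2 : ε * (P.n * ((1 - P.q) * P.u) ^ 5) ≤ ε * (P.n * P.u ^ 5) := by gcongr
  linarith

/-- the fourth moments -/
theorem four (hD : Deep) (B : Bw P w k R ω) (hR : 0 < R) (hk : 2 * k ≤ 1)
    (hM : M4B (1 / 2) (P.N + 1) P.τ (2 * B0 + 1) C4) (hC0 : 0 ≤ C4) (hC : C4 ≤ C)
    (hAp : Ap P.n P.β (P.u / 2) (2 * (P.N + 1) * P.u) (P.u ^ 3) A0 (B0 * (P.n * P.u ^ 5)))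
    (hW : P.n / 2 * (3 * P.J * ω) ≤ P.n * P.u ^ 5) (h6 : 1 ≤ P.n * P.u ^ 6) : Fo P w C := by
  intro l hl
  have hu := A.u0
  have hQ := Q3 (P := P)
  have hJ := A.J3
  have hQK : P.Q < P.K := by show P.Q < P.Q + P.J; omega
  have h2m : 2 * P.m P.Q ≤ P.m (P.Q + 1) := by rw [A.m_Q, A.m_Q1]; exact A.uJ
  have hm : Em P.K (Function.update P.m P.Q (2 * P.m P.Q)) := by
    refine ⟨?_, ?_, fun j hj => ?_, ?_⟩
    · rw [Function.update_of_ne (by omega)]; exact A.em.m0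
    · rw [Function.update_of_ne (by omega)]; exact A.em.mK
    · by_cases h1 : j = P.Q
      · rw [h1, Function.update_self, Function.update_of_ne (by omega)]; exact h2m
      by_cases h2 : j + 1 = P.Q
      · rw [h2, Function.update_self, Function.update_of_ne h1]
        have := A.em.mono j hj
        rw [h2] at this
        linarith [A.m_Q, A.Nu0]
      · rw [Function.update_of_ne h1, Function.update_of_ne h2]; exact A.em.mono j hj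
    · rw [Function.update_of_ne (by omega)]; exact A.em.pos
  have hY : 2 * (P.N + 1) * P.u ≤ 1 := by linarith [A.Nu1]
  have hV : tv P.Q w ≤ P.u ^ 3 := by linarith [B.tk hu hR hk]
  have x1 : Ex2 P.Q (mlow P.Q P.m) (P.u / 2) (2 * (P.N + 1) * P.u) :=
    ⟨em_mlow A.em (by omega), by omega, by positivity, hY,
      by rw [mlow_le _ (by omega)]; exact A.m_half le_rfl (by omega),
      by rw [mlow_le _ le_rfl, A.m_Q]; linarith [A.Nu0]⟩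
  have x2 : Ex2 P.Q (mlow P.Q (Function.update P.m P.Q (2 * P.m P.Q))) (P.u / 2)
      (2 * (P.N + 1) * P.u) :=
    ⟨em_mlow hm (by omega), by omega, by positivity, hY,
      by rw [mlow_le _ (by omega), Function.update_of_ne (by omega)]
         exact A.m_half le_rfl (by omega),
      by rw [mlow_le _ le_rfl, Function.update_self, A.m_Q]; linarith⟩
  have n1 := abs_le.1 (H758.near (w := w) hAp x1 A.β0.le (A.tv_top le_rfl) hV)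
  have n2 := abs_le.1 (H758.near (w := w) hAp x2 A.β0.le (A.tv_top le_rfl) hV)
  have d1 := (A.deep_le hD B A.em (A.na _) fun _ h => b_deep h).1
  have d2 := (A.deep_le hD B hm (A.na _) fun _ h => b_deep h).2
  refine (hM P.n P.K P.Q l P.m P.b w P.u A.n2 A.em hQK (PQ (by omega)) hu A.u1 h6
    (by linarith [A.m_half (j := 1) le_rfl (by omega)]) A.m_Q.le h2m (A.na _) A.b_top.1
    A.b_top.2 (by linarith [n1.1, n2.2])).trans ?_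
  gcongr

/-- **K-side** -/
theorem sideK (hD : Deep) (B : Bw P w k R ω) (hR : 0 < R) {k1 k2 : ℝ} (hk1 : 2 * k ≤ k1)
    (hk2 : 2 * k ≤ k2) (hU : UpB P.n P.β P.u (P.N + 1) (3 * P.τ) k1 ε)
    (hW : P.n / 2 * (3 * P.J * ω) ≤ ε * (P.n * P.u ^ 5))
    (hL : LoB P.n P.β P.u Λ (P.N + 1) k2 ε) (hΛ : Λ ≤ P.S) (hε : 0 ≤ ε)
    (h4 : Fo P w C) (hC : 0 ≤ C) :
    P1 P.n P.β ((1 - P.q) * P.u) - P1 P.n P.β ((1 - P.κ) * P.u) ≤
      P.κ * (1 / 4 * ∑ i ∈ Icc 2 (P.M + 1), P.S / P.M * P.th w i + k * C) * (P.n * P.u ^ 5) +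
        3 * ε * (P.n * P.u ^ 5) := by
  have hu := A.u0
  have a1 := A.enK B hR h4 hC
  have a2 := A.fe_lo1 hD B hR hk2 hL hΛ hε
  have a3 := A.fe_up hD B hR hk1 hU hW A.em0 (y := (1 - P.κ) * P.u) (by nlinarith [A.κ4])
    (by nlinarith [A.κ0]) (m0_in (by omega) le_rfl).le
    (by rw [m0_out (by show P.M + 1 < 2 * P.M + 3; omega), A.m_Q])
  linarith

/-- **L-side** -/
theorem sideL (hD : Deep) (B : Bw P w k R ω) (hR : 0 < R) {k1 k2 : ℝ} (hk1 : 2 * k ≤ k1)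
    (hk2 : 2 * k ≤ k2) (hU : UpB P.n P.β P.u (P.N + 1) (3 * P.τ) k1 ε)
    (hW : P.n / 2 * (3 * P.J * ω) ≤ ε * (P.n * P.u ^ 5))
    (hL : LoB P.n P.β P.u Λ (P.N + 1) k2 ε) (hΛ : Λ ≤ P.S) (hε : 0 ≤ ε) :
    P.κ * (1 / 4 * ∑ i ∈ Icc 2 (P.M + 1), P.S / P.M * P.th w (i - 1)) * (P.n * P.u ^ 5) -
      P.κ * (P.β ^ 2 * P.S / 4 * P.u ^ 3) - 3 * ε * (P.n * P.u ^ 5) ≤
    P1 P.n P.β ((1 + P.κ) * P.u) - P1 P.n P.β ((1 - P.q) * P.u) := by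
  have hu := A.u0
  have a1 := A.enL B
  have a2 := A.fe_lo1 hD B hR hk2 hL hΛ hε
  have a3 := A.fe_up hD B hR hk1 hU hW A.em1 (y := (1 + P.κ) * P.u) (by nlinarith [A.κ0])
    (by nlinarith [A.κ4]) (by
      rw [m1_in (by omega)]
      exact max_le ((A.m_A (by omega) (by omega)).trans (by nlinarith [A.κ0])) le_rfl)
    (by rw [m1_in (by have := Q3 (P := P); omega), A.m_Q]; exact max_le le_rfl A.κu)
  linarith

/-- **The overlaps at large exponents.** -/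
theorem cross (hD : Deep) (B : Bw P w k R ω) (hR : 0 < R) {k1 k3 : ℝ} (hk1 : 2 * k ≤ k1)
    (hk3 : 2 * k ≤ k3) (hU : UpB P.n P.β P.u (P.N + 1) (3 * P.τ) k1 ε)
    (hW : P.n / 2 * (3 * P.J * ω) ≤ ε * (P.n * P.u ^ 5))
    (hX : LoB P.n P.β P.u Λ (P.N + 1) k3 (cg / 4)) (hΛ0 : 0 < Λ) (hcg : 0 < cg) (hε : ε ≤ cg)
    (hc0 : 0 < c0) (hN : 8 * Λ ≤ cg * c0 ^ 2 * P.N ^ 2)
    (hs : Λ * ((P.N + 1) * P.u) ^ 2 ≤ 1 / 2)
    (hG : ∀ y, 2 * P.u ≤ y → y ≤ (P.N + 1) * P.u →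
      cg * (P.n * y ^ 5) ≤ P1 P.n P.β y - P1 P.n P.β (y / 2))
    (h1 : 1 ≤ l) (h2 : l ≤ 2 * P.M) (hv : P.N / 4 ≤ P.v (l + 1)) : 1 / c0 ^ 2 ≤ P.th w l := by
  have hu := A.u0
  have hn := A.nR
  have hβ := A.β0
  have hlQ : l + 1 ≤ P.Q := PQ (by omega)
  have hth := A.th0 (w := w) (PK (l := l) (by omega)).le
  obtain ⟨v, hv'⟩ : ∃ v, v = P.v (l + 1) := ⟨_, rfl⟩
  have hy : P.m (l + 1) = v * P.u := by rw [hv']; exact m_low (by omega) hlQ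
  have hvN : v ≤ P.N + 1 := by rw [hv']; exact A.v_le (by omega)
  rw [← hv'] at hv
  have hv2 : 2 ≤ v := by linarith [A.N8]
  have y0 : 2 * P.u ≤ v * P.u := mul_le_mul_of_nonneg_right hv2 hu.le
  have y1 : v * P.u ≤ (P.N + 1) * P.u := mul_le_mul_of_nonneg_right hvN hu.le
  have hV0 : 0 ≤ P.β ^ 2 / P.n * (Λ * (v * P.u) ^ 2) := by positivity
  have hV : P.β ^ 2 / P.n * (Λ * (v * P.u) ^ 2) ≤ P.b 1 ^ 2 := by
    rw [A.b_sq]
    refine mul_le_mul_of_nonneg_left ?_ (by positivity)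
    have b1 : Λ * (v * P.u) ^ 2 ≤ Λ * ((P.N + 1) * P.u) ^ 2 := by gcongr
    have b2 : P.s 1 = 1 - P.T 1 * P.u ^ 2 := if_pos le_rfl
    linarith [(A.Tu (le_refl 1)).2, A.Su]
  obtain ⟨s1, s2⟩ := A.b2_sum h1 hlQ hV0 hV
  have a1 := A.enX B h1 hlQ hV0 hV
  have a2 := A.fe_lo (b' := P.b2 l (P.β ^ 2 / P.n * (Λ * (v * P.u) ^ 2))) hD B hR hk3 hX
    (fun _ _ _ => Real.sqrt_nonneg _) (fun _ h => A.b2_deep hlQ h)
    s1 h1 hlQ (y := v * P.u) (by linarith) hy.ge s2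
  have a3 := A.fe_up hD B hR hk1 hU hW A.em (y := P.u) (by linarith) (by linarith)
    (A.m_A (by omega) (by omega)) A.m_Q.le
  have a4 := hG (v * P.u) y0 y1
  have a5 : P1 P.n P.β P.u ≤ P1 P.n P.β (v * P.u / 2) := P1_mono hu (by linarith)
  rw [hy] at a1
  have e1 : P.β ^ 2 / P.n * (Λ * (v * P.u) ^ 2) * (v * P.u) *
      (P.n ^ 2 * P.u ^ 2 / (4 * P.β ^ 2) * P.th w l) =
      v ^ 3 * (Λ * P.th w l / 4) * (P.n * P.u ^ 5) := by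
    field_simp
  have e2 : (P.n : ℝ) * (v * P.u) ^ 5 = v ^ 5 * (P.n * P.u ^ 5) := by ring
  rw [e1] at a1
  rw [e2] at a2 a4
  have hZ : 0 < (P.n : ℝ) * P.u ^ 5 := by positivity
  have v5 : 32 ≤ v ^ 5 := by
    have := pow_le_pow_left₀ (by norm_num : (0 : ℝ) ≤ 2) hv2 5
    linarith
  have a6 : 2 * ε * (P.n * P.u ^ 5) ≤ cg / 4 * (v ^ 5 * (P.n * P.u ^ 5)) := by
    have b1 : 2 * ε ≤ cg / 4 * v ^ 5 := by
      have := mul_le_mul_of_nonneg_left v5 hcg.le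
      linarith
    calc _ ≤ cg / 4 * v ^ 5 * (P.n * P.u ^ 5) := mul_le_mul_of_nonneg_right b1 hZ.le
      _ = _ := by ring
  have a7 : v ^ 3 * (cg / 2 * v ^ 2) * (P.n * P.u ^ 5) ≤
      v ^ 3 * (Λ * P.th w l / 4) * (P.n * P.u ^ 5) := by
    have e3 : v ^ 3 * (cg / 2 * v ^ 2) * (P.n * P.u ^ 5) =
      cg / 2 * (v ^ 5 * (P.n * P.u ^ 5)) := by ring
    rw [e3]
    linarith
  have a8 := le_of_mul_le_mul_left (le_of_mul_le_mul_right a7 hZ) (by positivity : 0 < v ^ 3)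
  exact cross_arith hΛ0 hcg hc0 A.N0.le hv hN a8

end Ad

end Pa

end Vale.Agent.N146.Sharp
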