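import Vale.Agent.N146.Sharp.RDef
import Vale.Agent.P146.H877x.RowW
import Vale.Agent.P146.H758.Box
import Vale.Agent.P146.H479.ThUp
import Vale.Agent.P146.H295.ConcSK
import Vale.Agent.P146.U.AP
import Vale.Agent.P146.U.AP3

/-!
# P146 (c): the interfaces (helper38)

One law `skS n (Q + J) m b w`: low levels `1..Q` (exponents of the order `u`), deep levels
`Q+1..Q+J` (exponents `j / (J+1)`, no bonds, tiny fields).  Every `def` below is the statement of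
one package.
-/

namespace Vale.Agent.N146.Sharp

open Finset
open Vale.Agent.P157 Vale.Agent.P157.Lv Vale.Agent.P157.Lv.Sy
open Vale.Agent.P146 Vale.Agent.P146.U
open Vale.Agent.P146.H93 (skS Em)
open Vale.Agent.P146.H479 (Na)
open Vale.Agent.P146.H758 (tv Ap Pu)
open Vale.Agent.P146.H186 (cSK)
open Vale.Agent.P146.H295 (gg spn zs)
open Vale.Agent.P146.H877x (Hz)
open Vale.Agent.P146.H379.Row (bt2 NL)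

/-- the range of the scales: `K n^(-1/6) ≤ u ≤ 2 n^(-23/200)` -/
def Rg (K : ℝ) (n : ℕ) (u : ℝ) : Prop :=
  K * (n : ℝ) ^ (-(1 / 6) : ℝ) ≤ u ∧ u ≤ 2 * (n : ℝ) ^ (-(23 / 200) : ℝ)

/-- the deep levels -/
structure Dp (Q J : ℕ) (m b : ℕ → ℝ) : Prop where
  em : Em (Q + J) m
  Q1 : 1 ≤ Q
  md : ∀ j, 1 ≤ j → j ≤ J → m (Q + j) = j / (J + 1)
  bd : ∀ j, Q < j → b j = 0

/-- the exponents of the low levels -/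
def mlow (Q : ℕ) (m : ℕ → ℝ) (j : ℕ) : ℝ := if j ≤ Q then m j else 1

/-- the variance of the overlap at the level `j` -/
noncomputable def Vr (n K : ℕ) (m b w : ℕ → ℝ) (j : ℕ) : ℝ :=
  (skS n K m b w).pairEx j fun x y => (Rov H325.sp x y - (skS n K m b w).Rl H325.sp j) ^ 2

/-- **ID** (96, 75): the cubic coefficient of the row is the same for all laws with `J` deep
levels. -/
def IdC (β : ℝ) : Prop :=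
  ∃ C : ℝ, 0 < C ∧ ∀ ε : ℝ, 0 < ε → ∃ (c η : ℝ) (J n0 : ℕ), 0 ≤ c ∧ c ≤ C ∧ 0 < η ∧ 3 ≤ J ∧
    ∀ n : ℕ, n0 ≤ n → ∀ (Q l : ℕ) (m b w : ℕ → ℝ) (θ D κ : ℝ) (i : Fin n),
      Dp Q J m b → Na (Q + J) b → (∀ j, 1 ≤ j → j ≤ Q + J → 0 < w j) →
      tv (Q + J) b = β ^ 2 / n →
      β ^ 2 * (1 - η) ≤ n * b 1 ^ 2 → tv (Q + J) w ≤ η → m Q ≤ η →
      ∑ j ∈ Icc Q (Q + J), Vr n (Q + J) m b w j ≤ 20 → 1 ≤ l → l + 2 ≤ Q →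
      Hz n (Q + J) m b w l θ D κ (β ^ 2) → θ ≤ η → D ≤ η * θ → κ + β ^ 2 / n ≤ η * θ →
      |6 * NL (Q + J) m b w l i -
        c * (bt2 n b l * (skS n (Q + J) m b w).Rl H325.sp l) ^ 3| ≤ ε * θ ^ 3

/-- **M4** (86): the fourth moment below two levels `Q - 1`, `Q` with bonds. -/
def M4 : Prop :=
  ∀ c1 c2 τ E0 : ℝ, 0 < c1 → 0 < c2 → 0 < τ → 0 < E0 → ∃ C4 : ℝ, 1 ≤ C4 ∧
    ∀ (n K Q l : ℕ) (m b w : ℕ → ℝ) (x : ℝ), 2 ≤ n → Em K m → Q < K → l + 2 ≤ Q →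
      0 < x → x ≤ 1 → 1 ≤ n * x ^ 6 → c1 * x ≤ m 1 → m Q ≤ c2 * x → 2 * m Q ≤ m (Q + 1) →
      Na K b → τ * x ^ 2 ≤ n * b (Q - 1) ^ 2 → τ * x ^ 2 ≤ n * b Q ^ 2 →
      (skS n K (Function.update m Q (2 * m Q)) b w).fe - (skS n K m b w).fe ≤
        E0 * (n * x ^ 5) →
      (skS n K m b w).pairEx l (fun x y => Rov H325.sp x y ^ 4) ≤ (C4 * x) ^ 4

/-- **SEL** (86): the touching paraboloid with one radius per level. -/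
def Sel : Prop :=
  ∀ (n K : ℕ) (hK : 0 < K) (m b c R δ y : ℕ → ℝ), 0 < n → Em K m →
    (∀ p, 1 ≤ p → p ≤ K → 0 < R p ∧ R p < c p ∧ 0 < δ p) →
    (∀ v : ℕ → ℝ, (∀ p, 1 ≤ p → p ≤ K → |v p - c p| ≤ R p) → ∀ p, 1 ≤ p → p ≤ K →
      |cSK n K m b (fun j => √(v j)) p - y p| ≤ δ p) →
    ∃ v : ℕ → ℝ, (∀ p, 1 ≤ p → p ≤ K → |v p - c p| < R p) ∧ ∀ p, 1 ≤ p → p ≤ K →
      gg (skS n K m b fun j => √(v j)) (spn n) (zs hK) (fun j => √(v j)) p p ≤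
        16 * δ p / (m p * n ^ 2 * R p)

/-- **DEEP** (86): removal of the deep levels (any exponents on them). -/
def Deep : Prop :=
  ∀ (n Q J : ℕ) (m b w : ℕ → ℝ), Em (Q + J) m → 1 ≤ Q → (∀ j, Q < j → b j = 0) →
    Na (Q + J) b → Na (Q + J) w →
    (skS n Q (mlow Q m) b w).fe ≤ (skS n (Q + J) m b w).fe ∧
      (skS n (Q + J) m b w).fe ≤
        (skS n Q (mlow Q m) b w).fe + n / 2 * ∑ j ∈ Ico (Q + 1) (Q + J + 1), w j ^ 2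

/-- **RESP** (86): the responses; low levels from the box, all levels trivially. -/
def Resp : Prop :=
  ∀ (n Q J : ℕ) (β y Y V1 A E R : ℝ) (m b w : ℕ → ℝ), 0 ≤ β → Em (Q + J) m → 1 ≤ Q →
    (∀ j, Q < j → b j = 0) → Na (Q + J) b → Na (Q + J) w →
    (∀ p, 1 ≤ p → p ≤ Q + J → 0 ≤ cSK n (Q + J) m b w p ∧ cSK n (Q + J) m b w p ≤ n) ∧
    (Ap n β y Y V1 A E → 0 < y → y ≤ m 1 → m Q ≤ Y → Y ≤ 1 → tv Q b = β ^ 2 / n → 0 < R →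
      tv Q w + 2 * R ≤ V1 → ∀ p, 1 ≤ p → p ≤ Q → 2 * R < w p ^ 2 →
      |cSK n (Q + J) m b w p - n / β| ≤
        4 * (E + n / 2 * ∑ j ∈ Ico (Q + 1) (Q + J + 1), w j ^ 2) / R)

/-- **BOX**: the a priori box for exponents in `[u/2, N u]`. -/
def Box (β : ℝ) : Prop :=
  ∀ N : ℝ, 1 ≤ N → ∃ B K0 : ℝ, ∃ n0 : ℕ, 0 < B ∧ ∀ n : ℕ, n0 ≤ n → ∀ u : ℝ, Rg K0 n u →
    Ap n β (u / 2) (N * u) (u ^ 3) (P1 n β (u / 2)) (B * (n * u ^ 5))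

/-- **GROW**: growth and Lipschitz bound of the pure laws. -/
def Grow (β : ℝ) : Prop :=
  ∃ c C K0 : ℝ, ∃ n0 : ℕ, 0 < c ∧ 0 < C ∧ 0 < K0 ∧ ∀ n : ℕ, n0 ≤ n →
    (∀ y : ℝ, K0 * (n : ℝ) ^ (-(1 / 6) : ℝ) ≤ y → y ≤ (n : ℝ) ^ (-(1 / 10) : ℝ) →
      c * (n * y ^ 5) ≤ P1 n β y - P1 n β (y / 2)) ∧
    (∀ u s t : ℝ, Rg K0 n u → u / 2 ≤ s → s ≤ t → t ≤ 2 * u →
      P1 n β t - P1 n β s ≤ C * (t - s) * (n * u ^ 4))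

/-- **LINK, upper side**: exponents `≤ y` below the cut `a`, a head of the share `T u²` with
exponents `≤ N u`, small fields anywhere. -/
def LinkUp (β : ℝ) : Prop :=
  ∀ N ε : ℝ, 2 ≤ N → 0 < ε → ∃ T0 : ℝ, 0 < T0 ∧ ∀ T : ℝ, 0 < T → T ≤ T0 →
    ∃ k K0 : ℝ, ∃ n0 : ℕ, 0 < k ∧ ∀ n : ℕ, n0 ≤ n → ∀ u : ℝ, Rg K0 n u →
      ∀ (y : ℝ) (K a : ℕ) (m b w : ℕ → ℝ), u / 2 ≤ y → y ≤ 2 * u → Em K m → 1 ≤ a → a < K →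
        m a ≤ y → m K ≤ N * u → Na K b → Na K w → tv K b = β ^ 2 / n →
        ∑ j ∈ Ico (a + 1) (K + 1), b j ^ 2 = β ^ 2 / n * (T * u ^ 2) → tv K w ≤ k * u ^ 3 →
        (skS n K m b w).fe ≤ P1 n β y + n / (2 * β) * tv K w + ε * (n * u ^ 5)

/-- **LINK, lower side**: exponents `≥ y` on a share `≥ Λ y²`, small fields anywhere. -/
def LinkLo (β : ℝ) : Prop :=
  ∀ ε : ℝ, 0 < ε → ∃ Λ : ℝ, 1 ≤ Λ ∧ ∀ N : ℝ, 1 ≤ N →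
    ∃ k K0 : ℝ, ∃ n0 : ℕ, 0 < k ∧ ∀ n : ℕ, n0 ≤ n → ∀ u : ℝ, Rg K0 n u →
      ∀ (y : ℝ) (K a : ℕ) (m b w : ℕ → ℝ), u / 2 ≤ y → Em K m → 1 ≤ a → a < K →
        u / 2 ≤ m 1 → y ≤ m (a + 1) → m K ≤ N * u → Na K b → Na K w → tv K b = β ^ 2 / n →
        β ^ 2 / n * (Λ * y ^ 2) ≤ ∑ j ∈ Ico (a + 1) (K + 1), b j ^ 2 → tv K w ≤ k * u ^ 3 →
        P1 n β y + n / (2 * β) * tv K w - ε * (n * y ^ 5) ≤ (skS n K m b w).fe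

/-- **The two increments** (38). -/
def KL (β : ℝ) : Prop :=
  ∃ Λ1 : ℝ, ∀ ε : ℝ, 0 < ε → ∃ κ q Λ K0 : ℝ, ∃ n0 : ℕ, 0 < κ ∧ κ ≤ ε ∧ 0 < q ∧ q ≤ ε * κ ∧
    0 ≤ Λ ∧ Λ ≤ Λ1 ∧
    ∀ n : ℕ, n0 ≤ n → ∀ u : ℝ, Rg K0 n u →
      P1 n β ((1 - q) * u) - P1 n β ((1 - κ) * u) ≤ κ * (Λ + ε) * (n * u ^ 5) ∧
      κ * (Λ - ε) * (n * u ^ 5) ≤ P1 n β ((1 + κ) * u) - P1 n β ((1 - q) * u)

end Vale.Agent.N146.Sharp
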