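import Vale.Agent.N146.Sharp.NormB

/-!
# P146 (c): the energies (helper38)
-/

namespace Vale.Agent.N146.Sharp

open Finset
open Vale.Agent.P157 Vale.Agent.P157.Lv Vale.Agent.P157.Lv.Sy
open Vale.Agent.P146 Vale.Agent.P146.U
open Vale.Agent.P146.H93 (Cd skS Em linS_sk)
open Vale.Agent.P146.H479
open Vale.Agent.P146.H758 (tv Ap Pu Ex2)
open Vale.Agent.P146.H186 (cSK)
open Vale.Agent.P146.H295 (gg spn zs)

set_option linter.unusedSectionVars false

namespace Pa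

/-- the bundle A lowered to the root -/
noncomputable def m0 (P : Pa) (j : ℕ) : ℝ :=
  if 1 ≤ j ∧ j ≤ P.M + 1 then (1 - P.κ) * P.u else P.m j

/-- the root and the bundle A raised -/
noncomputable def m1 (P : Pa) (j : ℕ) : ℝ :=
  if 1 ≤ j then max (P.m j) ((1 + P.κ) * P.u) else P.m j

/-- bonds moved from the root to the level `l + 1` -/
noncomputable def b2 (P : Pa) (l : ℕ) (V : ℝ) (j : ℕ) : ℝ := √(P.b j ^ 2 + mvu 1 (l + 1) V j)

variable {P : Pa} {w : ℕ → ℝ} {k R ω g gd ζ C V : ℝ} {i j l : ℕ}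

lemma m0_in (h1 : 1 ≤ j) (h2 : j ≤ P.M + 1) : P.m0 j = (1 - P.κ) * P.u := if_pos ⟨h1, h2⟩
lemma m0_out (h : P.M + 1 < j) : P.m0 j = P.m j := if_neg (by omega)
lemma m1_in (h1 : 1 ≤ j) : P.m1 j = max (P.m j) ((1 + P.κ) * P.u) := if_pos h1

namespace Ad

variable (A : P.Ad)
include A

lemma m_mono (h : i ≤ j) (hj : j ≤ P.K + 1) : P.m i ≤ P.m j := H758.em_mono A.em h hj

lemma m_A (h1 : 1 ≤ j) (h2 : j ≤ P.M + 2) : P.m j ≤ P.u := by
  rw [m_low h1 (PQ (by omega))]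
  have := mul_le_mul_of_nonneg_right (vv_le_one A.M1 A.q0.le A.qκ A.N0.le h1 h2) A.u0.le
  linarith

lemma m0_le (h1 : 1 ≤ j) (h2 : j ≤ P.K + 1) : P.m0 j ≤ P.m j := by
  by_cases h : j ≤ P.M + 1
  · rw [m0_in h1 h, ← A.m_one]; exact A.m_mono h1 h2
  · rw [m0_out (by omega)]

lemma em0 : Em P.K P.m0 where
  m0 := by
    rw [show P.m0 0 = P.m 0 from if_neg (by omega)]; exact A.em.m0
  mK := by
    rw [m0_out (by have := PK (P := P) (l := P.M + 1) (by omega); omega)]; exact A.em.mK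
  mono := fun l hl => by
    have h0 : 0 ≤ (1 - P.κ) * P.u := mul_nonneg (by linarith [A.κ4]) A.u0.le
    rcases Nat.eq_zero_or_pos l with h | h
    · rw [h, show P.m0 0 = P.m 0 from if_neg (by omega), A.em.m0, m0_in (by omega) (by omega)]
      exact h0
    by_cases h1 : l + 1 ≤ P.M + 1
    · rw [m0_in h (by omega), m0_in (by omega) h1]
    · rw [m0_out (j := l + 1) (by omega)]
      exact (A.m0_le h (by omega)).trans (A.em.mono l hl)
  pos := by
    rw [m0_in le_rfl (by omega)]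
    exact mul_pos (by linarith [A.κ4]) A.u0

lemma κu : (1 + P.κ) * P.u ≤ (P.N + 1) * P.u :=
  mul_le_mul_of_nonneg_right (by linarith [A.κ4, A.N8]) A.u0.le

lemma em1 : Em P.K P.m1 where
  m0 := by
    rw [show P.m1 0 = P.m 0 from if_neg (by omega)]; exact A.em.m0
  mK := by
    rw [m1_in (by omega), A.em.mK]
    exact max_eq_left (by linarith [A.κu, A.Nu1, A.Nu0])
  mono := fun l hl => by
    rcases Nat.eq_zero_or_pos l with h | h
    · rw [h, show P.m1 0 = P.m 0 from if_neg (by omega), m1_in (by omega)]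
      exact (A.em.mono 0 (Nat.zero_le _)).trans (le_max_left _ _)
    · rw [m1_in h, m1_in (by omega)]
      exact max_le_max (A.em.mono l hl) le_rfl
  pos := by
    rw [m1_in le_rfl]
    exact A.em.pos.trans_le (le_max_left _ _)

lemma bQB (h1 : 2 ≤ i) (h2 : i ≤ P.M + 1) (hl : l ≤ P.K) :
    P.b i ^ 2 * QB P.n P.K P.m P.b w l =
      P.n * P.u ^ 4 / 2 * (P.S / P.M * P.th w l) - P.β ^ 2 * P.u ^ 2 / 2 * (P.S / P.M) := by
  rw [A.b_A h1 h2, QB_eq A.n0 A.em hl]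
  unfold th
  have := A.nR
  have := A.u0
  field_simp

lemma A_sub : Icc 2 (P.M + 1) ⊆ Ico 1 (P.K + 1) := fun i hi => by
  rw [mem_Icc] at hi
  rw [mem_Ico]
  have := PK (P := P) (l := i) (by omega)
  omega

/-- **K-side** -/
theorem enK (B : Bw P w k R ω) (hR : 0 < R) (h4 : Fo P w C) (hC : 0 ≤ C) :
    (skS P.n P.K P.m P.b w).fe - (skS P.n P.K P.m0 P.b w).fe ≤
      P.κ * (1 / 4 * ∑ i ∈ Icc 2 (P.M + 1), P.S / P.M * P.th w i + k * C) * (P.n * P.u ^ 5) := by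
  have hu := A.u0
  have hn := A.nR
  have hκ := A.κ0
  have h1 := up_le (n := P.n) A.em0 A.em (A.na _) B.na fun j h1 h2 => A.m0_le h1 (by omega)
  have h2 : ∑ i ∈ Ico 1 (P.K + 1), (P.m i - P.m0 i) *
      (P.b i ^ 2 * QB P.n P.K P.m P.b w i + w i ^ 2 * QW P.n P.K P.m P.b w i) =
      ∑ i ∈ Icc 2 (P.M + 1), (P.m i - P.m0 i) *
      (P.b i ^ 2 * QB P.n P.K P.m P.b w i + w i ^ 2 * QW P.n P.K P.m P.b w i) := by
    refine (sum_subset A.A_sub fun i hi hi' => ?_).symm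
    rw [mem_Ico] at hi
    rw [mem_Icc] at hi'
    by_cases h : i ≤ P.M + 1
    · rw [show i = 1 by omega, m0_in le_rfl (by omega), A.m_one, sub_self, zero_mul]
    · rw [m0_out (by omega), sub_self, zero_mul]
  have h3 : ∑ i ∈ Icc 2 (P.M + 1), (P.m i - P.m0 i) *
      (P.b i ^ 2 * QB P.n P.K P.m P.b w i + w i ^ 2 * QW P.n P.K P.m P.b w i) ≤
      ∑ i ∈ Icc 2 (P.M + 1), P.κ * P.u *
      (P.n * P.u ^ 4 / 2 * (P.S / P.M * P.th w i) + P.n * (C * P.u) * w i ^ 2) := by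
    refine sum_le_sum fun i hi => ?_
    rw [mem_Icc] at hi
    have hK := (PK (P := P) (l := i) (by omega)).le
    refine mul_le_mul ?_ (add_le_add ?_ ?_) (add_nonneg
      (mul_nonneg (sq_nonneg _) (QB_nonneg A.em hK)) (mul_nonneg (sq_nonneg _) (QW_nonneg A.em hK)))
      (by positivity)
    · rw [m0_in (by omega) hi.2]
      linarith [A.m_A (j := i) (by omega) (by omega)]
    · rw [A.bQB hi.1 hi.2 hK]
      have : 0 ≤ P.β ^ 2 * P.u ^ 2 / 2 * (P.S / P.M) := by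
        have := A.S0
        positivity
      linarith
    · rw [QW_eq A.n0, mul_comm]
      exact mul_le_mul_of_nonneg_right
        (mul_le_mul_of_nonneg_left (A.RqC h4 hC (by omega)) hn.le) (sq_nonneg _)
  have h5 : ∑ i ∈ Icc 2 (P.M + 1), w i ^ 2 ≤ 2 * k * P.u ^ 3 := by
    have a1 := tv_le (a := 0) (K := P.Q) (Nat.zero_le _) w
    have a2 : ∑ i ∈ Icc 2 (P.M + 1), w i ^ 2 ≤ ∑ i ∈ Ico (0 + 1) (P.Q + 1), w i ^ 2 := by
      refine sum_le_sum_of_subset_of_nonneg (fun i hi => ?_) fun _ _ _ => sq_nonneg _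
      rw [mem_Icc] at hi
      rw [mem_Ico]
      have := PQ (P := P) (l := i) (by omega)
      omega
    linarith [B.tQ, H758.tv_nonneg 0 w]
  rw [← mul_sum, sum_add_distrib, ← mul_sum, ← mul_sum (Icc 2 (P.M + 1)) (fun i => w i ^ 2)] at h3
  have h6 := mul_le_mul_of_nonneg_left h5 (by positivity : 0 ≤ P.κ * P.u * (P.n * (C * P.u)))
  rw [h2] at h1
  nlinarith

/-- **L-side** -/
theorem enL (B : Bw P w k R ω) :
    P.κ * (1 / 4 * ∑ i ∈ Icc 2 (P.M + 1), P.S / P.M * P.th w (i - 1)) * (P.n * P.u ^ 5) -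
      P.κ * (P.β ^ 2 * P.S / 4 * P.u ^ 3) ≤
    (skS P.n P.K P.m1 P.b w).fe - (skS P.n P.K P.m P.b w).fe := by
  have hu := A.u0
  have hκ := A.κ0
  have hM := A.MR
  have h1 := fe_sub (n := P.n) A.em A.em1 (A.na _) B.na
  rw [sum_lev fun i => (P.m1 i - P.m i) * kd P.n P.K P.m P.b w i] at h1
  have h2 : ∑ i ∈ Icc 2 (P.M + 1), (P.m1 i - P.m i) * kd P.n P.K P.m P.b w i ≤
      ∑ i ∈ Ico 1 (P.K + 1), (P.m1 i - P.m i) * kd P.n P.K P.m P.b w i := by
    refine sum_le_sum_of_subset_of_nonneg A.A_sub fun i hi _ => ?_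
    rw [mem_Ico] at hi
    refine mul_nonneg ?_ (kd_nonneg A.em ⟨hi.1, by omega⟩ _ _)
    rw [m1_in hi.1]
    linarith [le_max_left (P.m i) ((1 + P.κ) * P.u)]
  have h3 : ∑ i ∈ Icc 2 (P.M + 1), P.κ * P.u * ((P.n * P.u ^ 4 / 2 *
      (P.S / P.M * P.th w (i - 1)) - P.β ^ 2 * P.u ^ 2 / 2 * (P.S / P.M)) / 2) ≤
      ∑ i ∈ Icc 2 (P.M + 1), (P.m1 i - P.m i) * kd P.n P.K P.m P.b w i := by
    refine sum_le_sum fun i hi => ?_
    rw [mem_Icc] at hi
    have hK := (PK (P := P) (l := i) (by omega)).le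
    have a1 := kd_ge (n := P.n) (l := i - 1) A.em ⟨show 1 ≤ i by omega, hK⟩ (by omega) P.b w
    rw [A.bQB hi.1 hi.2 (by omega)] at a1
    have a2 : 0 ≤ w i ^ 2 * QW P.n P.K P.m P.b w (i - 1) :=
      mul_nonneg (sq_nonneg _) (QW_nonneg A.em (by omega))
    have a3 : P.κ * P.u ≤ P.m1 i - P.m i := by
      rw [m1_in (by omega)]
      linarith [le_max_right (P.m i) ((1 + P.κ) * P.u), A.m_A (j := i) (by omega) (by omega)]
    calc _ ≤ P.κ * P.u * kd P.n P.K P.m P.b w i :=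
          mul_le_mul_of_nonneg_left (by linarith) (by positivity)
      _ ≤ _ := mul_le_mul_of_nonneg_right a3 (kd_nonneg A.em ⟨by omega, hK⟩ _ _)
  rw [← mul_sum, ← sum_div, sum_sub_distrib, ← mul_sum, sum_const, Nat.card_Icc,
    show P.M + 1 + 1 - 2 = P.M by omega, nsmul_eq_mul] at h3
  have e : (P.M : ℝ) * (P.β ^ 2 * P.u ^ 2 / 2 * (P.S / P.M)) = P.β ^ 2 * P.u ^ 2 / 2 * P.S := by
    field_simp
  rw [e] at h3
  nlinarith

lemma b2_sq (_h1 : 1 ≤ l) (hV0 : 0 ≤ V) (hV : V ≤ P.b 1 ^ 2) (j : ℕ) :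
    P.b2 l V j ^ 2 = P.b j ^ 2 + mvu 1 (l + 1) V j := by
  refine Real.sq_sqrt ?_
  unfold mvu
  split_ifs with h h'
  · rw [h]; linarith
  · positivity
  · positivity

lemma b2_deep (h2 : l + 1 ≤ P.Q) (h : P.Q < j) : P.b2 l V j = 0 := by
  have := Q3 (P := P)
  unfold b2 mvu
  rw [b_deep h, if_neg (by omega), if_neg (by omega)]
  simp

lemma b2_sum (h1 : 1 ≤ l) (h2 : l + 1 ≤ P.Q) (hV0 : 0 ≤ V) (hV : V ≤ P.b 1 ^ 2) :
    tv P.Q (P.b2 l V) = P.β ^ 2 / P.n ∧ V ≤ ∑ j ∈ Ico (l + 1) (P.Q + 1), P.b2 l V j ^ 2 := by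
  constructor
  · have a1 := sum_mvu (K := P.Q) (p := 1) (q := l + 1) le_rfl (by omega) h2 V fun _ => 1
    simp only [mul_one, sub_self, mul_zero] at a1
    rw [Fin.sum_univ_eq_sum_range (fun j => mvu 1 (l + 1) V (j + 1)) P.Q] at a1
    rw [← A.tv_top le_rfl]
    unfold tv
    simp only [A.b2_sq h1 hV0 hV]
    rw [sum_add_distrib, a1, add_zero]
  · refine le_trans ?_ (single_le_sum (f := fun j => P.b2 l V j ^ 2) (fun _ _ => sq_nonneg _)
      (show l + 1 ∈ Ico (l + 1) (P.Q + 1) by rw [mem_Ico]; omega))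
    show V ≤ P.b2 l V (l + 1) ^ 2
    rw [A.b2_sq h1 hV0 hV]
    unfold mvu
    rw [if_neg (by omega), if_pos rfl]
    linarith [sq_nonneg (P.b (l + 1))]

/-- **the crossing** -/
theorem enX (B : Bw P w k R ω) (h1 : 1 ≤ l) (h2 : l + 1 ≤ P.Q) (hV0 : 0 ≤ V)
    (hV : V ≤ P.b 1 ^ 2) :
    (skS P.n P.K P.m (P.b2 l V) w).fe ≤ (skS P.n P.K P.m P.b w).fe +
      V * P.m (l + 1) * (P.n ^ 2 * P.u ^ 2 / (4 * P.β ^ 2) * P.th w l) := by
  have hK : l + 1 ≤ P.K := h2.trans QK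
  have a1 := fe_super (n := P.n) (b' := P.b2 l V) (w' := w) A.em (A.na _) B.na
    (fun _ _ _ => Real.sqrt_nonneg _) B.na
  have a2 : gv P.n P.K P.m P.b w (P.b2 l V) w =
      1 / 2 * (V * (chiB P.n P.K P.m P.b w (l + 1) - chiB P.n P.K P.m P.b w 1)) := by
    unfold gv
    rw [← sum_mvu (K := P.K) le_rfl (by omega) hK]
    refine congrArg (fun t => 1 / 2 * t) (sum_congr rfl fun j _ => ?_)
    rw [A.b2_sq h1 hV0 hV]
    ring
  have a3 : ∑ i ∈ Ico 1 (l + 1), (P.m (i + 1) - P.m i) * QB P.n P.K P.m P.b w i ≤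
      P.m (l + 1) * QB P.n P.K P.m P.b w l := by
    calc _ ≤ ∑ i ∈ Ico 1 (l + 1), (P.m (i + 1) - P.m i) * QB P.n P.K P.m P.b w l := by
          refine sum_le_sum fun i hi => ?_
          rw [mem_Ico] at hi
          exact mul_le_mul_of_nonneg_left (QB_mono A.em (by omega) (by omega))
            (by linarith [A.em.mono i (by omega)])
      _ = (P.m (l + 1) - P.m 1) * QB P.n P.K P.m P.b w l := by
          rw [← sum_mul, sum_Ico_sub P.m (by omega)]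
      _ ≤ _ := mul_le_mul_of_nonneg_right (by linarith [A.em.pos]) (QB_nonneg A.em (by omega))
  have a4 : QB P.n P.K P.m P.b w l ≤ P.n ^ 2 * P.u ^ 2 / (2 * P.β ^ 2) * P.th w l := by
    rw [QB_eq A.n0 A.em (by omega)]
    have e : (P.n : ℝ) ^ 2 * P.u ^ 2 / (2 * P.β ^ 2) * P.th w l =
        P.n ^ 2 * Tq P.n P.K P.m P.b w l / 2 := by
      unfold th
      have := A.u0
      have := A.β0
      field_simp
    rw [e]
    linarith [A.nR]
  have hm0 : 0 ≤ P.m (l + 1) := em_nonneg A.em (by omega)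
  have a5 := mul_le_mul_of_nonneg_left (a3.trans (mul_le_mul_of_nonneg_left a4 hm0)) hV0
  rw [a2, chiB_sub (by omega) (by omega)] at a1
  have e : V * P.m (l + 1) * (P.n ^ 2 * P.u ^ 2 / (4 * P.β ^ 2) * P.th w l) =
      1 / 2 * (V * (P.m (l + 1) * (P.n ^ 2 * P.u ^ 2 / (2 * P.β ^ 2) * P.th w l))) := by
    have := A.β0
    field_simp
    ring
  rw [e]
  linarith

/-- the deep levels -/
theorem deepVar (W : Sw P A.K0 w k R ω g (16 * (P.J + 1) / (P.n * ω)) ζ)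
    (hω : 320 * ((P.J : ℝ) + 1) ^ 4 ≤ P.n * ω) :
    ∑ j ∈ Icc P.Q (P.Q + P.J), Vr P.n (P.Q + P.J) P.m P.b w j ≤ 20 := by
  have hJ := A.J3
  have hJ' : (0 : ℝ) < P.J + 1 := by positivity
  have hK : P.K = P.Q + P.J := rfl
  have h1 := H295.conc_sum_sk (b := P.b) (w := w) A.n0 A.K0 A.em (a := P.Q + 1) (c := P.K - 1)
    (by omega) (by omega) (by omega) (fun p h1 h2 => W.pos p (by omega) (by omega))
    (π := 1 / (P.J + 1)) (by positivity) (fun l h1 h2 => by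
      obtain ⟨i, rfl⟩ := Nat.exists_eq_add_of_le (show P.Q ≤ l by omega)
      rw [add_assoc, m_deep (by omega) (by omega), m_deep (by omega) (by omega)]
      push_cast
      exact le_of_eq (by ring))
    (fun l h1 h2 => W.gh l (by omega) (by omega))
  have h2 : H295.Th (skS P.n P.K P.m P.b w) (spn P.n) (P.K - 1) ≤ 1 :=
    Tq_le_one A.em A.n0 A.K0 (by omega)
  have hω0 : 0 < P.n * ω := lt_of_lt_of_le (by positivity) hω
  have h3 : 20 * (((P.K - 1 : ℕ) : ℝ) - ((P.Q + 1 : ℕ) : ℝ)) * (16 * (P.J + 1) / (P.n * ω)) /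
      (1 / ((P.J : ℝ) + 1)) ^ 2 ≤ 1 := by
    have e : ((P.K - 1 : ℕ) : ℝ) - ((P.Q + 1 : ℕ) : ℝ) = P.J - 2 := by
      rw [Nat.cast_sub (by omega), hK]; push_cast; ring
    have e2 : 20 * ((P.J : ℝ) - 2) * (16 * (P.J + 1) / (P.n * ω)) / (1 / ((P.J : ℝ) + 1)) ^ 2 =
        320 * ((P.J - 2) * (P.J + 1) ^ 3) / (P.n * ω) := by
      field_simp; ring
    rw [e, e2, div_le_one hω0]
    refine le_trans ?_ hω
    have : ((P.J : ℝ) - 2) * (P.J + 1) ^ 3 ≤ (P.J + 1) * (P.J + 1) ^ 3 :=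
      mul_le_mul_of_nonneg_right (by linarith) (by positivity)
    nlinarith
  have h5 : ∑ j ∈ Ico (P.Q + 1) (P.K - 1), Vr P.n P.K P.m P.b w j ≤ 6 := by
    refine le_trans (sum_le_sum fun l _ => ?_) (h1.trans (by linarith))
    exact le_add_of_nonneg_right (by positivity)
  have e : Icc P.Q (P.Q + P.J) =
      insert P.Q (insert (P.K - 1) (insert P.K (Ico (P.Q + 1) (P.K - 1)))) := by
    ext j
    simp only [mem_Icc, mem_insert, mem_Ico]
    omega
  rw [e, sum_insert (by simp only [mem_insert, mem_Ico]; omega),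
    sum_insert (by simp only [mem_insert, mem_Ico]; omega),
    sum_insert (by simp only [mem_Ico]; omega)]
  have v1 := Vr_le_one (b := P.b) (w := w) (l := P.Q) A.em A.n0 A.K0 (by omega)
  have v2 := Vr_le_one (b := P.b) (w := w) (l := P.K - 1) A.em A.n0 A.K0 (by omega)
  have v3 := Vr_le_one (b := P.b) (w := w) (l := P.K) A.em A.n0 A.K0 le_rfl
  show Vr P.n P.K P.m P.b w P.Q + (Vr P.n P.K P.m P.b w (P.K - 1) + (Vr P.n P.K P.m P.b w P.K +
    ∑ j ∈ Ico (P.Q + 1) (P.K - 1), Vr P.n P.K P.m P.b w j)) ≤ 20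
  linarith

end Ad

end Pa

end Vale.Agent.N146.Sharp
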