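import Vale.Agent.N146.Sharp.Core

/-!
# P146 (c): large `n`, scales in the range; the numbers of the law (helper38)
-/

namespace Vale.Agent.N146.Sharp

open Finset Filter
open Vale.Agent.P157 Vale.Agent.P157.Lv Vale.Agent.P157.Lv.Sy
open Vale.Agent.P146 Vale.Agent.P146.U
open Vale.Agent.P146.H93 (skS Em)
open Vale.Agent.P146.H479 (Na)
open Vale.Agent.P146.H758 (tv Ap)
open Vale.Agent.P146.H877x (Hz KV eT KV_pos)
open Vale.Agent.P146.H379.Row (bt2 NL)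

set_option linter.unusedSectionVars false

lemma Rg.mono {K K' u : ℝ} {n : ℕ} (h : Rg K' n u) (hK : K ≤ K') : Rg K n u :=
  ⟨(mul_le_mul_of_nonneg_right hK (Real.rpow_nonneg n.cast_nonneg _)).trans h.1, h.2⟩

/-- large `n`, scales in the range with a large constant -/
def FF : Filter (ℕ × ℝ) where
  sets := {s | ∃ K : ℝ, ∃ n0 : ℕ, ∀ n : ℕ, n0 ≤ n → ∀ u : ℝ, Rg K n u → (n, u) ∈ s}
  univ_sets := ⟨0, 0, fun _ _ _ _ => trivial⟩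
  sets_of_superset := fun ⟨K, n0, h⟩ hs => ⟨K, n0, fun n hn u hu => hs (h n hn u hu)⟩
  inter_sets := fun ⟨K, n0, h⟩ ⟨K', n1, h'⟩ => ⟨max K K', max n0 n1, fun n hn u hu =>
    ⟨h n (le_of_max_le_left hn) u (hu.mono (le_max_left _ _)),
      h' n (le_of_max_le_right hn) u (hu.mono (le_max_right _ _))⟩⟩

lemma ev_iff {p : ℕ × ℝ → Prop} : (∀ᶠ x in FF, p x) ↔
    ∃ K : ℝ, ∃ n0 : ℕ, ∀ n : ℕ, n0 ≤ n → ∀ u : ℝ, Rg K n u → p (n, u) := Iff.rfl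

lemma ev_n (n1 : ℕ) : ∀ᶠ x in FF, n1 ≤ x.1 := ev_iff.2 ⟨0, n1, fun _ h _ _ => h⟩

lemma ev_rg (K : ℝ) : ∀ᶠ x in FF, Rg K x.1 x.2 := ev_iff.2 ⟨K, 0, fun _ _ _ h => h⟩

lemma ev_pos : ∀ᶠ x in FF, 0 < x.2 := by
  filter_upwards [ev_n 1, ev_rg 1] with x h1 h2
  have : (0 : ℝ) < x.1 := Nat.cast_pos.2 h1
  exact lt_of_lt_of_le (by positivity) h2.1

lemma ev_rpow (A : ℝ) {e a : ℝ} (he : 0 < e) (ha : a < 23 / 200) :
    ∀ᶠ x in FF, A * x.2 ≤ e * (x.1 : ℝ) ^ (-a) := by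
  have h := ((tendsto_rpow_neg_atTop (sub_pos.2 ha)).comp
    tendsto_natCast_atTop_atTop).const_mul (2 * |A|)
  rw [mul_zero] at h
  obtain ⟨n0, h0⟩ := eventually_atTop.1 (h.eventually_le_const he)
  filter_upwards [ev_n n0, ev_n 1, ev_rg 0, ev_pos] with x h1 h2 h3 h4
  have hn : (0 : ℝ) < x.1 := Nat.cast_pos.2 h2
  have e1 : (x.1 : ℝ) ^ (-(23 / 200) : ℝ) = (x.1 : ℝ) ^ (-(23 / 200 - a)) * (x.1 : ℝ) ^ (-a) := by
    rw [← Real.rpow_add hn]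
    ring_nf
  have h5 : 2 * |A| * (x.1 : ℝ) ^ (-(23 / 200 - a)) ≤ e := h0 _ h1
  calc A * x.2 ≤ |A| * (2 * (x.1 : ℝ) ^ (-(23 / 200) : ℝ)) :=
        mul_le_mul (le_abs_self _) h3.2 h4.le (abs_nonneg _)
    _ = 2 * |A| * (x.1 : ℝ) ^ (-(23 / 200 - a)) * (x.1 : ℝ) ^ (-a) := by rw [e1]; ring
    _ ≤ _ := mul_le_mul_of_nonneg_right h5 (by positivity)

lemma ev_u (A : ℝ) {e : ℝ} (he : 0 < e) : ∀ᶠ x in FF, A * x.2 ≤ e := by
  filter_upwards [ev_rpow A he (a := 0) (by norm_num)] with x h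
  simpa using h

lemma ev_x (A : ℝ) {e : ℝ} (he : 0 < e) : ∀ᶠ x in FF, A ≤ e * (x.1 * x.2 ^ 6) := by
  filter_upwards [ev_n 1, ev_rg (max 1 (A / e))] with x h1 h2
  have hn : (0 : ℝ) < x.1 := Nat.cast_pos.2 h1
  have k1 : (1 : ℝ) ≤ max 1 (A / e) := le_max_left _ _
  have h3 := pow_le_pow_left₀ (by positivity) h2.1 6
  have e1 : ((x.1 : ℝ) ^ (-(1 / 6) : ℝ)) ^ 6 = (x.1 : ℝ)⁻¹ := by
    rw [← Real.rpow_natCast, ← Real.rpow_mul hn.le, ← Real.rpow_neg_one]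
    norm_num
  rw [mul_pow, e1, ← div_eq_mul_inv, div_le_iff₀' hn] at h3
  have h4 : max 1 (A / e) ≤ max 1 (A / e) ^ 6 := le_self_pow₀ k1 (by norm_num)
  rw [← div_le_iff₀' he]
  exact (le_max_right _ _).trans (h4.trans h3)

/-- the constant of the row -/
noncomputable def ZZ (β : ℝ) : ℝ := KV ^ 2 * (1000000000000 * (β ^ 2) ^ 5)

lemma ZZ_pos {β : ℝ} (h : 0 < β) : 0 < ZZ β := by
  have := KV_pos
  unfold ZZ
  positivity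

lemma eT_num {n u C δ k G p ρ t d : ℝ} (hn : 0 < n) (hu : 0 < u) (hu1 : u ≤ 1) (hC : 0 ≤ C)
    (hk : k ≤ 1 / 2) (hp : 0 < p) (hρ : 0 < ρ) (ht : 0 < t) :
    G / (n * u ^ 2) / (p * u) + C * u / (n * (ρ * u ^ 3)) +
      (δ * u * (C * u) ^ 2 + (C * u) ^ 4 + 2 * k * u ^ 3 * (C * u) ^ 2) / t +
      (t * (C * u) ^ 3 + 2 * k * u ^ 3 * (C * u)) + 1 / n + d * u * (C * u) ^ 2 ≤
    ((G / p + C / ρ + 1) / (n * u ^ 6) + (C ^ 4 / t + C ^ 2 / t + C) * u +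
      (δ * C ^ 2 / t + t * C ^ 3 + d * C ^ 2)) * u ^ 3 := by
  have e1 : G / (n * u ^ 2) / (p * u) + C * u / (n * (ρ * u ^ 3)) +
      (δ * u * (C * u) ^ 2 + (C * u) ^ 4 + 2 * k * u ^ 3 * (C * u) ^ 2) / t +
      (t * (C * u) ^ 3 + 2 * k * u ^ 3 * (C * u)) + 1 / n + d * u * (C * u) ^ 2 =
      ((G / p + C / ρ * u + u ^ 3) / (n * u ^ 6) +
        (C ^ 4 / t + C ^ 2 / t * (2 * k * u) + C * (2 * k)) * u +
        (δ * C ^ 2 / t + t * C ^ 3 + d * C ^ 2)) * u ^ 3 := by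
    field_simp
    ring
  have h1 : C / ρ * u ≤ C / ρ := mul_le_of_le_one_right (by positivity) hu1
  have h2 : u ^ 3 ≤ 1 := pow_le_one₀ hu.le hu1
  have h3 : C ^ 2 / t * (2 * k * u) ≤ C ^ 2 / t :=
    mul_le_of_le_one_right (by positivity) (by nlinarith)
  have h4 : C * (2 * k) ≤ C := mul_le_of_le_one_right hC (by linarith)
  rw [e1]
  gcongr

namespace Pa

variable {P : Pa} {w : ℕ → ℝ} {k R ω ρ G ζ C δ t e1 c c1 η g : ℝ}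

namespace Ad

variable (A : P.Ad)
include A

lemma usq {a b : ℝ} (ha : 0 ≤ a) (h : a * P.u ≤ b) : a * P.u ^ 2 ≤ b :=
  (mul_le_mul_of_nonneg_left (by nlinarith [A.u0, A.u1]) ha).trans h

lemma u3 (hk : k ≤ 1 / 2) : 2 * k * P.u ^ 3 ≤ P.u := by
  have hu := A.u0
  have h1 : P.u ^ 3 ≤ P.u := pow_le_of_le_one hu.le A.u1 (by norm_num)
  have h2 : 2 * k * P.u ^ 3 ≤ 1 * P.u ^ 3 := mul_le_mul_of_nonneg_right (by linarith) (by positivity)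
  linarith

lemma x6 : P.n * P.u ^ 6 ≤ P.n * P.u ^ 5 ∧ P.n * P.u ^ 6 ≤ P.n * P.u ^ 2 ∧
    P.n * P.u ^ 6 ≤ P.n * P.u ∧ P.n * P.u ^ 6 ≤ P.n := by
  have hu := A.u0.le
  have h1 := A.u1
  have hn := A.nR.le
  exact ⟨mul_le_mul_of_nonneg_left (pow_le_pow_of_le_one hu h1 (by norm_num)) hn,
    mul_le_mul_of_nonneg_left (pow_le_pow_of_le_one hu h1 (by norm_num)) hn,
    mul_le_mul_of_nonneg_left (pow_le_of_le_one hu h1 (by norm_num)) hn,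
    mul_le_of_le_one_right hn (pow_le_one₀ hu h1)⟩

/-- the numbers from small scales -/
theorem nm (k0 : 0 < k) (k2 : k ≤ 1 / 2) (ρ0 : 0 < ρ) (NC : P.N + 1 ≤ C) (δ0 : 0 < δ)
    (δC : δ ≤ C) (t0 : 0 < t) (t1 : t ≤ 1) (e0 : 0 < e1) (ζ0 : 0 ≤ ζ) (c0 : 0 ≤ c1)
    (s1 : ZZ P.β * (δ * C ^ 2 / t + t * C ^ 3 + P.N / P.M * C ^ 2) ≤ e1 / 2)
    (d1 : C * P.u ≤ 1) (d2 : 4 * C ^ 2 * (P.β ^ 2 + 1) * P.u ≤ 1 / 4)
    (d3 : ZZ P.β * (C ^ 4 / t + C ^ 2 / t + C) * P.u ≤ e1 / 4)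
    (d4 : ZZ P.β * (G / (P.q / P.M) + C / ρ + 1) ≤ e1 / 4 * (P.n * P.u ^ 6))
    (d5 : 20 * (2 * P.M) * G / (P.q / P.M) ^ 2 ≤ 1 * (P.n * P.u ^ 6)) (d6 : ζ * P.u ≤ 1 / 2)
    (d7 : (ζ + (P.S + 3 * P.τ)) * (6 * ((P.N + 1) * (P.β * C) ^ 2) +
      3 * ((P.S + 3 * P.τ) * (P.β * C)) + 3 * (c1 * (P.β * C) ^ 3)) * P.u ≤ e1)
    (d8 : P.β * (KV ^ 2 * (60 * P.β ^ 2) * (C + 1)) * P.u ≤ e1)
    (d9 : KV ^ 2 * (60 * P.β ^ 2) * (C + 1) * P.u ≤ 1 / (8 * P.β ^ 2)) :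
    Nm P k (ρ * P.u ^ 3) (G / (P.n * P.u ^ 2)) (ζ * P.u ^ 2) C δ t e1 c1 := by
  have hu := A.u0
  have hn := A.nR
  have hβ := A.β0
  have hN := A.N0
  have hS := A.S0
  have hτ := A.τ0
  have hC : 1 ≤ C := by linarith
  have hp : 0 < P.q / P.M := div_pos A.q0 A.MR
  have hZ := ZZ_pos hβ
  have h3 := A.u3 k2
  have hφ : KV ^ 2 * (60 * P.β ^ 2) * (C * P.u + 2 * k * P.u ^ 3) ≤
      KV ^ 2 * (60 * P.β ^ 2) * (C + 1) * P.u := by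
    rw [mul_assoc _ (C + 1)]
    exact mul_le_mul_of_nonneg_left (by linarith) (by positivity)
  refine ⟨k0, k2, by positivity, NC, d1, ?_, δ0, δC, t0, t1, e0.le, ?_, ?_, A.usq ζ0 d6, ?_, ?_,
    hφ.trans d9⟩
  · refine le_trans ?_ (A.usq (by positivity) d2)
    have : 4 * (C * P.u) ^ 2 * (P.β ^ 2 + 2 * k * P.u ^ 3) ≤
        4 * (C * P.u) ^ 2 * (P.β ^ 2 + 1) :=
      mul_le_mul_of_nonneg_left (by linarith [A.u1]) (by positivity)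
    exact this.trans_eq (by ring)
  · refine (mul_le_mul_of_nonneg_left (eT_num hn hu A.u1 (by linarith) k2 hp ρ0 t0)
      hZ.le).trans ?_
    rw [← mul_assoc]
    refine mul_le_mul_of_nonneg_right ?_ (by positivity)
    rw [← div_le_iff₀ (by positivity), mul_div_assoc] at d4
    rw [mul_add, mul_add, ← mul_assoc]
    linarith
  · have e : 20 * (2 * P.M) * (G / (P.n * P.u ^ 2)) / (P.q / P.M * P.u) ^ 2 =
        20 * (2 * P.M) * G / (P.q / P.M) ^ 2 / (P.n * P.u ^ 6) * P.u ^ 2 := by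
      field_simp
    rw [e, mul_pow]
    refine mul_le_mul_of_nonneg_right ?_ (by positivity)
    rw [← div_le_iff₀ (by positivity)] at d5
    exact d5.trans (one_le_pow₀ hC)
  · refine le_trans (le_of_eq ?_) (A.usq (by positivity) d7)
    ring
  · exact (mul_le_mul_of_nonneg_left hφ hβ.le).trans (by rwa [← mul_assoc])

end Ad

end Pa

end Vale.Agent.N146.Sharp
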