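import Vale.Agent.P146.H479.Start
import Vale.Agent.P146.H566.FinF

/-!
# P146, the sharp constant: from one step to all scales
-/

open MeasureTheory ProbabilityTheory Filter Topology

namespace Vale.Agent.N146.Sharp

open Vale.Agent.P146 Vale.Agent.P146.U Vale.Agent.P146.U.AP
open Vale.Agent.P146.H196 (meanF)

/-- **The one step law**: the increment of the pure law between the exponents `u` and `(1 + κ) u`
is the same multiple of `n u ^ 5` for all scales `u`. -/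
def Step (β : ℝ) : Prop :=
  ∀ ε : ℝ, 0 < ε → ∃ κ : ℝ, 0 < κ ∧ κ ≤ 1 ∧ ∃ K : ℝ, ∀ᶠ n : ℕ in atTop, ∃ Q : ℝ, ∀ u : ℝ,
    K * (n : ℝ) ^ (-(1 / 6) : ℝ) ≤ u → u ≤ (n : ℝ) ^ (-(23 / 200) : ℝ) →
      |P1 n β ((1 + κ) * u) - P1 n β u - κ * Q * (n * u ^ 5)| ≤ ε * κ * (n * u ^ 5)

/-- the sharp law above the scale `n ^ (-23/200)` -/
def Top (β Λ : ℝ) : Prop :=
  ∀ ε : ℝ, 0 < ε → ∃ δ : ℝ, 0 < δ ∧ ∀ᶠ n : ℕ in atTop, ∀ x : ℝ,
    (n : ℝ) ^ (-(23 / 200) : ℝ) ≤ x → x ≤ δ → |Kn n β x - Λ * (n * x ^ 6)| ≤ ε * (n * x ^ 6)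

/-- the sharp law down to the typical scale -/
def All (β Λ : ℝ) : Prop :=
  ∀ ε : ℝ, 0 < ε → ∃ K δ : ℝ, 0 < δ ∧ ∀ᶠ n : ℕ in atTop, ∀ x : ℝ,
    K * (n : ℝ) ^ (-(1 / 6) : ℝ) ≤ x → x ≤ δ → |Kn n β x - Λ * (n * x ^ 6)| ≤ ε * (n * x ^ 6)

lemma ev_mean (D : ℝ) {ε : ℝ} (hε : 0 < ε) : ∀ᶠ n : ℕ in atTop,
    |D| * (n : ℝ) ^ (7 / 17 : ℝ) * (1 + Real.log n) ^ 2 ≤ ε / 2 * (n : ℝ) ^ (17 / 40 : ℝ) := by
  have h5 : Tendsto (fun r : ℝ => |D| * ((1 + Real.log r) / r ^ (9 / 1360 : ℝ)) ^ 2) atTop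
      (𝓝 (|D| * (0 + 0) ^ 2)) := by
    refine Tendsto.const_mul _ (Tendsto.pow ?_ 2)
    have e1 := tendsto_rpow_neg_atTop (show (0 : ℝ) < 9 / 1360 by norm_num)
    have e2 :=
      (isLittleO_log_rpow_atTop (show (0 : ℝ) < 9 / 1360 by norm_num)).tendsto_div_nhds_zero
    have e3 := e1.add e2
    refine e3.congr' ?_
    filter_upwards [eventually_gt_atTop 0] with r hr
    rw [Real.rpow_neg hr.le]
    field_simp
  have h6 := (h5.comp tendsto_natCast_atTop_atTop).eventually_le_const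
    (show |D| * (0 + 0) ^ 2 < ε / 2 by norm_num; positivity)
  filter_upwards [h6, eventually_ge_atTop 1] with n hn hn1
  have hn0 : (0 : ℝ) < n := by exact_mod_cast hn1
  simp only [Function.comp] at hn
  have e : |D| * (n : ℝ) ^ (7 / 17 : ℝ) * (1 + Real.log n) ^ 2 =
      |D| * ((1 + Real.log n) / (n : ℝ) ^ (9 / 1360 : ℝ)) ^ 2 * (n : ℝ) ^ (17 / 40 : ℝ) := by
    have e4 : (n : ℝ) ^ (17 / 40 : ℝ) = (n : ℝ) ^ (7 / 17 : ℝ) *
        ((n : ℝ) ^ (9 / 1360 : ℝ)) ^ 2 := by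
      rw [← Real.rpow_natCast, ← Real.rpow_mul hn0.le, ← Real.rpow_add hn0]
      norm_num
    rw [e4]
    have : 0 < (n : ℝ) ^ (9 / 1360 : ℝ) := Real.rpow_pos_of_pos hn0 _
    field_simp
  rw [e]
  exact mul_le_mul_of_nonneg_right hn (Real.rpow_pos_of_pos hn0 _).le

/-- the constant of the large deviation regime -/
theorem top : ∃ Λ : ℝ → ℝ, Tendsto Λ (𝓝[>] 1) (𝓝 (9 / 5120)) ∧
    ∀ β : ℝ, 1 < β → 0 < Λ β ∧ Top β (Λ β) := by
  obtain ⟨Λ, hl, h⟩ := H499.T29.bounds17 fun β _ => H260.D17.dblc17 β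
  refine ⟨Λ, hl, fun β hβ => ?_⟩
  obtain ⟨hΛ, p, D, -, h2, h3⟩ := h β hβ
  refine ⟨hΛ, fun ε hε => ?_⟩
  obtain ⟨δ, hδ, h4⟩ := h2 (ε / 2) (by positivity) (23 / 200) (by norm_num)
  refine ⟨δ, hδ, ?_⟩
  filter_upwards [h4, ev_mean D hε, eventually_ge_atTop 1] with n hn hn2 hn1 x hx hx1
  have hn0 : (0 : ℝ) < n := by exact_mod_cast hn1
  have hx0 : 0 < x := (Real.rpow_pos_of_pos hn0 _).trans_le hx
  obtain ⟨g1, g2, -⟩ := h3 n hn1
  have k1 := hn.1 x hx hx1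
  rw [H479.Kn_p] at k1
  have hm : ∫ g, freeEnergy n β g ∂(disorder n) = meanF n β := rfl
  rw [hm] at g1 g2
  have g3 : n * p - meanF n β ≤ ε / 2 * (n : ℝ) ^ (17 / 40 : ℝ) := by
    refine g2.trans (le_trans ?_ hn2)
    have := le_abs_self D
    have : 0 ≤ (n : ℝ) ^ (7 / 17 : ℝ) := Real.rpow_nonneg hn0.le _
    gcongr
  have g4 : (n : ℝ) ^ (17 / 40 : ℝ) ≤ n * x ^ 5 := by
    have e1 : (n : ℝ) ^ (17 / 40 : ℝ) = n * ((n : ℝ) ^ (-(23 / 200) : ℝ)) ^ 5 := by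
      rw [← Real.rpow_natCast, ← Real.rpow_mul hn0.le]
      nth_rewrite 2 [← Real.rpow_one (n : ℝ)]
      rw [← Real.rpow_add hn0]
      norm_num
    rw [e1]
    have : 0 ≤ (n : ℝ) ^ (-(23 / 200) : ℝ) := Real.rpow_nonneg hn0.le _
    gcongr
  have g5 : x * (n * p - meanF n β) ≤ ε / 2 * (n * x ^ 6) := by
    calc x * (n * p - meanF n β) ≤ x * (ε / 2 * (n * x ^ 5)) := by
          refine mul_le_mul_of_nonneg_left (g3.trans ?_) hx0.le
          gcongr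
      _ = _ := by ring
  have g6 : 0 ≤ x * (n * p - meanF n β) := mul_nonneg hx0.le g1
  have k2 := abs_le.1 k1
  refine abs_le.2 ⟨?_, ?_⟩
  · have : 0 ≤ ε / 2 * (n * x ^ 6) := by positivity
    nlinarith [k2.1]
  · nlinarith [k2.2]

/-- the sum over the geometric grid -/
lemma grid {g : ℝ → ℝ} {a X κ B E : ℝ} (ha : 0 < a) (hκ : 0 < κ) (hE : 0 ≤ E)
    (h0 : ∀ x, a ≤ x → x ≤ X → x ≤ (1 + κ) * a → |g x| ≤ B)
    (h1 : ∀ u, a ≤ u → u ≤ X → |g ((1 + κ) * u) - g u| ≤ E * (((1 + κ) * u) ^ 5 - u ^ 5))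
    {x : ℝ} (hx : a ≤ x) (hX : x ≤ X) : |g x| ≤ B + E * x ^ 5 := by
  have k1 : 1 < 1 + κ := by linarith
  obtain ⟨j, hj⟩ := pow_unbounded_of_one_lt (x / a) k1
  rw [div_lt_iff₀ ha] at hj
  induction j generalizing x with
  | zero =>
    rw [pow_zero, one_mul] at hj
    linarith
  | succ j ih =>
    have x0 : 0 < x := ha.trans_le hx
    by_cases h : x ≤ (1 + κ) * a
    · have := h0 x hx hX h
      have : 0 ≤ E * x ^ 5 := by positivity
      linarith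
    · push Not at h
      have e : (1 + κ) * (x / (1 + κ)) = x := by field_simp
      have u1 : a ≤ x / (1 + κ) := by
        rw [le_div_iff₀ (by linarith)]
        linarith
      have u2 : x / (1 + κ) ≤ X := (div_le_self x0.le k1.le).trans hX
      have u3 : x / (1 + κ) < (1 + κ) ^ j * a := by
        rw [div_lt_iff₀ (by linarith)]
        calc x < (1 + κ) ^ (j + 1) * a := hj
          _ = _ := by ring
      have b1 := ih u1 u2 u3
      have b2 := h1 _ u1 u2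
      rw [e] at b2
      have b3 := abs_sub_abs_le_abs_sub (g x) (g (x / (1 + κ)))
      linarith

lemma P1_Kn {n : ℕ} {β x : ℝ} (hx : 0 < x) : P1 n β x = meanF n β + Kn n β x / x := W_one_Kn hx

lemma div_form {Kx Λ η N x : ℝ} (hx : 0 < x) :
    |Kx - Λ * (N * x ^ 6)| ≤ η * (N * x ^ 6) ↔ |Kx / x - Λ * (N * x ^ 5)| ≤ η * (N * x ^ 5) := by
  have e : Kx / x - Λ * (N * x ^ 5) = (Kx - Λ * (N * x ^ 6)) / x := by field_simp
  rw [e, abs_div, abs_of_pos hx, div_le_iff₀ hx,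
    show η * (N * x ^ 5) * x = η * (N * x ^ 6) by ring]

lemma q_num {A B m κ Q Λ η N k : ℝ} (hN : 0 < N) (hη : 0 ≤ η) (hk : k ≤ 32)
    (b1 : |m + A - (m + B) - κ * Q * N| ≤ η * N) (c2 : |B - Λ * N| ≤ η * N)
    (c3 : |A - Λ * (k * N)| ≤ η * (k * N)) : |κ * Q - Λ * (k - 1)| ≤ 34 * η := by
  have c4 : η * (k * N) ≤ η * (32 * N) := by gcongr
  refine le_of_mul_le_mul_right ?_ hN
  rw [← abs_of_pos hN, ← abs_mul, abs_of_pos hN, abs_le]
  rw [abs_le] at b1 c2 c3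
  constructor <;> linarith [b1.1, b1.2, c2.1, c2.2, c3.1, c3.2]

lemma step_num {A B m κ Q Λ e N k : ℝ} (hN : 0 < N) (he : 0 ≤ e) (hk : 1 + 5 * κ ≤ k)
    (b1 : |m + A - (m + B) - κ * Q * N| ≤ e * κ * N) (hQ : |κ * Q - Λ * (k - 1)| ≤ 34 * (e * κ)) :
    |A - Λ * (k * N) - (B - Λ * N)| ≤ 7 * e * (k * N - N) := by
  have b2 := mul_le_mul_of_nonneg_right hQ hN.le
  rw [← abs_of_pos hN, ← abs_mul, abs_of_pos hN] at b2
  have b3 : 7 * e * (5 * κ) * N ≤ 7 * e * (k - 1) * N := by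
    gcongr
    linarith
  rw [abs_le] at b1 b2 ⊢
  constructor <;> linarith [b1.1, b1.2, b2.1, b2.2]

lemma base_num {A D Λ N N' : ℝ} (hD : 0 ≤ D) (hΛ : 0 ≤ Λ) (h0 : 0 ≤ N) (h : N ≤ N') (c2 : 0 ≤ A)
    (c3 : A ≤ D * N) : |A - Λ * N| ≤ (D + Λ) * N' := by
  have c6 := mul_le_mul_of_nonneg_left h hD
  have c7 := mul_le_mul_of_nonneg_left h hΛ
  have c8 := mul_nonneg hD h0
  have c9 := mul_nonneg hΛ h0
  rw [abs_le]
  constructor <;> linarith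

lemma Kn_le {n : ℕ} {β y B : ℝ} (hB : 0 ≤ B)
    (c : ∫ g, Real.exp (y * (freeEnergy n β g - meanF n β)) ∂(disorder n) ≤ Real.exp B) :
    Kn n β y ≤ B := by
  unfold Kn
  rcases le_or_gt (∫ g, Real.exp (y * (freeEnergy n β g - meanF n β)) ∂(disorder n)) 0 with h | h
  · have h' : ∫ g, Real.exp (y * (freeEnergy n β g - meanF n β)) ∂(disorder n) = 0 :=
      le_antisymm h (integral_nonneg fun g => (Real.exp_pos _).le)
    rw [h', Real.log_zero]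
    exact hB
  · exact (Real.log_le_iff_le_exp h).2 c

/-- one size -/
lemma one_size {n : ℕ} {β Λ D e κ Q a X x M : ℝ} (hn : 0 < n) (hΛ : 0 < Λ) (hD : 0 < D)
    (he : 0 < e) (hκ : 0 < κ) (hκ1 : κ ≤ 1) (a0 : 0 < a) (M1 : 1 ≤ M) (M2 : D + Λ ≤ e * M ^ 5)
    (hU : ∀ y, a ≤ y → y ≤ X → Kn n β y ≤ D * (n * y ^ 6))
    (hS : ∀ u, a ≤ u → u ≤ X →
      |P1 n β ((1 + κ) * u) - P1 n β u - κ * Q * (n * u ^ 5)| ≤ e * κ * (n * u ^ 5))
    (hT : ∀ y, X ≤ y → y ≤ 2 * X → |Kn n β y - Λ * (n * y ^ 6)| ≤ e * κ * (n * y ^ 6))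
    (ax : 2 * a * M ≤ x) (hXx : x ≤ X) :
    |Kn n β x - Λ * (n * x ^ 6)| ≤ 8 * e * (n * x ^ 6) := by
  have hn0 : (0 : ℝ) < n := by exact_mod_cast hn
  have ax1 : a ≤ x := by nlinarith
  have x0 : 0 < x := a0.trans_le ax1
  have X0 : 0 < X := x0.trans_le hXx
  have k5 : 1 + 5 * κ ≤ (1 + κ) ^ 5 := by
    have := one_add_mul_le_pow (show (-2 : ℝ) ≤ κ by linarith) 5
    push_cast at this
    linarith
  have k6 : (1 + κ) ^ 5 ≤ 32 := by
    have := pow_le_pow_left₀ (show 0 ≤ 1 + κ by linarith) (show 1 + κ ≤ 2 by linarith) 5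
    linarith
  have e5 : ∀ u : ℝ, (n : ℝ) * ((1 + κ) * u) ^ 5 = (1 + κ) ^ 5 * (n * u ^ 5) := fun u => by ring
  have hQ : |κ * Q - Λ * ((1 + κ) ^ 5 - 1)| ≤ 34 * (e * κ) := by
    have z0 : 0 < (1 + κ) * X := by positivity
    have b1 := hS X (ax1.trans hXx) le_rfl
    have b2 := (div_form X0).1 (hT X le_rfl (by linarith))
    have b3 := (div_form z0).1 (hT ((1 + κ) * X) (by nlinarith) (by nlinarith))
    rw [P1_Kn X0, P1_Kn z0] at b1
    rw [e5] at b3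
    exact q_num (by positivity) (by positivity) k6 b1 b2 b3
  have key := grid (g := fun y => Kn n β y / y - Λ * (n * y ^ 5)) (X := X)
    (B := (D + Λ) * (n * (2 * a) ^ 5)) (E := 7 * e * n) a0 hκ (by positivity)
    (fun y h1 h2 h3 => ?_) (fun u h1 h2 => ?_) ax1 hXx
  · rw [div_form x0]
    refine key.trans ?_
    have c1 : (2 * a * M) ^ 5 ≤ x ^ 5 := pow_le_pow_left₀ (by positivity) ax 5
    have c2 : (D + Λ) * (n * (2 * a) ^ 5) ≤ e * M ^ 5 * (n * (2 * a) ^ 5) :=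
      mul_le_mul_of_nonneg_right M2 (by positivity)
    have c3 : e * n * (2 * a * M) ^ 5 ≤ e * n * x ^ 5 :=
      mul_le_mul_of_nonneg_left c1 (by positivity)
    have c4 : e * M ^ 5 * (n * (2 * a) ^ 5) = e * n * (2 * a * M) ^ 5 := by ring
    linarith
  · have y0 : 0 < y := a0.trans_le h1
    refine base_num hD.le hΛ.le (by positivity)
      (mul_le_mul_of_nonneg_left (pow_le_pow_left₀ y0.le (by nlinarith) 5) hn0.le)
      (div_nonneg (Kn_nonneg y0) y0.le) ?_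
    rw [div_le_iff₀ y0]
    exact (hU y h1 h2).trans (le_of_eq (by ring))
  · have u0 : 0 < u := a0.trans_le h1
    have z0 : 0 < (1 + κ) * u := by positivity
    have b1 := hS u h1 h2
    rw [P1_Kn u0, P1_Kn z0] at b1
    have b2 := step_num (by positivity) he.le k5 b1 hQ
    rw [← e5] at b2
    exact b2.trans (le_of_eq (by ring))

/-- **From one step to all scales.** -/
theorem all_of {β Λ : ℝ} (hβ : 1 < β) (hΛ : 0 < Λ) (hT : Top β Λ) (hS : Step β) : All β Λ := by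
  intro ε hε
  obtain ⟨D, hD, hU⟩ := H566.mgU hβ
  obtain ⟨κ, hκ, hκ1, K0, hS⟩ := hS (ε / 8) (by positivity)
  obtain ⟨δ, hδ, hT⟩ := hT (min (ε / 8 * κ) ε) (lt_min (by positivity) hε)
  obtain ⟨K, hK⟩ : ∃ K : ℝ, K = max K0 1 := ⟨_, rfl⟩
  have K1 : 1 ≤ K := by rw [hK]; exact le_max_right _ _
  have K2 : K0 ≤ K := by rw [hK]; exact le_max_left _ _
  obtain ⟨M, hM⟩ : ∃ M : ℝ, M = 1 + 8 * (D + Λ) / ε := ⟨_, rfl⟩
  have M1 : 1 ≤ M := by
    rw [hM]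
    have : 0 ≤ 8 * (D + Λ) / ε := by positivity
    linarith
  have M2 : D + Λ ≤ ε / 8 * M ^ 5 := by
    have h1 : M ≤ M ^ 5 := le_self_pow₀ M1 (by norm_num)
    have h2 : ε / 8 * M = ε / 8 + (D + Λ) := by
      rw [hM]
      field_simp
    have h3 := mul_le_mul_of_nonneg_left h1 (show 0 ≤ ε / 8 by positivity)
    linarith
  refine ⟨2 * K * M, δ, hδ, ?_⟩
  have e1 : ∀ᶠ n : ℕ in atTop, (n : ℝ) ^ (-(23 / 200) : ℝ) ≤ δ / 2 :=
    ((tendsto_rpow_neg_atTop (show (0 : ℝ) < 23 / 200 by norm_num)).comp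
      tendsto_natCast_atTop_atTop).eventually_le_const (by positivity)
  filter_upwards [hS, hT, e1, eventually_ge_atTop 1] with n hS hT e1 hn1 x hx hxδ
  have hn1' : (1 : ℝ) ≤ n := by exact_mod_cast hn1
  have hn0 : (0 : ℝ) < n := by linarith
  obtain ⟨Q, hS⟩ := hS
  obtain ⟨-, -, hU⟩ := hU n hn1
  have s0 : 0 < (n : ℝ) ^ (-(1 / 6) : ℝ) := by positivity
  have X1 : (n : ℝ) ^ (-(23 / 200) : ℝ) ≤ 1 :=
    Real.rpow_le_one_of_one_le_of_nonpos hn1' (by norm_num)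
  have a0 : 0 < K * (n : ℝ) ^ (-(1 / 6) : ℝ) := by positivity
  have a1 : (n : ℝ) ^ (-(1 / 6) : ℝ) ≤ K * (n : ℝ) ^ (-(1 / 6) : ℝ) := le_mul_of_one_le_left s0.le K1
  rcases le_total ((n : ℝ) ^ (-(23 / 200) : ℝ)) x with hXx | hXx
  · have x0 : 0 < x := lt_of_lt_of_le (by positivity) hXx
    exact (hT x hXx hxδ).trans (mul_le_mul_of_nonneg_right (min_le_right _ _) (by positivity))
  have k := one_size (x := x) (Q := Q) (X := (n : ℝ) ^ (-(23 / 200) : ℝ)) hn1 hΛ hD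
    (show 0 < ε / 8 by positivity) hκ hκ1 a0 M1 M2
    (fun y h1 h2 => Kn_le (by have := a0.trans_le h1; positivity) (hU y (a1.trans h1) (h2.trans X1)))
    (fun u h1 h2 => hS u ((mul_le_mul_of_nonneg_right K2 s0.le).trans h1) h2)
    (fun y h1 h2 => (hT y h1 (by linarith)).trans (mul_le_mul_of_nonneg_right (min_le_left _ _)
      (by have : 0 < y := lt_of_lt_of_le (by positivity) h1; positivity)))
    (by linarith) hXx
  rwa [show 8 * (ε / 8) = ε by ring] at k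

/-- **The sharp constant, from the one step law.** -/
theorem sharp_of : ∃ Λ : ℝ → ℝ, Tendsto Λ (𝓝[>] 1) (𝓝 (9 / 5120)) ∧
    ∀ β : ℝ, 1 < β → 0 < Λ β ∧ (Step β → All β (Λ β)) := by
  obtain ⟨Λ, h1, h2⟩ := top
  exact ⟨Λ, h1, fun β hβ => ⟨(h2 β hβ).1, all_of hβ (h2 β hβ).1 (h2 β hβ).2⟩⟩

end Vale.Agent.N146.Sharp
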