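import Vale.Agent.N146.Sharp.Defs
import Vale.Agent.N146.Sharp.Box
import Vale.Agent.N146.Sharp.Grid

/-!
# P146, the sharp constant: `Box`, `Grow`, and the one step law from the two increments
-/

open Set Filter Topology

namespace Vale.Agent.N146.Sharp

open Vale.Agent.P146 Vale.Agent.P146.U Vale.Agent.P146.U.AP Vale.Agent.P146.H645x
open Vale.Agent.P146.H758 (Pu Ap)

variable {β : ℝ}

/-- the upper end of the range is far below `n ^ (-21/200)` -/
lemma ev_top {N : ℝ} (hN : 0 < N) : ∃ n0 : ℕ, 1 ≤ n0 ∧ ∀ n : ℕ, n0 ≤ n → ∀ K u : ℝ, Rg K n u →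
    N * u ≤ (n : ℝ) ^ (-(21 / 200) : ℝ) ∧
      (n : ℝ) ^ (-(21 / 200) : ℝ) ≤ (n : ℝ) ^ (-(1 / 10) : ℝ) ∧
      (n : ℝ) ^ (-(1 / 10) : ℝ) ≤ 1 := by
  have hz : Tendsto (fun n : ℕ => (n : ℝ) ^ (-(2 / 200) : ℝ)) atTop (𝓝 0) :=
    (tendsto_rpow_neg_atTop (show (0 : ℝ) < 2 / 200 by norm_num)).comp tendsto_natCast_atTop_atTop
  obtain ⟨n2, hn2⟩ := eventually_atTop.1
    (hz.eventually_le_const (show (0 : ℝ) < 1 / (2 * N) by positivity))
  refine ⟨max n2 1, le_max_right _ _, fun n hn K u hu => ?_⟩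
  have hn1 : (1 : ℝ) ≤ n := by exact_mod_cast (le_max_right _ _).trans hn
  have hn0 : (0 : ℝ) < n := by linarith
  refine ⟨?_, Real.rpow_le_rpow_of_exponent_le hn1 (by norm_num),
    Real.rpow_le_one_of_one_le_of_nonpos hn1 (by norm_num)⟩
  have k1 := hn2 n ((le_max_left _ _).trans hn)
  have e : (n : ℝ) ^ (-(23 / 200) : ℝ) =
      (n : ℝ) ^ (-(2 / 200) : ℝ) * (n : ℝ) ^ (-(21 / 200) : ℝ) := by
    rw [← Real.rpow_add hn0]
    norm_num
  have k2 := hu.2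
  rw [e] at k2
  rw [le_div_iff₀ (by positivity)] at k1
  have p1 : 0 < (n : ℝ) ^ (-(21 / 200) : ℝ) := by positivity
  have k4 := mul_le_mul_of_nonneg_left k2 hN.le
  have k5 := mul_le_mul_of_nonneg_right k1 p1.le
  linarith

lemma Rg.wk {K K' u : ℝ} {n : ℕ} (h : Rg K' n u) (hK : K ≤ K') : Rg K n u :=
  ⟨(mul_le_mul_of_nonneg_right hK (by positivity)).trans h.1, h.2⟩

lemma Rg.pos {K u : ℝ} {n : ℕ} (h : Rg K n u) (hK : 0 < K) (hn : 1 ≤ n) : 0 < u := by
  have hn0 : (0 : ℝ) < n := by exact_mod_cast hn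
  exact lt_of_lt_of_le (by positivity) h.1

/-- half of the scale is above `K n ^ (-1/6)` -/
lemma Rg.half {K K' u : ℝ} {n : ℕ} (h : Rg K' n u) (hK : 2 * K ≤ K') :
    K * (n : ℝ) ^ (-(1 / 6) : ℝ) ≤ u / 2 := by
  have := (h.wk hK).1
  linarith

/-- **BOX** -/
theorem box (hβ : 1 < β) : Box β := by
  intro N hN
  have hβ0 : 0 < β := by linarith
  obtain ⟨B, K1, n1, hB, hK1, h1⟩ := bx_all hβ
  obtain ⟨C2, K2, n2, hC2, hK2, h2⟩ := H310.puC hβ0 (e2o hβ) (lst hβ)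
  obtain ⟨C3, n3, hC3, h3⟩ := H310.inc_of hβ0.le (e2o hβ) (lst hβ)
  obtain ⟨n4, hn4, h4⟩ := ev_top (show 0 < N by linarith)
  refine ⟨B + (C2 + C3) * N ^ 5, 2 * (K1 + K2), max (max n1 n2) (max n3 n4), by positivity,
    fun n hn u hu => ?_⟩
  have hn1 : n1 ≤ n := (le_max_left _ _).trans ((le_max_left _ _).trans hn)
  have hn2 : n2 ≤ n := (le_max_right _ _).trans ((le_max_left _ _).trans hn)
  have hn3 : n3 ≤ n := (le_max_left _ _).trans ((le_max_right _ _).trans hn)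
  have hn4' : n4 ≤ n := (le_max_right _ _).trans ((le_max_right _ _).trans hn)
  have hn0 : (0 : ℝ) < n := by exact_mod_cast hn4.trans hn4'
  have u0 : 0 < u := hu.pos (by positivity) (hn4.trans hn4')
  obtain ⟨a1, a2, -⟩ := h4 n hn4' _ u hu
  have b1 := hu.half (K := K1) (by linarith)
  have b2 := hu.half (K := K2) (by linarith)
  have b3 := hu.half (K := 1) (by linarith)
  rw [one_mul] at b3
  have uN : u ≤ N * u := le_mul_of_one_le_left u0.le hN
  have p5 : 0 < (n : ℝ) * u ^ 5 := by positivity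
  have q1 : 0 ≤ B * (n * u ^ 5) := by positivity
  have q2 : 0 ≤ (C2 + C3) * N ^ 5 * (n * u ^ 5) := by positivity
  have e : ∀ V : ℝ, (n : ℝ) / β / 2 * V = n / (2 * β) * V := fun V => by ring
  constructor
  · intro V hV hV1
    have k := h1 n hn1 (u / 2) b1 (by linarith [hu.2]) (u / 2) V (by linarith) (by linarith) hV
      (by linarith [show 8 * (u / 2) ^ 3 = u ^ 3 by ring])
    have k2 : B * (n * (u / 2) ^ 5) = B * (n * u ^ 5) / 32 := by ring
    rw [e]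
    linarith [(abs_le.1 k).1]
  · intro V hV hV1
    have c1 : u ^ 3 ≤ (N * u) ^ 3 := pow_le_pow_left₀ u0.le uN 3
    have c2 : 0 ≤ (N * u) ^ 3 := by positivity
    have k1 := h2 n hn2 (N * u) V (by linarith) a1 hV (by linarith)
    have k2 := h3 n hn3 (u / 2) (N * u) b3 (by linarith) (a1.trans a2)
    have k3 : (C2 + C3) * N ^ 5 * (n * u ^ 5) =
        C2 * (n * (N * u) ^ 5) + C3 * (n * (N * u) ^ 5) := by ring
    rw [e]
    linarith

/-- **GROW** -/
theorem grow (hβ : 1 < β) : Grow β := by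
  obtain ⟨c, C, K, n1, hc, hC, hK, h1⟩ := growth hβ
  obtain ⟨n4, hn4, h4⟩ := ev_top (show (0 : ℝ) < 4 by norm_num)
  refine ⟨c / 32, 512 * C, 2 * K, max n1 n4, by positivity, by positivity, by positivity,
    fun n hn => ?_⟩
  have hn1 : n1 ≤ n := (le_max_left _ _).trans hn
  have hn4' : n4 ≤ n := (le_max_right _ _).trans hn
  have hn' : 1 ≤ n := hn4.trans hn4'
  have hn0 : (0 : ℝ) < n := by exact_mod_cast hn'
  have hs : 0 < (n : ℝ) ^ (-(1 / 6) : ℝ) := by positivity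
  refine ⟨fun y hy hy1 => ?_, fun u s t hu hs1 hst ht => ?_⟩
  · have y0 : 0 < y := lt_of_lt_of_le (by positivity) hy
    have k := (h1 n hn1 (y / 2) y (by linarith) (by linarith) hy1).1
    have e : c * (y - y / 2) * (n * (y / 2) ^ 4) = c / 32 * (n * y ^ 5) := by ring
    linarith
  · have u0 : 0 < u := hu.pos (by positivity) hn'
    obtain ⟨a1, a2, -⟩ := h4 n hn4' _ u hu
    have b1 := hu.half (K := K) le_rfl
    have s0 : 0 < s := by linarith
    have t0 : 0 < t := by linarith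
    have k1 := P1_le_tan (n := n) (β := β) s0 hst
    have k2 := P1_ge_tan (n := n) (β := β) t0 (show t ≤ 2 * t by linarith)
    have k3 := (h1 n hn1 t (2 * t) (by linarith) (by linarith) (by linarith)).2
    have k4 : Wn n β t / 2 ≤ 32 * C * (n * t ^ 4) := by
      refine le_of_mul_le_mul_left ?_ t0
      have e : C * (n * (2 * t) ^ 5) = t * (32 * C * (n * t ^ 4)) := by ring
      linarith
    have k5 : t ^ 4 ≤ 16 * u ^ 4 := by
      have := pow_le_pow_left₀ t0.le ht 4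
      linarith [show (2 * u) ^ 4 = 16 * u ^ 4 by ring]
    have k6 : 32 * C * (n * t ^ 4) ≤ 512 * C * (n * u ^ 4) := by
      have := mul_le_mul_of_nonneg_left k5 (show 0 ≤ 32 * C * n by positivity)
      linarith
    have k7 := mul_le_mul_of_nonneg_left (k4.trans k6) (show 0 ≤ t - s by linarith)
    linarith

lemma step_up {G1 G2 G0 κ q Λ e C W : ℝ} (hW : 0 < W) (hκ : 0 < κ) (hκe : κ ≤ e) (he : e ≤ 1 / 20)
    (hq : 0 < q) (hqe : q ≤ e * κ) (hC : 0 < C) (hΛ : Λ ≤ 2 * C + e) (hΛ0 : -e ≤ Λ)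
    (h1 : G2 - G0 ≤ κ * (Λ + e) * (W / (1 - κ) ^ 5))
    (h2 : G1 - G2 ≤ C * (2 * q) * W) : G1 - G0 - κ * Λ * W ≤ (22 * C + 3) * e * κ * W := by
  have k1 : 0 < 1 - κ := by linarith
  have k2 : 1 - 5 * κ ≤ (1 - κ) ^ 5 := by
    have := one_add_mul_le_pow (show (-2 : ℝ) ≤ -κ by linarith) 5
    push_cast at this
    linarith [show (1 + -κ) ^ 5 = (1 - κ) ^ 5 by ring]
  have k3 : W / (1 - κ) ^ 5 ≤ (1 + 10 * κ) * W := by
    rw [div_le_iff₀ (by positivity)]
    have : 1 ≤ (1 + 10 * κ) * (1 - κ) ^ 5 := by nlinarith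
    nlinarith
  have k4 := mul_le_mul_of_nonneg_left k3 (show 0 ≤ κ * (Λ + e) by
    exact mul_nonneg hκ.le (by linarith))
  have k5 : (Λ + e) * (10 * κ) ≤ (2 * C + 2 * e) * (10 * e) :=
    mul_le_mul (by linarith) (by linarith) (by positivity) (by linarith)
  have k6 : C * (2 * q) ≤ C * (2 * (e * κ)) := by gcongr
  have k7 : (Λ + e) * (1 + 10 * κ) - Λ ≤ (20 * C + 3) * e := by nlinarith
  have k8 := mul_le_mul_of_nonneg_right k7 (show 0 ≤ κ * W by positivity)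
  have k9 := mul_le_mul_of_nonneg_right k6 hW.le
  nlinarith

lemma step_lo {G1 G2 G0 κ q Λ e C W : ℝ} (hW : 0 < W) (hκ : 0 < κ) (hκe : κ ≤ e) (he : e ≤ 1 / 20)
    (hq : 0 < q) (hqe : q ≤ e * κ) (hC : 0 < C) (hΛ0 : -e ≤ Λ)
    (h1 : κ * (Λ - e) * (W / (1 - q) ^ 5) ≤ G2 - G0)
    (h2 : G2 - G1 ≤ C * (32 * q) * W) : -((32 * C + 5) * e * κ * W) ≤ G1 - G0 - κ * Λ * W := by
  have he0 : 0 < e := hκ.trans_le hκe
  have q1 : q ≤ 1 / 20 := by nlinarith
  have k1 : 0 < 1 - q := by linarith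
  have k2 : 1 - 5 * q ≤ (1 - q) ^ 5 := by
    have := one_add_mul_le_pow (show (-2 : ℝ) ≤ -q by linarith) 5
    push_cast at this
    linarith [show (1 + -q) ^ 5 = (1 - q) ^ 5 by ring]
  have k3 : W / (1 - q) ^ 5 ≤ 2 * W := by
    rw [div_le_iff₀ (by positivity)]
    nlinarith
  have k4 : W ≤ W / (1 - q) ^ 5 := by
    rw [le_div_iff₀ (by positivity)]
    have : (1 - q) ^ 5 ≤ 1 := pow_le_one₀ k1.le (by linarith)
    nlinarith
  have k5 := mul_le_mul_of_nonneg_left k4 (show 0 ≤ κ * (Λ + e) by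
    exact mul_nonneg hκ.le (by linarith))
  have k6 := mul_le_mul_of_nonneg_left k3 (show 0 ≤ κ * (2 * e) by positivity)
  have k7 : C * (32 * q) ≤ C * (32 * (e * κ)) := by gcongr
  have k9 := mul_le_mul_of_nonneg_right k7 hW.le
  have k10 : 0 ≤ e * κ * W := by positivity
  nlinarith

lemma lam_bd {G : ℝ → ℝ} {κ q Λ e C A v : ℝ} (hA : 0 < A) (v0 : 0 < v) (hκ : 0 < κ)
    (hκ1 : κ ≤ 1 / 20) (hq : 0 < q) (q1 : q ≤ κ / 20) (hC : 0 < C)
    (hm : ∀ s t, 0 < s → s ≤ t → G s ≤ G t)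
    (hL : ∀ a b, 1 / 2 ≤ a → a ≤ b → b ≤ 2 → G (b * v) - G (a * v) ≤ C * (b - a) * A)
    (k1 : G ((1 - q) * v) - G ((1 - κ) * v) ≤ κ * (Λ + e) * A)
    (k2 : κ * (Λ - e) * A ≤ G ((1 + κ) * v) - G ((1 - q) * v)) : -e ≤ Λ ∧ Λ ≤ 2 * C + e := by
  constructor
  · have a := hm ((1 - κ) * v) ((1 - q) * v)
      (mul_pos (by linarith) v0) (mul_le_mul_of_nonneg_right (by linarith) v0.le)
    have b : 0 ≤ κ * (Λ + e) * A := by linarith
    have c := nonneg_of_mul_nonneg_left b hA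
    have d := nonneg_of_mul_nonneg_right c hκ
    linarith
  · have a := hL (1 - q) (1 + κ) (by linarith) (by linarith) (by linarith)
    have c : κ * (Λ - e) ≤ C * (1 + κ - (1 - q)) := le_of_mul_le_mul_right (by linarith) hA
    have d : C * (1 + κ - (1 - q)) ≤ C * (2 * κ) := mul_le_mul_of_nonneg_left (by linarith) hC.le
    have f : κ * (Λ - e) ≤ κ * (2 * C) := by linarith
    linarith [le_of_mul_le_mul_left f hκ]

lemma step_one {G : ℝ → ℝ} {κ q Λ e C A v : ℝ} (hA : 0 < A) (v0 : 0 < v) (hκ : 0 < κ)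
    (hκe : κ ≤ e) (e1 : e ≤ 1 / 20) (hq : 0 < q) (hqe : q ≤ e * κ) (hC : 0 < C)
    (hm : ∀ s t, 0 < s → s ≤ t → G s ≤ G t)
    (hL : ∀ a b, 1 / 2 ≤ a → a ≤ b → b ≤ 2 → G (b * v) - G (a * v) ≤ C * (b - a) * A)
    (k1 : G ((1 - q) * v) - G ((1 - κ) * v) ≤ κ * (Λ + e) * A)
    (k2 : κ * (Λ - e) * A ≤ G ((1 + κ) * v) - G ((1 - q) * v))
    (kU : G ((1 - q) * (v / (1 - κ))) - G v ≤ κ * (Λ + e) * (A / (1 - κ) ^ 5))
    (kL : κ * (Λ - e) * (A / (1 - q) ^ 5) ≤ G ((1 + κ) * (v / (1 - q))) - G v) :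
    |G ((1 + κ) * v) - G v - κ * Λ * A| ≤ (32 * C + 5) * e * κ * A := by
  have q1 : q ≤ κ / 20 := by nlinarith
  obtain ⟨hΛ0, hΛ⟩ := lam_bd hA v0 hκ (by linarith) hq q1 hC hm hL k1 k2
  have p1 : 0 < 1 - κ := by linarith
  have p2 : 0 < 1 - q := by linarith
  have U2 : G ((1 + κ) * v) - G ((1 - q) * (v / (1 - κ))) ≤ C * (2 * q) * A := by
    have a1 : (1 + κ - 2 * q) * v ≤ (1 - q) * (v / (1 - κ)) := by
      rw [← mul_div_assoc, le_div_iff₀ p1, mul_right_comm]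
      exact mul_le_mul_of_nonneg_right (by nlinarith) v0.le
    have a2 := hm _ _ (mul_pos (show 0 < 1 + κ - 2 * q by linarith) v0) a1
    have a3 := hL (1 + κ - 2 * q) (1 + κ) (by linarith) (by linarith) (by linarith)
    linarith
  have L2 : G ((1 + κ) * (v / (1 - q))) - G ((1 + κ) * v) ≤ C * (32 * q) * A := by
    have a1 : (1 + κ) * (v / (1 - q)) ≤ (1 + κ + 32 * q) * v := by
      rw [← mul_div_assoc, div_le_iff₀ p2, mul_right_comm]
      exact mul_le_mul_of_nonneg_right (by nlinarith) v0.le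
    have a2 := hm _ _ (mul_pos (show 0 < 1 + κ by linarith) (div_pos v0 p2)) a1
    have a3 := hL (1 + κ) (1 + κ + 32 * q) (by linarith) (by linarith) (by linarith)
    linarith
  have z1 := step_up hA hκ hκe e1 hq hqe hC hΛ hΛ0 kU U2
  have z2 := step_lo hA hκ hκe e1 hq hqe hC hΛ0 kL L2
  have w0 : 0 ≤ e * κ * A := by
    have := hκ.trans_le hκe
    positivity
  have w1 : 0 ≤ C * (e * κ * A) := by positivity
  rw [abs_le]
  constructor <;> linarith

/-- **The one step law from the two increments.** -/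
theorem step_of (hK : KL β) (hG : Grow β) : Step β := by
  intro ε hε
  obtain ⟨c, C, K1, n1, -, hC, hK1, h1⟩ := hG
  obtain ⟨e, he⟩ : ∃ e : ℝ, e = min (1 / 20) (ε / (32 * C + 5)) := ⟨_, rfl⟩
  have e0 : 0 < e := by rw [he]; exact lt_min (by norm_num) (by positivity)
  have e1 : e ≤ 1 / 20 := by rw [he]; exact min_le_left _ _
  have e2 : (32 * C + 5) * e ≤ ε := by
    have : e ≤ ε / (32 * C + 5) := by rw [he]; exact min_le_right _ _
    rwa [le_div_iff₀' (by positivity)] at this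
  obtain ⟨Λ1, hK⟩ := hK
  obtain ⟨κ, q, Λ, K2, n2, hκ, hκe, hq, hqe, -, -, h2⟩ := hK e e0
  refine ⟨κ, hκ, by linarith, max K1 K2, ?_⟩
  filter_upwards [eventually_ge_atTop n1, eventually_ge_atTop n2, eventually_ge_atTop 1]
    with n hn1 hn2 hn
  refine ⟨Λ, fun v hv hv1 => ?_⟩
  have hn0 : (0 : ℝ) < n := by exact_mod_cast hn
  have hX : 0 < (n : ℝ) ^ (-(23 / 200) : ℝ) := by positivity
  have q1 : q ≤ κ / 20 := by nlinarith
  have v0 : 0 < v :=
    lt_of_lt_of_le (mul_pos (hK1.trans_le (le_max_left _ _)) (by positivity)) hv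
  have rg : ∀ s : ℝ, 0 ≤ s → s ≤ 1 / 2 → Rg (max K1 K2) n (v / (1 - s)) := fun s hs hs1 => by
    have a : v ≤ v / (1 - s) := by
      rw [le_div_iff₀ (by linarith)]
      exact mul_le_of_le_one_right v0.le (by linarith)
    refine ⟨hv.trans a, ?_⟩
    rw [div_le_iff₀ (by linarith)]
    have := mul_le_mul_of_nonneg_left hs1 hX.le
    linarith
  have r0 := rg 0 le_rfl (by norm_num)
  rw [sub_zero, div_one] at r0
  have k0 := h2 n hn2 v (r0.wk (le_max_right _ _))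
  have p1 : 0 < 1 - κ := by linarith
  have p2 : 0 < 1 - q := by linarith
  have kU := (h2 n hn2 _ ((rg κ hκ.le (by linarith)).wk (le_max_right _ _))).1
  have kL := (h2 n hn2 _ ((rg q hq.le (by linarith)).wk (le_max_right _ _))).2
  rw [show (1 - κ) * (v / (1 - κ)) = v by field_simp,
    show (n : ℝ) * (v / (1 - κ)) ^ 5 = n * v ^ 5 / (1 - κ) ^ 5 by field_simp] at kU
  rw [show (1 - q) * (v / (1 - q)) = v by field_simp,
    show (n : ℝ) * (v / (1 - q)) ^ 5 = n * v ^ 5 / (1 - q) ^ 5 by field_simp] at kL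
  have k := step_one (G := P1 n β) (by positivity) v0 hκ hκe e1 hq hqe hC
    (fun s t hs hst => P1_mono hs hst) (fun a b ha hab hb => ?_) k0.1 k0.2 kU kL
  · refine k.trans ?_
    have w0 : 0 ≤ κ * (n * v ^ 5) := by positivity
    have w2 := mul_le_mul_of_nonneg_right e2 w0
    linarith
  · have a1 := mul_le_mul_of_nonneg_right ha v0.le
    have a := (h1 n hn1).2 v (a * v) (b * v) (r0.wk (le_max_left _ _)) (by linarith)
      (mul_le_mul_of_nonneg_right hab v0.le) (mul_le_mul_of_nonneg_right hb v0.le)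
    exact a.trans (le_of_eq (by ring))

/-- **The sharp constant from the two increments.** -/
theorem all_of_kl (h : ∀ β : ℝ, 1 < β → KL β) : ∃ Λ : ℝ → ℝ, Tendsto Λ (𝓝[>] 1) (𝓝 (9 / 5120)) ∧
    ∀ β : ℝ, 1 < β → 0 < Λ β ∧ All β (Λ β) := by
  obtain ⟨Λ, h1, h2⟩ := sharp_of
  exact ⟨Λ, h1, fun β hβ => ⟨(h2 β hβ).1, (h2 β hβ).2 (step_of (h β hβ) (grow hβ))⟩⟩

end Vale.Agent.N146.Sharp
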