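import Vale.Agent.N146.Sharp.Law
import Vale.Agent.N146.CutE
import Vale.Agent.P146.H607.LSideA

/-!
# P146 (c): the cubic coefficient of the row is universal (helper96)

`idc_of : KapU β → IdC β`, from the identification `Cut.id1` of the third chaos of a row with the
fourth derivative of the cascade and the universality `KapU` of this derivative.
-/

namespace Vale.Agent.N146.Sharp

open Finset
open Vale.Agent.P157 Vale.Agent.P157.Lv Vale.Agent.P157.Lv.Sy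
open Vale.Agent.P157.Par (Path)
open Vale.Agent.P146.H93 (skS Em linS_sk)
open Vale.Agent.P146.H479 (Na)
open Vale.Agent.P146.H758 (tv)
open Vale.Agent.P146.H877x (Hz SB)
open Vale.Agent.P146.H379.Row (bt2 NL)
open Vale.Agent.P146.H508 (Hy sw bt2_nonneg)
open Vale.Agent.P146.H325 (sp)
open Vale.Agent.N146.Cut (kap e1 e2 eD id1 abs_kap_le)

/-- the fourth derivative of the cascade is universal along the SK systems (75) -/
def KapU (β : ℝ) : Prop :=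
  ∃ κ : ℝ, ∀ ε : ℝ, 0 < ε → ∃ δ : ℝ, 0 < δ ∧ ∀ (n K Q : ℕ) (m b w q : ℕ → ℝ),
    0 < n → 1 ≤ Q → Q ≤ K → Em K m → Na K b → Na K w → tv K b = β ^ 2 / n →
    (∀ j, Q < j → b j = 0) → m Q ≤ δ → tv K w ≤ δ → 1 ≤ δ * n → Path K q → q 0 = 0 → q K ≤ 1 →
    ∑ l ∈ range (K + 1), (m (l + 1) - m l) *
      (skS n K m b w).pairEx l (fun x y => (Rov sp x y - q l) ^ 2) ≤ δ →
    |kap K m (fun l => β ^ 2 * q l) - κ| ≤ ε

namespace IC

variable {n Q J : ℕ} {m b w : ℕ → ℝ}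

lemma m_nn {K : ℕ} (hm : Em K m) {j : ℕ} (hj : j ≤ K + 1) : 0 ≤ m j := by
  induction j with
  | zero => exact hm.m0.ge
  | succ j ih => exact (ih (by omega)).trans (hm.mono j (by omega))

/-- the deep weights -/
lemma wt_le (h : Dp Q J m b) (hJ : 1 ≤ J) {j : ℕ} (h1 : Q ≤ j) (h2 : j ≤ Q + J) :
    m (j + 1) - m j ≤ 1 / (J + 1) := by
  obtain ⟨i, rfl⟩ := Nat.exists_eq_add_of_le h1
  have hJ0 : (0 : ℝ) < J + 1 := by positivity
  have a : m (Q + i + 1) = ((i : ℝ) + 1) / (J + 1) := by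
    rcases eq_or_lt_of_le (show i ≤ J by omega) with e | e
    · rw [e, h.em.mK, div_self hJ0.ne']
    · rw [add_assoc, h.md (i + 1) (by omega) (by omega)]
      push_cast
      rfl
  rcases Nat.eq_zero_or_pos i with e | e
  · have h0 := m_nn h.em (j := Q + i) (by omega)
    rw [a, e]
    rw [e] at h0
    simp only [Nat.cast_zero, zero_add]
    linarith
  · rw [a, h.md i e (by omega), ← sub_div]
    exact le_of_eq (by ring)

/-- sums over the levels -/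
lemma sum_le (h : Dp Q J m b) (hJ : 1 ≤ J) {l : ℕ} (hl : l ≤ Q) {f g : ℕ → ℝ} {c a : ℝ}
    (hc : 0 ≤ c) (ha : 0 ≤ a) (h1 : ∀ j, j < Q → f j ≤ c)
    (h2 : ∀ j, Q ≤ j → j ≤ Q + J → f j ≤ a + g j) (h3 : ∀ j, Q ≤ j → j ≤ Q + J → 0 ≤ g j) :
    ∑ j ∈ Ico l (Q + J + 1), (m (j + 1) - m j) * f j ≤
      c * m Q + a + 1 / (J + 1) * ∑ j ∈ Icc Q (Q + J), g j := by
  have hm := h.em
  rw [← sum_Ico_consecutive _ hl (show Q ≤ Q + J + 1 by omega)]
  have a1 : ∑ j ∈ Ico l Q, (m (j + 1) - m j) * f j ≤ c * m Q := by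
    calc _ ≤ ∑ j ∈ Ico l Q, (m (j + 1) - m j) * c := sum_le_sum fun j hj => by
          have hj' := (mem_Ico.1 hj).2
          exact mul_le_mul_of_nonneg_left (h1 j hj') (sub_nonneg.2 (hm.mono j (by omega)))
      _ = (m Q - m l) * c := by rw [← sum_mul, sum_Ico_sub _ hl]
      _ ≤ c * m Q := by nlinarith [m_nn hm (j := l) (by omega)]
  have a2 : ∑ j ∈ Ico Q (Q + J + 1), (m (j + 1) - m j) * f j ≤
      a + 1 / (J + 1) * ∑ j ∈ Icc Q (Q + J), g j := by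
    calc _ ≤ ∑ j ∈ Ico Q (Q + J + 1), ((m (j + 1) - m j) * a + 1 / (J + 1) * g j) :=
          sum_le_sum fun j hj => by
            obtain ⟨j1, j2⟩ := mem_Ico.1 hj
            have p0 : 0 ≤ m (j + 1) - m j := sub_nonneg.2 (hm.mono j (by omega))
            have p1 := wt_le h hJ j1 (by omega)
            have p2 := mul_le_mul_of_nonneg_left (h2 j j1 (by omega)) p0
            have p3 := mul_le_mul_of_nonneg_right p1 (h3 j j1 (by omega))
            linarith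
      _ = (m (Q + J + 1) - m Q) * a + 1 / (J + 1) * ∑ j ∈ Icc Q (Q + J), g j := by
          rw [sum_add_distrib, ← sum_mul, sum_Ico_sub _ (show Q ≤ Q + J + 1 by omega),
            ← mul_sum, ← Finset.Ico_add_one_right_eq_Icc]
      _ ≤ _ := by
          rw [hm.mK]
          nlinarith [m_nn hm (j := Q) (by omega)]
  linarith

/-- the path of the overlaps -/
noncomputable def qq (n K Q : ℕ) (m b w : ℕ → ℝ) (j : ℕ) : ℝ :=
  if Q ≤ j then (skS n K m b w).Rl sp j else 0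

lemma qq_path {K : ℕ} (hm : Em K m) (hn : 0 < n) (hK : 0 < K) (hQ : 1 ≤ Q) :
    Path K (qq n K Q m b w) ∧ qq n K Q m b w 0 = 0 ∧ qq n K Q m b w K ≤ 1 := by
  have F := Vale.Agent.P146.H295.fldP_sk hn hK hm b w (P := fun _ => False) (fun _ h => h.elim)
  have h0 : qq n K Q m b w 0 = 0 := if_neg (by omega)
  refine ⟨⟨h0.ge, fun l hl => ?_⟩, h0, ?_⟩
  · unfold qq
    split_ifs with h1 h2 h2
    · exact Vale.Agent.P146.H607.Rl_mono F (Nat.le_succ l) (show l + 1 ≤ K by omega)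
    · omega
    · exact F.Rl_nonneg (show l + 1 ≤ K by omega)
    · exact le_rfl
  · unfold qq
    split_ifs
    · exact F.Rl_le_one (show K ≤ K from le_rfl)
    · exact zero_le_one

lemma abs_ov (hn : 0 < n) (x y : Fin n → ℤˣ) : |Rov sp x y| ≤ 1 := by
  have hm : Em 1 fun l => (l : ℝ) / 2 :=
    ⟨by simp, by norm_num, fun l _ => by push_cast; linarith, by norm_num⟩
  exact (Vale.Agent.P146.H295.fldP_sk hn one_pos hm (fun _ => 0) (fun _ => 0)
    (P := fun _ => False) (fun _ h => h.elim)).abs_Rov_le x y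

lemma Vr_nn {K : ℕ} (hm : Em K m) {j : ℕ} (hj : j ≤ K) : 0 ≤ Vr n K m b w j :=
  (linS_sk hm b w).reg.pairEx_nonneg hj fun _ _ => sq_nonneg _

/-- the deviation from the path -/
lemma dev_le (h : Dp Q J m b) (hJ : 1 ≤ J) (hn : 0 < n)
    (hV : ∑ j ∈ Icc Q (Q + J), Vr n (Q + J) m b w j ≤ 20) :
    ∑ l ∈ range (Q + J + 1), (m (l + 1) - m l) * (skS n (Q + J) m b w).pairEx l
      (fun x y => (Rov sp x y - qq n (Q + J) Q m b w l) ^ 2) ≤ m Q + 20 / (J + 1) := by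
  have hS := (linS_sk h.em b w (n := n)).reg
  rw [range_eq_Ico]
  refine (sum_le h hJ (Nat.zero_le Q) (c := 1) (a := 0) (g := Vr n (Q + J) m b w) zero_le_one
    le_rfl (fun j hj => ?_) (fun j j1 j2 => ?_) (fun j _ j2 => Vr_nn h.em j2)).trans ?_
  · have hj' : j ≤ (skS n (Q + J) m b w).K := by show j ≤ Q + J; omega
    rw [← hS.pairEx_const hj' 1]
    refine hS.pairEx_mono hj' fun x y => ?_
    unfold qq
    rw [if_neg (by omega), sub_zero, ← sq_abs]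
    exact pow_le_one₀ (abs_nonneg _) (abs_ov hn x y)
  · unfold qq
    rw [if_pos j1, zero_add]
    exact le_rfl
  · have := mul_le_mul_of_nonneg_left hV (show (0 : ℝ) ≤ 1 / (J + 1) by positivity)
    have e : (1 : ℝ) / (J + 1) * 20 = 20 / (J + 1) := by ring
    linarith

lemma sw_tv (w : ℕ → ℝ) (l : ℕ) : sw w l = tv l w := by
  unfold sw tv
  rw [Fin.sum_univ_eq_sum_range (fun q => w (q + 1) ^ 2) l]

lemma bt2_le {K : ℕ} {β : ℝ} (hn : 0 < n) (hb : tv K b = β ^ 2 / n) {j : ℕ} (hj : j ≤ K) :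
    bt2 n b j ≤ β ^ 2 := by
  have hn' : (0 : ℝ) < n := Nat.cast_pos.2 hn
  rw [bt2_tv]
  calc _ ≤ n * tv K b := mul_le_mul_of_nonneg_left (tv_mono hj b) hn'.le
    _ = _ := by rw [hb]; field_simp

lemma bt2_top {K : ℕ} {β : ℝ} (hn : 0 < n) (hb : tv K b = β ^ 2 / n)
    (hd : ∀ j, Q < j → b j = 0) {j : ℕ} (h1 : Q ≤ j) (hj : j ≤ K) : bt2 n b j = β ^ 2 := by
  have hn' : (0 : ℝ) < n := Nat.cast_pos.2 hn
  have h := tv_le hj b
  rw [sum_eq_zero fun k hk => by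
    rw [hd k (by have := (mem_Ico.1 hk).1; omega)]; norm_num, add_zero] at h
  rw [bt2_tv, ← h, hb]
  field_simp

/-- the defect of the identification -/
lemma eD_le {β t : ℝ} (h : Dp Q J m b) (hJ : 1 ≤ J) (hn : 0 < n)
    (hb : tv (Q + J) b = β ^ 2 / n) (hV : ∑ j ∈ Icc Q (Q + J), Vr n (Q + J) m b w j ≤ 20)
    {l : ℕ} (hl : l ≤ Q) (ht : 0 < t) :
    eD n (Q + J) m b w l (fun j => β ^ 2 * qq n (Q + J) Q m b w j) ≤
      β ^ 2 * m Q + β ^ 2 * t + 5 * β ^ 2 / t / (J + 1) + (tv (Q + J) w + β ^ 2 / n) := by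
  have hS := (linS_sk h.em b w (n := n)).reg
  have hβ : 0 ≤ β ^ 2 := sq_nonneg _
  unfold eD
  rw [sw_tv, bt2_top hn hb h.bd (Nat.le_add_right Q J) le_rfl]
  refine add_le_add ?_ le_rfl
  refine (sum_le h hJ hl (c := β ^ 2) (a := β ^ 2 * t)
    (g := fun j => β ^ 2 / (4 * t) * Vr n (Q + J) m b w j) hβ (by positivity)
    (fun j hj => ?_) (fun j j1 j2 => ?_)
    (fun j _ j2 => mul_nonneg (by positivity) (Vr_nn h.em j2))).trans ?_
  · have hj' : j ≤ (skS n (Q + J) m b w).K := by show j ≤ Q + J; omega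
    refine le_trans (hS.pairEx_mono hj' (ψ' := fun _ _ => β ^ 2) fun x y => ?_)
      (hS.pairEx_const hj' _).le
    have e : qq n (Q + J) Q m b w j = 0 := if_neg (by omega)
    show |bt2 n b j * Rov sp x y - β ^ 2 * qq n (Q + J) Q m b w j| ≤ β ^ 2
    rw [e, mul_zero, sub_zero, abs_mul, abs_of_nonneg (bt2_nonneg n b j)]
    calc _ ≤ β ^ 2 * 1 := mul_le_mul (bt2_le hn hb (by omega)) (abs_ov hn x y) (abs_nonneg _) hβ
      _ = _ := mul_one _
  · have hj' : j ≤ (skS n (Q + J) m b w).K := j2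
    unfold Vr
    rw [← hS.pairEx_const hj' (β ^ 2 * t), ← hS.pairEx_const_mul, ← hS.pairEx_add hj']
    refine hS.pairEx_mono hj' fun x y => ?_
    have e0 : qq n (Q + J) Q m b w j = (skS n (Q + J) m b w).Rl sp j := if_pos j1
    show |bt2 n b j * Rov sp x y - β ^ 2 * qq n (Q + J) Q m b w j| ≤ _
    rw [e0, bt2_top hn hb h.bd j1 j2, ← mul_sub, abs_mul, abs_of_nonneg hβ]
    set u := Rov sp x y - (skS n (Q + J) m b w).Rl sp j
    have e : β ^ 2 * t + β ^ 2 / (4 * t) * u ^ 2 = β ^ 2 * (t + u ^ 2 / (4 * t)) := by ring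
    rw [e]
    refine mul_le_mul_of_nonneg_left ?_ hβ
    have e2 : t + u ^ 2 / (4 * t) - |u| = (|u| - 2 * t) ^ 2 / (4 * t) := by
      rw [← sq_abs u]
      field_simp
      ring
    have : 0 ≤ (|u| - 2 * t) ^ 2 / (4 * t) := by positivity
    linarith
  · rw [← mul_sum]
    have a := mul_le_mul_of_nonneg_left hV (show (0 : ℝ) ≤ β ^ 2 / (4 * t) by positivity)
    have a2 := mul_le_mul_of_nonneg_left a (show (0 : ℝ) ≤ 1 / (J + 1) by positivity)
    have e : (1 : ℝ) / (J + 1) * (β ^ 2 / (4 * t) * 20) = 5 * β ^ 2 / t / (J + 1) := by ring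
    linarith

lemma e1_le {B β θ D κ η : ℝ} (hB : 0 ≤ B) (hβ : B ≤ β ^ 2) (hθ : 0 < θ) (hη : θ ≤ η)
    (hD : D ≤ η * θ) (hκ : κ ≤ η * θ) :
    e1 B θ D κ θ ≤ 200000000000 * (1 + β ^ 2) ^ 4 * η * θ ^ 3 := by
  unfold e1
  have h2 : 0 ≤ θ ^ 2 := sq_nonneg _
  have h3 : 0 ≤ θ ^ 3 := by positivity
  have a1 := mul_le_mul_of_nonneg_right hD h2
  have a2 := mul_le_mul_of_nonneg_right hκ h2
  have a3 := mul_le_mul_of_nonneg_right hη h3
  have a4 : D * θ ^ 2 + θ * θ ^ 3 + θ ^ 4 + κ * θ ^ 2 ≤ 4 * (η * θ ^ 3) := by nlinarith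
  have a5 : (1 + B) ^ 4 ≤ (1 + β ^ 2) ^ 4 := pow_le_pow_left₀ (by linarith) (by linarith) 4
  have a6 : 0 ≤ 4 * (η * θ ^ 3) := by have := hθ.le.trans hη; positivity
  calc _ ≤ 50000000000 * (1 + B) ^ 4 * (4 * (η * θ ^ 3)) :=
        mul_le_mul_of_nonneg_left a4 (by positivity)
    _ ≤ 50000000000 * (1 + β ^ 2) ^ 4 * (4 * (η * θ ^ 3)) :=
        mul_le_mul_of_nonneg_right (by linarith) a6
    _ = _ := by ring

lemma e2_le {bb θ κ δ E s : ℝ} (hs : 0 ≤ s) (hδ : 0 < δ) (hδs : δ ≤ s) (h1 : θ + κ + θ ≤ s ^ 2)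
    (h2 : θ + E ≤ s * δ ^ 4) :
    e2 bb θ κ θ δ E ≤ 210000000 * Real.exp (5 * bb ^ 2 + 2) * (1 + bb ^ 2) * (3 * s) := by
  unfold e2
  refine mul_le_mul_of_nonneg_left ?_ (by positivity)
  have a1 : √(θ + κ + θ) ≤ s := Real.sqrt_le_iff.2 ⟨hs, h1⟩
  have a2 : (θ + E) / δ ^ 4 ≤ s := by rwa [div_le_iff₀ (by positivity)]
  linarith

lemma small {a c : ℝ} (ha : 0 < a) (hc : 0 ≤ c) : ∃ x : ℝ, 0 < x ∧ ∀ y, y ≤ x → c * y ≤ a := by
  refine ⟨a / (c + 1), by positivity, fun y hy => ?_⟩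
  calc c * y ≤ c * (a / (c + 1)) := mul_le_mul_of_nonneg_left hy hc
    _ ≤ (c + 1) * (a / (c + 1)) := mul_le_mul_of_nonneg_right (by linarith) (by positivity)
    _ = a := by field_simp

lemma large {a c : ℝ} (ha : 0 < a) : ∃ J : ℕ, ∀ j : ℕ, J ≤ j → c / ((j : ℝ) + 1) ≤ a := by
  obtain ⟨J, hJ⟩ := exists_nat_ge (c / a)
  refine ⟨J, fun j hj => ?_⟩
  have : (J : ℝ) ≤ j := Nat.cast_le.2 hj
  rw [div_le_iff₀ (by positivity)]
  rw [div_le_iff₀ ha] at hJ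
  nlinarith

end IC

open IC in
/-- **The cubic coefficient of the row is universal.** -/
theorem idc_of {β : ℝ} (hU : KapU β) : IdC β := by
  obtain ⟨k, hk⟩ := hU
  refine ⟨k ^ 2 + 1, by positivity, fun ε hε => ?_⟩
  have hβ : 0 ≤ β ^ 2 := sq_nonneg _
  obtain ⟨bb, hbb⟩ : ∃ bb : ℝ, bb ^ 2 = β ^ 2 + 1 := ⟨√(β ^ 2 + 1), Real.sq_sqrt (by linarith)⟩
  have h3 : 0 < ε / 3 := by positivity
  obtain ⟨e, e0, he⟩ := small h3 (c := (β ^ 2) ^ 3 * (30 + |k|)) (by positivity)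
  obtain ⟨dK, dK0, hdK⟩ := hk e e0
  obtain ⟨s, s0, hs⟩ := small h3 (c := (β ^ 2) ^ 3 *
    (210000000 * Real.exp (5 * bb ^ 2 + 2) * (1 + bb ^ 2) * 3)) (by positivity)
  obtain ⟨δ, δ0, δs, δ1⟩ : ∃ δ : ℝ, 0 < δ ∧ δ ≤ s ∧ δ ≤ 1 / 2 :=
    ⟨min s (1 / 2), by positivity, min_le_left _ _, min_le_right _ _⟩
  have σ0 : 0 < s * δ ^ 4 / 3 := by positivity
  obtain ⟨t, t0, ht⟩ := small σ0 hβ
  obtain ⟨J1, hJ1⟩ := large σ0 (c := 5 * β ^ 2 / t)
  obtain ⟨J2, hJ2⟩ := large (half_pos dK0) (c := 20)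
  obtain ⟨η1, η10, hη1⟩ := small σ0 (c := β ^ 2 + 3) (by positivity)
  obtain ⟨η2, η20, hη2⟩ := small (a := s ^ 2) (by positivity) (c := 3) (by positivity)
  obtain ⟨η3, η30, hη3⟩ := small h3 (c := 200000000000 * (1 + β ^ 2) ^ 4) (by positivity)
  obtain ⟨η, η0, a1, a2, a3, a4, a5⟩ : ∃ η : ℝ, 0 < η ∧ η ≤ η1 ∧ η ≤ η2 ∧ η ≤ η3 ∧ η ≤ dK / 2 ∧
      η ≤ 1 :=
    ⟨min (min η1 η2) (min η3 (min (dK / 2) 1)), by positivity,
      (min_le_left _ _).trans (min_le_left _ _), (min_le_left _ _).trans (min_le_right _ _),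
      (min_le_right _ _).trans (min_le_left _ _),
      (min_le_right _ _).trans ((min_le_right _ _).trans (min_le_left _ _)),
      (min_le_right _ _).trans ((min_le_right _ _).trans (min_le_right _ _))⟩
  obtain ⟨n0, hn0⟩ := exists_nat_ge (1 / dK)
  refine ⟨k ^ 2, η, max (max J1 J2) 3, n0, sq_nonneg _, by linarith, η0, le_max_right _ _,
    fun n hn Q l m b w θ D κ i hD hb hw hβn _ hwη hmQ hV hl1 hlQ H hθ hDθ hκθ => ?_⟩
  obtain ⟨J, hJ, b1, b2, b3⟩ : ∃ J, J = max (max J1 J2) 3 ∧ J1 ≤ J ∧ J2 ≤ J ∧ 3 ≤ J :=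
    ⟨_, rfl, (le_max_left _ _).trans (le_max_left _ _),
      (le_max_right _ _).trans (le_max_left _ _), le_max_right _ _⟩
  rw [← hJ] at hD hb hw hβn hwη hV H ⊢
  have n0' : 0 < n := by have := i.2; omega
  have nR : (0 : ℝ) < n := Nat.cast_pos.2 n0'
  have hm := hD.em
  have hK : 0 < Q + J := by omega
  have hl : l ≤ Q + J := by omega
  obtain ⟨q1, q2, q3⟩ := qq_path (b := b) (w := w) hm n0' hK hD.Q1
  have hnd : 1 ≤ dK * n := by
    have : (n0 : ℝ) ≤ n := Nat.cast_le.2 hn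
    rw [div_le_iff₀ dK0] at hn0
    nlinarith
  have U := hdK n (Q + J) Q m b w _ n0' hD.Q1 (Nat.le_add_right Q J) hm hb
    (fun j j1 j2 => (hw j j1 j2).le) hβn hD.bd (by linarith) (by linarith) hnd q1 q2 q3
    ((dev_le hD (by omega) n0' hV).trans (by linarith [hJ2 J b2]))
  obtain ⟨r0, r1, -⟩ := H.mom hm n0' hK hl
  have θ0 := H.θ0
  have hB := bt2_le n0' hβn hl
  have hB0 := bt2_nonneg n b l
  have hβn0 : 0 ≤ β ^ 2 / n := by positivity
  have hηθ : η * θ ≤ θ := by nlinarith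
  have hηη : η * θ ≤ η := by nlinarith [H.θ1]
  have Hy' : Hy n (Q + J) m b w l θ D ((skS n (Q + J) m b w).Rl sp l) (κ + β ^ 2 / n) :=
    ⟨by linarith [H.κ0], by linarith, θ0, H.θ1, H.D0, r0, r1,
      add_le_add (by rw [sw_tv]; exact H.κw) (div_le_div_of_nonneg_right hB nR.le), H.h4, H.h2⟩
  have hp : Path (Q + J) fun j => β ^ 2 * qq n (Q + J) Q m b w j :=
    ⟨by simp only [q2, mul_zero, le_refl], fun j hj => mul_le_mul_of_nonneg_left (q1.2 j hj) hβ⟩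
  have hp0 : (fun j => β ^ 2 * qq n (Q + J) Q m b w j) 0 = 0 := by simp only [q2, mul_zero]
  have I := id1 hm hl1 hl (hw l hl1 hl).ne' i (bb := bb) (μ := θ) Hy' hp hp0
    (by have := mul_le_mul_of_nonneg_left q3 hβ; show β ^ 2 * _ ≤ _; linarith)
    (by rw [sw_tv]; linarith [bt2_le n0' hβn (le_refl (Q + J))]) θ0
    ((hm.mono l hl).trans H.mθ) H.θ1 δ0 δ1
  have E1 := e1_le hB0 hB θ0 hθ hDθ hκθ
  have ED := eD_le (w := w) hD (by omega) n0' hβn hV (show l ≤ Q by omega) t0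
  have E2 := e2_le (bb := bb) (θ := θ) (κ := κ + β ^ 2 / n)
    (E := eD n (Q + J) m b w l fun j => β ^ 2 * qq n (Q + J) Q m b w j) s0.le δ0 δs
    (by linarith [hη2 η a2]) (by
      have c1 := hη1 η a1
      have c2 := ht t le_rfl
      have c3 := hJ1 J b1
      have c4 := mul_le_mul_of_nonneg_left hmQ hβ
      linarith [H.κ0])
  have A := abs_kap_le hm hp hp0
  set X := (bt2 n b l * (skS n (Q + J) m b w).Rl sp l) ^ 3 with hX
  set k' := kap (Q + J) m fun j => β ^ 2 * qq n (Q + J) Q m b w j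
  have X0 : 0 ≤ X := pow_nonneg (mul_nonneg hB0 r0) 3
  have X1 : X ≤ (β ^ 2) ^ 3 * θ ^ 3 := by
    rw [← mul_pow]
    exact pow_le_pow_left₀ (mul_nonneg hB0 r0) (mul_le_mul hB r1 r0 hβ) 3
  have t3 : 0 ≤ θ ^ 3 := by positivity
  have K1 : |X * k' ^ 2 - k ^ 2 * X| ≤ ε / 3 * θ ^ 3 := by
    have e' : X * k' ^ 2 - k ^ 2 * X = X * ((k' + k) * (k' - k)) := by ring
    rw [e', abs_mul, abs_mul, abs_of_nonneg X0]
    have c1 : |k' + k| ≤ 30 + |k| := (abs_add_le _ _).trans (by linarith)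
    calc _ ≤ (β ^ 2) ^ 3 * θ ^ 3 * ((30 + |k|) * e) :=
          mul_le_mul X1 (mul_le_mul c1 U (abs_nonneg _) (by positivity)) (by positivity)
            (by positivity)
      _ = (β ^ 2) ^ 3 * (30 + |k|) * e * θ ^ 3 := by ring
      _ ≤ _ := mul_le_mul_of_nonneg_right (he e le_rfl) t3
  have K2 : X * e2 bb θ (κ + β ^ 2 / n) θ δ
      (eD n (Q + J) m b w l fun j => β ^ 2 * qq n (Q + J) Q m b w j) ≤ ε / 3 * θ ^ 3 := by
    calc _ ≤ X * (210000000 * Real.exp (5 * bb ^ 2 + 2) * (1 + bb ^ 2) * (3 * s)) :=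
          mul_le_mul_of_nonneg_left E2 X0
      _ ≤ (β ^ 2) ^ 3 * θ ^ 3 *
            (210000000 * Real.exp (5 * bb ^ 2 + 2) * (1 + bb ^ 2) * (3 * s)) :=
          mul_le_mul_of_nonneg_right X1 (by positivity)
      _ = (β ^ 2) ^ 3 * (210000000 * Real.exp (5 * bb ^ 2 + 2) * (1 + bb ^ 2) * 3) * s *
            θ ^ 3 := by ring
      _ ≤ _ := mul_le_mul_of_nonneg_right (hs s le_rfl) t3
  have K3 := mul_le_mul_of_nonneg_right (hη3 η a3) t3
  have T := abs_sub_le (6 * NL (Q + J) m b w l i) (X * k' ^ 2) (k ^ 2 * X)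
  linarith

end Vale.Agent.N146.Sharp
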