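import Vale.Agent.N146.Sharp.Ev

/-!
# P146 (c): the two increments from the packages (helper38)
-/

namespace Vale.Agent.N146.Sharp

open Finset Filter Topology
open Vale.Agent.P157 Vale.Agent.P157.Lv Vale.Agent.P157.Lv.Sy
open Vale.Agent.P146 Vale.Agent.P146.U
open Vale.Agent.P146.H93 (skS Em)
open Vale.Agent.P146.H479 (Na)
open Vale.Agent.P146.H758 (tv Ap)
open Vale.Agent.P146.H877x (Hz KV eT KV_pos)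
open Vale.Agent.P146.H379.Row (bt2 NL)

set_option linter.unusedSectionVars false

/-- the body of `IdC` -/
def IdB (β c η ε : ℝ) (J n : ℕ) : Prop :=
  ∀ (Q l : ℕ) (m b w : ℕ → ℝ) (θ D κ : ℝ) (i : Fin n),
    Dp Q J m b → Na (Q + J) b → (∀ j, 1 ≤ j → j ≤ Q + J → 0 < w j) →
    tv (Q + J) b = β ^ 2 / n →
    β ^ 2 * (1 - η) ≤ n * b 1 ^ 2 → tv (Q + J) w ≤ η → m Q ≤ η →
    ∑ j ∈ Icc Q (Q + J), Vr n (Q + J) m b w j ≤ 20 → 1 ≤ l → l + 2 ≤ Q →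
    Hz n (Q + J) m b w l θ D κ (β ^ 2) → θ ≤ η → D ≤ η * θ → κ + β ^ 2 / n ≤ η * θ →
    |6 * NL (Q + J) m b w l i -
      c * (bt2 n b l * (skS n (Q + J) m b w).Rl H325.sp l) ^ 3| ≤ ε * θ ^ 3

namespace Pa

variable {P : Pa} {w : ℕ → ℝ} {k R ω ρ ζ C δ t e1 c η g B0 A0 : ℝ}

namespace Ad

variable (A : P.Ad)
include A

lemma id_use (W : Sw P A.K0 w k R ω g (16 * (P.J + 1) / (P.n * ω)) ζ) (hR : 0 < R)
    (hω : 320 * ((P.J : ℝ) + 1) ^ 4 ≤ P.n * ω) (hI : IdB P.β c η (e1 / C ^ 3) P.J P.n)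
    (NC : P.N + 1 ≤ C) (hδ : δ ≤ η * C) (i1 : (P.S + 3 * P.τ) * P.u ≤ η)
    (i2 : 2 * k * P.u ^ 3 + 3 * P.J * ω ≤ η) (i3 : C * P.u ≤ η)
    (i4 : 2 * k * P.u ^ 3 + P.β ^ 2 / P.n ≤ η * (C * P.u)) (l : ℕ) (h1 : 1 ≤ l)
    (h2 : l + 2 ≤ P.Q)
    (H : Hz P.n P.K P.m P.b w l (C * P.u) (δ * P.u) (2 * k * P.u ^ 3) (P.β ^ 2)) :
    |6 * NL P.K P.m P.b w l ⟨0, A.n0⟩ -
      c * (bt2 P.n P.b l * (skS P.n P.K P.m P.b w).Rl H325.sp l) ^ 3| ≤ e1 * P.u ^ 3 := by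
  have hu := A.u0
  have hC : 0 < C := by linarith [A.N0]
  refine (hI P.Q l P.m P.b w _ _ _ ⟨0, A.n0⟩ A.dp (A.na _) W.pos (A.tv_top QK) ?_ ?_ ?_
    (A.deepVar W hω) h1 h2 H i3 ?_ i4).trans_eq (by field_simp)
  · rw [A.nb_sq]
    refine mul_le_mul_of_nonneg_left ?_ (sq_nonneg _)
    have b2 : P.s 1 = 1 - P.T 1 * P.u ^ 2 := if_pos le_rfl
    linarith [(A.Tu (le_refl 1)).2, A.usq (by linarith [A.S0, A.τ0]) i1]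
  · rw [tv_add]
    linarith [W.tQ, W.dp]
  · rw [A.m_Q]
    exact (mul_le_mul_of_nonneg_right NC hu.le).trans i3
  · rw [← mul_assoc]
    exact mul_le_mul_of_nonneg_right hδ hu.le

/-- the selection with the radius `ρ u³` -/
lemma pick' (hS : Sel) (hR' : Resp) (k2 : k ≤ 1 / 2) (ρ0 : 0 < ρ)
    (hρ : 5 * (2 * P.M + 3) * ρ ≤ k) (hB : 0 < B0) (hω : 0 < ω)
    (hAp : Ap P.n P.β (P.u / 2) (2 * (P.N + 1) * P.u) (P.u ^ 3) A0 (B0 * (P.n * P.u ^ 5)))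
    (hW : P.n / 2 * (3 * P.J * ω) ≤ P.n * P.u ^ 5) :
    ∃ w : ℕ → ℝ, Sw P A.K0 w k (ρ * P.u ^ 3) ω (256 * (B0 + 1) / ρ ^ 2 / (P.n * P.u ^ 2))
      (16 * (P.J + 1) / (P.n * ω)) (8 * P.β * (B0 + 1) / ρ * P.u ^ 2) := by
  have hu := A.u0
  have hn := A.nR
  obtain ⟨w, W⟩ := pick hS hR' A (R := ρ * P.u ^ 3) (δ := 8 * (B0 + 1) * (P.n * P.u ^ 2) / ρ)
    (by positivity) hω k2 (by
      have := mul_le_mul_of_nonneg_right hρ (by positivity : 0 ≤ P.u ^ 3)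
      refine le_trans (le_of_eq ?_) this
      push_cast
      ring) hAp (by linarith [A.Nu0]) (by linarith [A.Nu1]) (by positivity) (by
      rw [div_le_iff₀ (by positivity)]
      have e : 8 * (B0 + 1) * (P.n * P.u ^ 2) / ρ * (ρ * P.u ^ 3) =
          8 * (B0 * (P.n * P.u ^ 5) + P.n * P.u ^ 5) := by
        field_simp
      rw [e]
      linarith)
  have e1 : 32 * (8 * (B0 + 1) * (P.n * P.u ^ 2) / ρ) / (P.u * P.n ^ 2 * (ρ * P.u ^ 3)) =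
      256 * (B0 + 1) / ρ ^ 2 / (P.n * P.u ^ 2) := by
    field_simp
    norm_num
  have e2 : P.β * (8 * (B0 + 1) * (P.n * P.u ^ 2) / ρ) / P.n =
      8 * P.β * (B0 + 1) / ρ * P.u ^ 2 := by
    field_simp
  rw [e1, e2] at W
  exact ⟨w, W⟩

end Ad

end Pa

/-- what one law gives -/
def Out (β κ q N S τ k C c c0 e δ ε : ℝ) (M n : ℕ) (u : ℝ) : Prop :=
  ∃ (α : ℝ) (r th f : ℕ → ℝ),
    RD M κ q N S τ (β * C) (β ^ 4 * c / 6) e δ (k / (16 * β)) (32 * β * k) α r th f ∧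
    (∀ l, 1 ≤ l → l ≤ 2 * M → N / 4 ≤ vv M κ q N (l + 1) → 1 / c0 ^ 2 ≤ th l) ∧
    P1 n β ((1 - q) * u) - P1 n β ((1 - κ) * u) ≤
      κ * (1 / 4 * ∑ i ∈ Icc 2 (M + 1), S / M * th i + k * C) * (n * u ^ 5) +
        3 * ε * (n * u ^ 5) ∧
    κ * (1 / 4 * ∑ i ∈ Icc 2 (M + 1), S / M * th (i - 1)) * (n * u ^ 5) -
      κ * (β ^ 2 * S / 4 * u ^ 3) - 3 * ε * (n * u ^ 5) ≤
      P1 n β ((1 + κ) * u) - P1 n β ((1 - q) * u)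

lemma ev_ad {β κ q N S τ : ℝ} {M J : ℕ} (M1 : 1 ≤ M) (J3 : 3 ≤ J) (β1 : 1 < β) (q0 : 0 < q)
    (qκ : q ≤ κ) (κ4 : κ ≤ 1 / 4) (N8 : 8 ≤ N) (S0 : 0 < S) (τ0 : 0 < τ) :
    ∀ᶠ x in FF, (Pa.mk x.1 M J β x.2 κ q N S τ).Ad := by
  filter_upwards [ev_n 2, ev_pos, ev_u (2 * (N + 1)) (e := 1 / (J + 1)) (by positivity),
    ev_u (S + 3 * τ) (e := 1 / 2) (by norm_num), ev_u 1 one_pos] with x h1 h2 h3 h4 h5
  exact ⟨h1, M1, J3, β1, h2, q0, qκ, κ4, N8, S0, τ0, by rwa [← mul_assoc],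
    (mul_le_mul_of_nonneg_left (by nlinarith) (by positivity)).trans h4⟩

lemma ev_nm {β κ q N S τ k ρ G ζ C δ t e1 c1 : ℝ} {M J : ℕ} (β0 : 0 < β)
    (hA : ∀ᶠ x in FF, (Pa.mk x.1 M J β x.2 κ q N S τ).Ad)
    (k0 : 0 < k) (k2 : k ≤ 1 / 2) (ρ0 : 0 < ρ) (NC : N + 1 ≤ C) (δ0 : 0 < δ)
    (δC : δ ≤ C) (t0 : 0 < t) (t1 : t ≤ 1) (e0 : 0 < e1) (ζ0 : 0 ≤ ζ) (c0 : 0 ≤ c1)
    (s1 : ZZ β * (δ * C ^ 2 / t + t * C ^ 3 + N / M * C ^ 2) ≤ e1 / 2) :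
    ∀ᶠ x in FF, Pa.Nm (Pa.mk x.1 M J β x.2 κ q N S τ) k (ρ * x.2 ^ 3)
      (G / (x.1 * x.2 ^ 2)) (ζ * x.2 ^ 2) C δ t e1 c1 := by
  filter_upwards [hA, ev_u C one_pos, ev_u (4 * C ^ 2 * (β ^ 2 + 1)) (e := 1 / 4) (by norm_num),
    ev_u (ZZ β * (C ^ 4 / t + C ^ 2 / t + C)) (e := e1 / 4) (by positivity),
    ev_x (ZZ β * (G / (q / M) + C / ρ + 1)) (e := e1 / 4) (by positivity),
    ev_x (20 * (2 * M) * G / (q / M) ^ 2) one_pos, ev_u ζ (e := 1 / 2) (by norm_num),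
    ev_u ((ζ + (S + 3 * τ)) * (6 * ((N + 1) * (β * C) ^ 2) +
      3 * ((S + 3 * τ) * (β * C)) + 3 * (c1 * (β * C) ^ 3))) e0,
    ev_u (β * (KV ^ 2 * (60 * β ^ 2) * (C + 1))) e0,
    ev_u (KV ^ 2 * (60 * β ^ 2) * (C + 1)) (e := 1 / (8 * β ^ 2)) (by positivity)]
    with x A d1 d2 d3 d4 d5 d6 d7 d8 d9
  exact A.nm k0 k2 ρ0 NC δ0 δC t0 t1 e0 ζ0 c0 s1 d1 d2 d3 d4 d5 d6 d7 d8 d9

lemma id_num {n u k η C Ω B : ℝ} (hn : 0 < n) (hu : 0 < u) (u1 : u ≤ 1) (hk : k ≤ 1 / 2)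
    (η0 : 0 < η) (hC : 1 ≤ C) (x1 : n * u ^ 6 ≤ n * u) (x0 : n * u ^ 6 ≤ n) (d5 : 2 * u ≤ η)
    (d6 : 2 * Ω ≤ η * (n * u ^ 6)) (d8 : 2 * B ≤ η * (n * u ^ 6)) :
    2 * k * u ^ 3 + Ω / n ≤ η ∧ 2 * k * u ^ 3 + B / n ≤ η * (C * u) := by
  have j1 : 2 * k * u ^ 3 ≤ η / 2 * u := by
    have h1 := mul_le_mul_of_nonneg_right hk (by positivity : 0 ≤ 2 * u ^ 3)
    have h3 : u ^ 3 ≤ u ^ 2 := pow_le_pow_of_le_one hu.le u1 (by norm_num)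
    have h4 := mul_le_mul_of_nonneg_right d5 hu.le
    linarith [show 2 * u * u = 2 * u ^ 2 by ring]
  have j2 : Ω / n ≤ η / 2 := by
    rw [div_le_iff₀ hn]
    linarith [mul_le_mul_of_nonneg_left x0 η0.le]
  have j3 : B / n ≤ η / 2 * u := by
    rw [div_le_iff₀ hn]
    linarith [mul_le_mul_of_nonneg_left x1 η0.le]
  have j4 : η * u ≤ η * (C * u) :=
    mul_le_mul_of_nonneg_left (le_mul_of_one_le_left hu.le hC) η0.le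
  have j5 : η / 2 * u ≤ η / 2 := mul_le_of_le_one_right (by positivity) u1
  constructor <;> linarith

theorem ev_law (hS : Sel) (hR : Resp) (hD : Deep)
    {β κ q N S τ k C C4 B0 δ t e1 e c c0 c1 η ε Λc Λ cg k1 k2 k3 : ℝ} {M J : ℕ}
    (hn1 : ∀ᶠ x in FF, (Pa.mk x.1 M J β x.2 κ q N S τ).Ad) (β0 : 0 < β)
    (k0 : 0 < k) (k12 : k ≤ 1 / 2) (hk1 : 2 * k ≤ k1)
    (hk2 : 2 * k ≤ k2) (hk3 : 2 * k ≤ k3) (hB : 0 < B0) (hC4 : 0 ≤ C4) (hC : C4 ≤ C)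
    (NC : N + 1 ≤ C) (δ0 : 0 < δ) (δC : δ ≤ C) (δη : δ ≤ η * C) (t0 : 0 < t) (t1 : t ≤ 1)
    (e0 : 0 < e1) (he : (β + 1) * e1 ≤ e) (hc : 0 ≤ c) (hc1 : β ^ 4 * c / 6 ≤ c1) (η0 : 0 < η)
    (s1 : ZZ β * (δ * C ^ 2 / t + t * C ^ 3 + N / M * C ^ 2) ≤ e1 / 2) (ε0 : 0 < ε)
    (ε1 : ε ≤ 1) (εg : ε ≤ cg) (hΛ : Λ ≤ S) (Λ0 : 0 < Λc) (hc0 : 0 < c0)
    (hN : 8 * Λc ≤ cg * c0 ^ 2 * N ^ 2) (hM : M4B (1 / 2) (N + 1) τ (2 * B0 + 1) C4)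
    (hA : ∀ᶠ x in FF, Ap x.1 β (x.2 / 2) (2 * (N + 1) * x.2) (x.2 ^ 3) (P1 x.1 β (x.2 / 2))
      (B0 * (x.1 * x.2 ^ 5)))
    (hU : ∀ᶠ x in FF, UpB x.1 β x.2 (N + 1) (3 * τ) k1 ε)
    (hL : ∀ᶠ x in FF, LoB x.1 β x.2 Λ (N + 1) k2 ε)
    (hX : ∀ᶠ x in FF, LoB x.1 β x.2 Λc (N + 1) k3 (cg / 4))
    (hG : ∀ᶠ x in FF, ∀ y, 2 * x.2 ≤ y → y ≤ (N + 1) * x.2 →
      cg * (x.1 * y ^ 5) ≤ P1 x.1 β y - P1 x.1 β (y / 2))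
    (hI : ∀ᶠ x in FF, IdB β c η (e1 / C ^ 3) J x.1) :
    ∀ᶠ x in FF, Out β κ q N S τ k C c c0 e δ ε M x.1 x.2 := by
  obtain ⟨ρ, hρ⟩ : ∃ ρ : ℝ, ρ = k / (5 * (2 * M + 3)) := ⟨_, rfl⟩
  have ρ0 : 0 < ρ := by rw [hρ]; positivity
  have ρk : 5 * (2 * M + 3) * ρ ≤ k := by rw [hρ]; exact le_of_eq (by field_simp)
  obtain ⟨Ω, hΩ⟩ : ∃ Ω : ℝ, Ω = 320 * ((J : ℝ) + 1) ^ 4 := ⟨_, rfl⟩
  have Ω0 : 0 < Ω := by rw [hΩ]; positivity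
  have hn2 := ev_nm (G := 256 * (B0 + 1) / ρ ^ 2) (ζ := 8 * β * (B0 + 1) / ρ) β0 hn1 k0 k12 ρ0
    NC δ0 δC t0 t1 e0 (by positivity) (le_trans (by positivity) hc1) s1
  filter_upwards [hn1, hn2, hA, hU, hL, hX, hG, hI, ev_x (3 * J * Ω / 2) ε0, ev_x 1 one_pos,
    ev_u (Λc * (N + 1) ^ 2) (e := 1 / 2) (by norm_num), ev_u (S + 3 * τ) η0, ev_u 2 η0,
    ev_x (2 * (3 * J * Ω)) η0, ev_u C η0, ev_x (2 * β ^ 2) η0]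
    with x A H hA hU hL hX hG hI d1 d2 d3 d4 d5 d6 d7 d8
  obtain ⟨n, u⟩ := x
  have hn : (0 : ℝ) < n := A.nR
  have C1 : 1 ≤ C := le_trans (le_add_of_nonneg_left A.N0.le) NC
  obtain ⟨x5, -, x1, x0⟩ := A.x6
  have hW : (n : ℝ) / 2 * (3 * J * (Ω / n)) ≤ ε * (n * u ^ 5) :=
    (le_of_eq (by field_simp)).trans (d1.trans (mul_le_mul_of_nonneg_left x5 ε0.le))
  have hW1 : (n : ℝ) / 2 * (3 * J * (Ω / n)) ≤ n * u ^ 5 :=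
    hW.trans (mul_le_of_le_one_left (mul_pos hn (pow_pos A.u0 5)).le ε1)
  obtain ⟨w, W⟩ := A.pick' hS hR k12 ρ0 ρk hB (ω := Ω / n) (by positivity) hA hW1
  have B := W.toBw
  have h4 := A.four hD B H.R0 (by linarith) hM hC4 hC hA hW1 (d2.trans_eq (one_mul _))
  obtain ⟨j1, j2⟩ := id_num hn A.u0 A.u1 k12 η0 C1 x1 x0 d5 d6 d8
  rw [mul_div_assoc] at j1
  obtain ⟨α, hα⟩ := A.rd W H h4 hc hc1 he (A.id_use W H.R0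
    (show 320 * ((J : ℝ) + 1) ^ 4 ≤ n * (Ω / n) by rw [← hΩ]; exact le_of_eq (by field_simp))
    hI NC δη d4 j1 d7 j2)
  exact ⟨α, _, _, _, hα, fun l h1 h2 hv => A.cross hD B H.R0 hk1 hk3 hU hW hX Λ0
      (ε0.trans_le εg) εg hc0 hN (by rw [mul_pow, ← mul_assoc]; exact A.usq (by positivity) d3)
      hG h1 h2 hv,
    A.sideK hD B H.R0 hk1 hk2 hU hW hL hΛ ε0.le h4 (by linarith),
    A.sideL hD B H.R0 hk1 hk2 hU hW hL hΛ ε0.le⟩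

lemma ev0 (A : ℝ) {e : ℝ} (he : 0 < e) : ∀ᶠ x in 𝓝[>] (0 : ℝ), A * x ≤ e := by
  have h : Tendsto (fun x : ℝ => A * x) (𝓝 0) (𝓝 (A * 0)) :=
    (continuous_const.mul continuous_id).tendsto 0
  rw [mul_zero] at h
  exact (h.eventually_le_const he).filter_mono nhdsWithin_le_nhds

lemma ev1 {e : ℝ} (he : 0 < e) : ∀ᶠ x in 𝓝[>] (0 : ℝ), x ≤ e := by
  simpa using ev0 1 he

lemma small {p : ℝ → Prop} (h : ∀ᶠ x in 𝓝[>] (0 : ℝ), p x) : ∃ x, 0 < x ∧ p x :=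
  ((eventually_mem_nhdsWithin (s := Set.Ioi (0 : ℝ))).and h).exists

lemma finK {X κ s a k ε ε2 ε' Z : ℝ} (hZ : 0 < Z) (κ0 : 0 < κ) (ε0 : 0 < ε)
    (h : X ≤ κ * (1 / 4 * s + k) * Z + 3 * ε2 * Z) (hs : s ≤ a + ε) (hk : k ≤ ε / 8)
    (h2 : ε2 ≤ ε * κ / 8) (h3 : ε ≤ ε') : X ≤ κ * (a / 4 + ε') * Z := by
  refine h.trans ?_
  rw [← add_mul]
  refine mul_le_mul_of_nonneg_right ?_ hZ.le
  have := mul_le_mul_of_nonneg_left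
    (show 1 / 4 * s + k + 3 / 8 * ε ≤ a / 4 + ε' by linarith) κ0.le
  linarith

lemma finL {X κ s a E ε ε2 ε' Z : ℝ} (hZ : 0 < Z) (κ0 : 0 < κ) (ε0 : 0 < ε)
    (h : κ * (1 / 4 * s) * Z - κ * E - 3 * ε2 * Z ≤ X) (hs : a - ε ≤ s) (hE : E ≤ ε / 8 * Z)
    (h2 : ε2 ≤ ε * κ / 8) (h3 : ε ≤ ε') : κ * (a / 4 - ε') * Z ≤ X := by
  refine le_trans ?_ h
  have h4 := mul_le_mul_of_nonneg_left hE κ0.le
  have h5 := mul_le_mul_of_nonneg_right h2 hZ.le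
  have h6 := mul_le_mul_of_nonneg_right (mul_le_mul_of_nonneg_left
    (show a / 4 - ε' ≤ 1 / 4 * s - ε / 2 by linarith) κ0.le) hZ.le
  linarith

lemma ev_grow {β cg Cg Kg : ℝ} {ng : ℕ} (N : ℝ) (h : ∀ n : ℕ, ng ≤ n →
    (∀ y : ℝ, Kg * (n : ℝ) ^ (-(1 / 6) : ℝ) ≤ y → y ≤ (n : ℝ) ^ (-(1 / 10) : ℝ) →
      cg * (n * y ^ 5) ≤ P1 n β y - P1 n β (y / 2)) ∧
    (∀ u s t : ℝ, Rg Kg n u → u / 2 ≤ s → s ≤ t → t ≤ 2 * u →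
      P1 n β t - P1 n β s ≤ Cg * (t - s) * (n * u ^ 4))) :
    (∀ᶠ x in FF, ∀ y, 2 * x.2 ≤ y → y ≤ N * x.2 →
      cg * (x.1 * y ^ 5) ≤ P1 x.1 β y - P1 x.1 β (y / 2)) ∧
    ∀ᶠ x in FF, ∀ s t : ℝ, x.2 / 2 ≤ s → s ≤ t → t ≤ 2 * x.2 →
      P1 x.1 β t - P1 x.1 β s ≤ Cg * (t - s) * (x.1 * x.2 ^ 4) := by
  refine ⟨?_, ev_iff.2 ⟨Kg, ng, fun n hn u hu s t => (h n hn).2 u s t hu⟩⟩
  filter_upwards [ev_n ng, ev_rg Kg, ev_pos,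
    ev_rpow N one_pos (a := 1 / 10) (by norm_num)] with x h1 h2 h3 h4 y hy hy'
  exact (h _ h1).1 y (h2.1.trans (by linarith)) (by linarith)

lemma contra {κ q Cg c0 u n X : ℝ} (hn : 0 < n) (hu : 0 < u) (κ0 : 0 < κ) (qκ : q ≤ κ)
    (Cg0 : 0 < Cg) (c00 : 0 < c0) (c01 : c0 ≤ 1) (hc0 : 20000 * (2 * Cg + 2) * c0 ≤ 1)
    (b1 : κ * (1 / (5000 * c0 ^ 3) / 4 - 1) * (n * u ^ 5) ≤ X)
    (b2 : X ≤ Cg * ((1 + κ) * u - (1 - q) * u) * (n * u ^ 4)) : False := by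
  have b3 : 2 * Cg + 2 ≤ 1 / (5000 * c0 ^ 3) / 4 := by
    rw [div_div, le_div_iff₀ (by positivity)]
    have := mul_le_mul_of_nonneg_left (pow_le_of_le_one c00.le c01 three_ne_zero)
      (by positivity : 0 ≤ 20000 * (2 * Cg + 2))
    linarith
  have b4 : Cg * ((1 + κ) * u - (1 - q) * u) * (n * u ^ 4) = Cg * (κ + q) * (n * u ^ 5) := by
    ring
  have b5 := le_of_mul_le_mul_right (b1.trans (b2.trans_eq b4)) (by positivity)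
  have b6 := mul_le_mul_of_nonneg_left b3 κ0.le
  have b7 := mul_le_mul_of_nonneg_left qκ Cg0.le
  linarith

lemma fin_out {β κ q N S τ k C c c0 e δ ε ε2 ε' Cg u : ℝ} {M n : ℕ} (h6 : 1 ≤ n) (hu : 0 < u)
    (u1 : 1 * u ≤ 1) (q0 : 0 < q) (qκ : q ≤ κ) (κ4 : κ ≤ 1 / 4) (Cg0 : 0 < Cg) (c00 : 0 < c0)
    (c01 : c0 ≤ 1) (hc0 : 20000 * (2 * Cg + 2) * c0 ≤ 1) (ε0 : 0 < ε) (ε1 : ε ≤ 1)
    (εε : ε ≤ ε') (h21 : ε2 ≤ ε * κ / 8) (j7 : C * k ≤ ε / 8)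
    (h9 : β ^ 2 * S / 4 ≤ ε / 8 * (n * u ^ 6)) (hO : Out β κ q N S τ k C c c0 e δ ε2 M n u)
    (h5 : ∀ s t : ℝ, u / 2 ≤ s → s ≤ t → t ≤ 2 * u →
      P1 n β t - P1 n β s ≤ Cg * (t - s) * (n * u ^ 4))
    (hK : ∀ (α : ℝ) (r th f : ℕ → ℝ), c0 ≤ β ^ 4 * c / 6 →
      RD M κ q N S τ (β * C) (β ^ 4 * c / 6) e δ (k / (16 * β)) (32 * β * k) α r th f →
      ∑ i ∈ Icc 2 (M + 1), S / M * th i ≤ 1 / (96 * (β ^ 4 * c / 6) ^ 3) + ε)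
    (hL : ∀ (α : ℝ) (r th f : ℕ → ℝ),
      RD M κ q N S τ (β * C) (β ^ 4 * c / 6) e δ (k / (16 * β)) (32 * β * k) α r th f →
      (∀ l, 1 ≤ l → l ≤ 2 * M → N / 4 ≤ vv M κ q N (l + 1) → 1 / c0 ^ 2 ≤ th l) →
      (c0 ≤ β ^ 4 * c / 6 →
        1 / (96 * (β ^ 4 * c / 6) ^ 3) - ε ≤ ∑ i ∈ Icc 2 (M + 1), S / M * th (i - 1)) ∧
      (β ^ 4 * c / 6 < c0 → 1 / (5000 * c0 ^ 3) ≤ ∑ i ∈ Icc 2 (M + 1), S / M * th (i - 1))) :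
    P1 n β ((1 - q) * u) - P1 n β ((1 - κ) * u) ≤
        κ * (1 / (96 * max (β ^ 4 * c / 6) c0 ^ 3) / 4 + ε') * (n * u ^ 5) ∧
      κ * (1 / (96 * max (β ^ 4 * c / 6) c0 ^ 3) / 4 - ε') * (n * u ^ 5) ≤
        P1 n β ((1 + κ) * u) - P1 n β ((1 - q) * u) := by
  obtain ⟨α, r, th, f, h1, h2, h3, h4⟩ := hO
  have κ0 := q0.trans_le qκ
  have hn : (0 : ℝ) < n := Nat.cast_pos.2 h6
  have hZ : (0 : ℝ) < n * u ^ 5 := by positivity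
  have hE : β ^ 2 * S / 4 * u ^ 3 ≤ ε / 8 * (n * u ^ 5) := by
    refine (mul_le_mul_of_nonneg_right h9 (by positivity)).trans ?_
    rw [mul_assoc, mul_assoc, ← pow_add]
    have : u ^ (6 + 3) ≤ u ^ 5 := pow_le_pow_of_le_one hu.le (by linarith) (by norm_num)
    gcongr
  obtain ⟨l1, l2⟩ := hL α r th f h1 h2
  rcases le_or_gt c0 (β ^ 4 * c / 6) with h | h
  · rw [max_eq_left h]
    exact ⟨finK hZ κ0 ε0 h3 (hK α r th f h h1) (by rwa [mul_comm]) h21 εε,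
      finL hZ κ0 ε0 h4 (l1 h) hE h21 εε⟩
  · have a1 := mul_le_mul_of_nonneg_right (qκ.trans κ4) hu.le
    have a2 := mul_le_mul_of_nonneg_right κ4 hu.le
    have a3 := mul_pos q0 hu
    have a4 := mul_pos κ0 hu
    exact (contra hn hu κ0 qκ Cg0 c00 c01 hc0
      (finL hZ κ0 ε0 h4 ((sub_le_self _ ε0.le).trans (l2 h)) hE h21 ε1)
      (h5 _ _ (by linarith) (by linarith) (by linarith))).elim

/-- **The two increments from the packages.** -/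
theorem kl_of {β : ℝ} (hβ : 1 < β) (hK : RealK) (hL : RealL) (hM : M4) (hS : Sel) (hD : Deep)
    (hR : Resp) (hB : Box β) (hG : Grow β) (hU : LinkUp β) (hLo : LinkLo β) (hI : IdC β) :
    KL β := by
  have β0 : 0 < β := by linarith
  have Z0 := ZZ_pos β0
  obtain ⟨cg, Cg, Kg, ng, cg0, Cg0, -, hG⟩ := hG
  obtain ⟨CI, -, hI⟩ := hI
  obtain ⟨c0, c00, c01, hc0⟩ := small ((ev1 one_pos).and (ev0 (20000 * (2 * Cg + 2)) one_pos))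
  obtain ⟨Λc, Λc1, hX⟩ := hLo (cg / 4) (by positivity)
  obtain ⟨N, N8, hN⟩ : ∃ N : ℝ, 8 ≤ N ∧ 8 * Λc ≤ cg * c0 ^ 2 * N ^ 2 := by
    refine ⟨max 8 (8 * Λc / (cg * c0 ^ 2)), le_max_left _ _, ?_⟩
    rw [← div_le_iff₀' (by positivity)]
    exact (le_max_right _ _).trans
      (le_self_pow₀ (le_trans (by norm_num) (le_max_left _ _)) two_ne_zero)
  have N0 : 0 < N := by linarith
  obtain ⟨hG, hG'⟩ := ev_grow (N + 1) hG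
  refine ⟨1 / (96 * c0 ^ 3) / 4, fun ε' ε'0 => ?_⟩
  obtain ⟨ε, ε0, ε1, εε⟩ := small ((ev1 one_pos).and (ev1 ε'0))
  obtain ⟨a0, S0, a00, hL⟩ := hL c0 (max (β ^ 4 * CI / 6) c0) ε N c00 (le_max_right _ _) ε0 N8
  obtain ⟨κ, κ0, κa, κε, κ4⟩ :=
    small ((ev1 a00).and ((ev1 ε0).and (ev1 (e := 1 / 4) (by norm_num))))
  obtain ⟨ε2, ε20, h21, h22, h23⟩ :=
    small ((ev1 (e := ε * κ / 8) (by positivity)).and ((ev1 cg0).and (ev1 one_pos)))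
  obtain ⟨T0, T00, hU⟩ := hU (N + 1) ε2 (by linarith) ε20
  obtain ⟨τ, τ0, τa, τT⟩ := small ((ev1 a00).and (ev0 3 T00))
  obtain ⟨k1, K1, n1, k10, hU⟩ := hU (3 * τ) (by positivity) τT
  obtain ⟨Λ, Λ1, hLo⟩ := hLo ε2 ε20
  obtain ⟨k2, K2, n2, k20, hLo⟩ := hLo (N + 1) (by linarith)
  obtain ⟨k3, K3, n3, k30, hX⟩ := hX (N + 1) (by linarith)
  obtain ⟨B0, KB, nB, B00, hB⟩ := hB (2 * (N + 1)) (by linarith)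
  obtain ⟨C4, C41, hM⟩ := hM (1 / 2) (N + 1) τ (2 * B0 + 1) (by norm_num) (by positivity) τ0
    (by positivity)
  obtain ⟨S, S1, S2⟩ : ∃ S, S0 ≤ S ∧ Λ ≤ S := ⟨_, le_max_left _ _, le_max_right _ _⟩
  obtain ⟨C, C1, C2⟩ : ∃ C, C4 ≤ C ∧ N + 1 ≤ C := ⟨_, le_max_left _ _, le_max_right _ _⟩
  have S0' : 0 < S := by linarith
  have C0 : 0 < C := by linarith
  have βC : 1 ≤ β * C := one_le_mul_of_one_le_of_one_le hβ.le (by linarith)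
  obtain ⟨aK, aK0, hK⟩ := hK c0 ε S (β * C) c00 ε0 S0' βC
  obtain ⟨k, k0, j1, j2, j3, j4, j5, j6, j7⟩ := small ((ev0 2 k10).and ((ev0 2 k20).and
    ((ev0 2 k30).and ((ev1 (e := 1 / 2) (by norm_num)).and ((ev0 (32 * β) a00).and
    ((ev0 (32 * β) aK0).and (ev0 C (e := ε / 8) (by positivity))))))))
  obtain ⟨a1, a10, hL⟩ := hL τ S (β * C) (k / (16 * β)) τ0 τa S1 βC (by positivity)
  obtain ⟨e, e0, e1, e2⟩ := small ((ev1 a10).and (ev1 aK0))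
  obtain ⟨q, q0, q1, q2⟩ := small ((ev1 e0).and (ev1 (mul_pos ε0 κ0)))
  have qκ : q ≤ κ := q2.trans (mul_le_of_le_one_left κ0.le ε1)
  obtain ⟨d, d0, hd⟩ := small (ev0 (β + 1) e0)
  obtain ⟨c, η, J, nI, hc, cC, η0, J3, hI⟩ := hI (d / C ^ 3) (by positivity)
  have hc1 : β ^ 4 * c / 6 ≤ max (β ^ 4 * CI / 6) c0 := le_max_of_le_left (by gcongr)
  obtain ⟨t, t0, t1, t2⟩ :=
    small ((ev1 one_pos).and (ev0 (ZZ β * C ^ 3) (e := d / 8) (by positivity)))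
  obtain ⟨δ, δ0, δ1, δ2, δ3, δ4⟩ := small ((ev1 e0).and ((ev1 (mul_pos η0 C0)).and
    ((ev1 C0).and (ev0 (ZZ β * C ^ 2 / t) (e := d / 8) (by positivity)))))
  obtain ⟨MK, hK⟩ := hK δ δ0 (δ1.trans e2)
  obtain ⟨ML, hL⟩ := hL δ δ0 (δ1.trans e1)
  obtain ⟨M, M1, M2, M3, M4⟩ : ∃ M : ℕ, 1 ≤ M ∧ MK ≤ M ∧ ML ≤ M ∧
      ZZ β * N * C ^ 2 / (d / 8) ≤ M := ((eventually_ge_atTop 1).and ((eventually_ge_atTop MK).and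
    ((eventually_ge_atTop ML).and (tendsto_natCast_atTop_atTop.eventually_ge_atTop _)))).exists
  have s1 : ZZ β * (δ * C ^ 2 / t + t * C ^ 3 + N / M * C ^ 2) ≤ d / 2 := by
    have hM : (0 : ℝ) < M := Nat.cast_pos.2 M1
    rw [div_le_comm₀ (by positivity) hM] at M4
    have : ZZ β * (δ * C ^ 2 / t + t * C ^ 3 + N / M * C ^ 2) =
      ZZ β * C ^ 2 / t * δ + ZZ β * C ^ 3 * t + ZZ β * N * C ^ 2 / M := by ring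
    linarith
  have hO := ev_law hS hR hD (ev_ad M1 J3 hβ q0 qκ κ4 N8 S0' τ0) β0 k0 j4 j1 j2 j3 B00
    (by linarith) C1 C2 δ0 δ3 δ2 t0 t1 d0 hd hc hc1 η0 s1 ε20 h23 h22 S2 (by linarith) c00 hN hM
    (ev_iff.2 ⟨KB, nB, hB⟩) (ev_iff.2 ⟨K1, n1, hU⟩) (ev_iff.2 ⟨K2, n2, hLo⟩)
    (ev_iff.2 ⟨K3, n3, hX⟩) hG (ev_iff.2 ⟨0, nI, fun n hn _ _ => hI n hn⟩)
  obtain ⟨K0, n0, H⟩ := ev_iff.1 (show ∀ᶠ x in FF,
      P1 x.1 β ((1 - q) * x.2) - P1 x.1 β ((1 - κ) * x.2) ≤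
        κ * (1 / (96 * max (β ^ 4 * c / 6) c0 ^ 3) / 4 + ε') * (x.1 * x.2 ^ 5) ∧
      κ * (1 / (96 * max (β ^ 4 * c / 6) c0 ^ 3) / 4 - ε') * (x.1 * x.2 ^ 5) ≤
        P1 x.1 β ((1 + κ) * x.2) - P1 x.1 β ((1 - q) * x.2) by
    filter_upwards [hO, hG', ev_n 1, ev_pos, ev_u 1 one_pos,
      ev_x (β ^ 2 * S / 4) (e := ε / 8) (by positivity)] with x h1 h5 h6 h7 h8 h9
    exact fin_out h6 h7 h8 q0 qκ κ4 Cg0 c00 c01 hc0 ε0 ε1 εε h21 j7 h9 h1 h5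
      (fun α r th f h => hK M M2 κ q N τ _ e _ _ α r th f q0 qκ (q1.trans e2) N0 τ0 h e2
        (by positivity) j6)
      fun α r th f => hL M M3 κ q _ e _ α r th f q0 qκ κa (q1.trans e1) (by positivity) hc1 e1 j5)
  have m0 : 0 < max (β ^ 4 * c / 6) c0 := lt_max_of_lt_right c00
  refine ⟨κ, q, _, K0, n0, κ0, κε.trans εε, q0,
    q2.trans (mul_le_mul_of_nonneg_right εε κ0.le), by positivity, ?_, H⟩
  have := le_max_right (β ^ 4 * c / 6) c0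
  gcongr

end Vale.Agent.N146.Sharp
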