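import Vale.Agent.N146.Sharp.RDef

/-!
# P146 (c): the exponents and the shares (helper38)
-/

namespace Vale.Agent.N146.Sharp

open Finset

variable {M : ℕ} {κ q N S τ : ℝ} {j k l : ℕ}

lemma vv_one : vv M κ q N 1 = 1 - κ := by simp [vv]

lemma vv_A (h1 : 2 ≤ j) (h2 : j ≤ M + 2) : vv M κ q N j = 1 - q + ((j : ℝ) - 2) * q / M := by
  unfold vv; rw [if_neg (by omega), if_pos h2]

lemma vv_two : vv M κ q N 2 = 1 - q := by
  rw [vv_A le_rfl (by omega)]; simp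

lemma vv_B (hM : 1 ≤ M) (h1 : M + 2 ≤ j) (h2 : j ≤ 2 * M + 2) :
    vv M κ q N j = 1 + ((j : ℝ) - (M + 2)) * N / M := by
  have hM' : (M : ℝ) ≠ 0 := by positivity
  rcases eq_or_lt_of_le h1 with h | h
  · rw [vv_A (by omega) (by omega), ← h]; push_cast; field_simp; ring
  · unfold vv; rw [if_neg (by omega), if_neg (by omega), if_pos h2]

lemma vv_top (hM : 1 ≤ M) (h1 : 2 * M + 2 ≤ j) : vv M κ q N j = N + 1 := by
  have hM' : (M : ℝ) ≠ 0 := by positivity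
  rcases eq_or_lt_of_le h1 with h | h
  · rw [vv_B hM (by omega) (by omega), ← h]; push_cast; field_simp; ring
  · unfold vv; rw [if_neg (by omega), if_neg (by omega), if_neg (by omega)]

lemma dv_one : vv M κ q N (1 + 1) - vv M κ q N 1 = κ - q := by
  rw [show 1 + 1 = 2 from rfl, vv_two, vv_one]; ring

lemma dv_A (h1 : 2 ≤ j) (h2 : j ≤ M + 1) : vv M κ q N (j + 1) - vv M κ q N j = q / M := by
  rw [vv_A (by omega) (by omega), vv_A h1 (by omega)]; push_cast; ring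

lemma dv_B (hM : 1 ≤ M) (h1 : M + 2 ≤ j) (h2 : j ≤ 2 * M + 1) :
    vv M κ q N (j + 1) - vv M κ q N j = N / M := by
  rw [vv_B hM (by omega) (by omega), vv_B hM h1 (by omega)]; push_cast; ring

lemma dv_top (hM : 1 ≤ M) (h1 : 2 * M + 2 ≤ j) : vv M κ q N (j + 1) - vv M κ q N j = 0 := by
  rw [vv_top hM (by omega), vv_top hM h1]; ring

lemma dv_nonneg (hM : 1 ≤ M) (hq : 0 ≤ q) (hqκ : q ≤ κ) (hN : 0 ≤ N) (h1 : 1 ≤ j) :
    0 ≤ vv M κ q N (j + 1) - vv M κ q N j := by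
  rcases eq_or_lt_of_le h1 with h | h
  · rw [← h, dv_one]; linarith
  by_cases h2 : j ≤ M + 1
  · rw [dv_A h h2]; positivity
  by_cases h3 : j ≤ 2 * M + 1
  · rw [dv_B hM (by omega) h3]; positivity
  · rw [dv_top hM (by omega)]

lemma vv_mono (hM : 1 ≤ M) (hq : 0 ≤ q) (hqκ : q ≤ κ) (hN : 0 ≤ N) (h1 : 1 ≤ j) (hjk : j ≤ k) :
    vv M κ q N j ≤ vv M κ q N k := by
  induction k, hjk using Nat.le_induction with
  | base => exact le_rfl
  | succ k hk ih => linarith [dv_nonneg (j := k) hM hq hqκ hN (by omega)]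

/-- the steps on the two bundles -/
lemma dv_mem (hM : 1 ≤ M) (hqN : q ≤ N) (h1 : 2 ≤ j) (h2 : j ≤ 2 * M + 1) :
    q / M ≤ vv M κ q N (j + 1) - vv M κ q N j ∧ vv M κ q N (j + 1) - vv M κ q N j ≤ N / M := by
  have hM' : (0 : ℝ) < M := by positivity
  have h := div_le_div_of_nonneg_right hqN hM'.le
  by_cases h3 : j ≤ M + 1
  · rw [dv_A h1 h3]; exact ⟨le_rfl, h⟩
  · rw [dv_B hM (by omega) h2]; exact ⟨h, le_rfl⟩

lemma vv_mid (hM : 1 ≤ M) : vv M κ q N (M + 2) = 1 := by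
  rw [vv_B hM le_rfl (by omega)]; push_cast; ring

lemma vv_le_one (hM : 1 ≤ M) (hq : 0 ≤ q) (hqκ : q ≤ κ) (hN : 0 ≤ N) (h1 : 1 ≤ j)
    (h2 : j ≤ M + 2) : vv M κ q N j ≤ 1 := by
  rw [← vv_mid (κ := κ) (q := q) (N := N) hM]; exact vv_mono hM hq hqκ hN h1 h2

lemma vv_le (hM : 1 ≤ M) (hq : 0 ≤ q) (hqκ : q ≤ κ) (hN : 0 ≤ N) (h1 : 1 ≤ j) :
    vv M κ q N j ≤ N + 1 := by
  rw [← vv_top (κ := κ) (q := q) (j := j + (2 * M + 2)) hM (by omega)]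
  exact vv_mono hM hq hqκ hN h1 (by omega)

lemma vv_ge (hM : 1 ≤ M) (hq : 0 ≤ q) (hqκ : q ≤ κ) (hN : 0 ≤ N) (h1 : 1 ≤ j) :
    1 - κ ≤ vv M κ q N j := by
  rw [← vv_one (M := M) (q := q) (N := N)]; exact vv_mono hM hq hqκ hN le_rfl h1

lemma vv_ge' (hM : 1 ≤ M) (hq : 0 ≤ q) (hqκ : q ≤ κ) (hN : 0 ≤ N) (h1 : 2 ≤ j) :
    1 - q ≤ vv M κ q N j := by
  rw [← vv_two (M := M) (κ := κ) (N := N)]; exact vv_mono hM hq hqκ hN (by omega) h1

lemma TT_A (h : j ≤ M + 1) : TT M S τ j = 3 * τ + S * ((M : ℝ) + 1 - j) / M := by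
  unfold TT; rw [if_pos h]

lemma TT_B (hM : 1 ≤ M) (h1 : M + 1 ≤ j) (h2 : j ≤ 2 * M + 1) :
    TT M S τ j = 2 * τ + τ * (2 * (M : ℝ) + 1 - j) / M := by
  have hM' : (M : ℝ) ≠ 0 := by positivity
  rcases eq_or_lt_of_le h1 with h | h
  · rw [TT_A (by omega), ← h]; push_cast; field_simp; ring
  · unfold TT; rw [if_neg (by omega), if_pos h2]

lemma TT_one (hM : 1 ≤ M) : TT M S τ 1 = S + 3 * τ := by
  have hM' : (M : ℝ) ≠ 0 := by positivity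
  rw [TT_A (by omega)]; push_cast; field_simp; ring

lemma TT_mid : TT M S τ (M + 1) = 3 * τ := by
  rw [TT_A le_rfl]; push_cast; ring

lemma TT_P (hM : 1 ≤ M) : TT M S τ (2 * M + 1) = 2 * τ := by
  rw [TT_B hM (by omega) le_rfl]; push_cast; ring

lemma TT_P1 : TT M S τ (2 * M + 2) = τ := by
  unfold TT; rw [if_neg (by omega), if_neg (by omega), if_pos rfl]

lemma TT_top (h : 2 * M + 3 ≤ j) : TT M S τ j = 0 := by
  unfold TT; rw [if_neg (by omega), if_neg (by omega), if_neg (by omega)]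

lemma dT_A (h2 : j + 1 ≤ M + 1) : TT M S τ j - TT M S τ (j + 1) = S / M := by
  rw [TT_A (by omega), TT_A h2]; push_cast; ring

lemma dT_B (hM : 1 ≤ M) (h1 : M + 1 ≤ j) (h2 : j + 1 ≤ 2 * M + 1) :
    TT M S τ j - TT M S τ (j + 1) = τ / M := by
  rw [TT_B hM h1 (by omega), TT_B hM (by omega) h2]; push_cast; ring

lemma dT_nonneg (hM : 1 ≤ M) (hS : 0 ≤ S) (hτ : 0 ≤ τ) (j : ℕ) :
    0 ≤ TT M S τ j - TT M S τ (j + 1) := by
  by_cases h1 : j + 1 ≤ M + 1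
  · rw [dT_A h1]; positivity
  by_cases h2 : j + 1 ≤ 2 * M + 1
  · rw [dT_B hM (by omega) h2]; positivity
  by_cases h3 : j = 2 * M + 1
  · rw [h3, TT_P hM, TT_P1]; linarith
  by_cases h4 : j = 2 * M + 2
  · rw [h4, TT_P1, TT_top le_rfl]; linarith
  · rw [TT_top (by omega), TT_top (by omega)]; linarith

lemma TT_anti (hM : 1 ≤ M) (hS : 0 ≤ S) (hτ : 0 ≤ τ) (hjk : j ≤ k) : TT M S τ k ≤ TT M S τ j := by
  induction k, hjk using Nat.le_induction with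
  | base => exact le_rfl
  | succ k hk ih => linarith [dT_nonneg hM hS hτ k]

lemma TT_nonneg (hM : 1 ≤ M) (hS : 0 ≤ S) (hτ : 0 ≤ τ) (j : ℕ) : 0 ≤ TT M S τ j := by
  rw [← TT_top (S := S) (τ := τ) (M := M) (j := j + (2 * M + 3)) (by omega)]
  exact TT_anti hM hS hτ (by omega)

lemma TT_le (hM : 1 ≤ M) (hS : 0 ≤ S) (hτ : 0 ≤ τ) (h : 1 ≤ j) : TT M S τ j ≤ S + 3 * τ := by
  rw [← TT_one hM]; exact TT_anti hM hS hτ h

end Vale.Agent.N146.Sharp
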