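import Vale.Agent.N146.Sharp.Defs
import Vale.Agent.N146.Sharp.VT
import Vale.Agent.P146.H479.ThUp
import Vale.Agent.P146.H479.Move

/-!
# P146 (c): the law (helper38)
-/

namespace Vale.Agent.N146.Sharp

open Finset
open Vale.Agent.P157 Vale.Agent.P157.Lv Vale.Agent.P157.Lv.Sy
open Vale.Agent.P146 Vale.Agent.P146.U
open Vale.Agent.P146.H93 (skS Em linS_sk)
open Vale.Agent.P146.H479 (Na Rq Tq QB QW)
open Vale.Agent.P146.H758 (tv Ap Pu)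
open Vale.Agent.P146.H186 (cSK)
open Vale.Agent.P146.H295 (gg spn zs)
open Vale.Agent.P146.H379.Row (bt2 NL FdA ch)

/-- the parameters of the law -/
structure Pa where
  n : ℕ
  M : ℕ
  J : ℕ
  β : ℝ
  u : ℝ
  κ : ℝ
  q : ℝ
  N : ℝ
  S : ℝ
  τ : ℝ

lemma tv_succ (l : ℕ) (b : ℕ → ℝ) : tv (l + 1) b = tv l b + b (l + 1) ^ 2 := by
  unfold tv; rw [sum_range_succ]

lemma tv_add (a d : ℕ) (b : ℕ → ℝ) :
    tv (a + d) b = tv a b + ∑ j ∈ Ico (a + 1) (a + d + 1), b j ^ 2 := by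
  induction d with
  | zero => simp
  | succ d ih =>
    rw [← add_assoc, tv_succ, ih, sum_Ico_succ_top (by omega : a + 1 ≤ a + d + 1)]
    ring

lemma tv_le {a K : ℕ} (h : a ≤ K) (b : ℕ → ℝ) :
    tv K b = tv a b + ∑ j ∈ Ico (a + 1) (K + 1), b j ^ 2 := by
  obtain ⟨d, rfl⟩ := Nat.exists_eq_add_of_le h
  exact tv_add a d b

lemma tv_mono {a K : ℕ} (h : a ≤ K) (b : ℕ → ℝ) : tv a b ≤ tv K b := by
  rw [tv_le h b]
  have : 0 ≤ ∑ j ∈ Ico (a + 1) (K + 1), b j ^ 2 := sum_nonneg fun _ _ => sq_nonneg _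
  linarith

lemma bt2_tv (n : ℕ) (b : ℕ → ℝ) (l : ℕ) : bt2 n b l = n * tv l b := by
  unfold bt2 tv
  rw [← Finset.mul_sum, Fin.sum_univ_eq_sum_range (fun q => b (q + 1) ^ 2) l]

lemma em_mlow {Q J : ℕ} {m : ℕ → ℝ} (hm : Em (Q + J) m) (hQ : 1 ≤ Q) : Em Q (mlow Q m) where
  m0 := by simp [mlow, hm.m0]
  mK := by simp [mlow]
  mono := fun l hl => by
    unfold mlow
    rw [if_pos hl]
    split_ifs with h
    · exact hm.mono l (by omega)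
    · exact H479.em_le_one hm (by omega)
  pos := by unfold mlow; rw [if_pos hQ]; exact hm.pos

lemma mlow_le {Q j : ℕ} (m : ℕ → ℝ) (h : j ≤ Q) : mlow Q m j = m j := if_pos h

lemma na_mono {Q K : ℕ} {b : ℕ → ℝ} (h : Na K b) (hQ : Q ≤ K) : Na Q b :=
  fun j h1 h2 => h j h1 (h2.trans hQ)

set_option linter.unusedSectionVars false

namespace Pa

variable (P : Pa)

/-- the last low level -/
abbrev Q : ℕ := 2 * P.M + 3

/-- the number of levels -/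
abbrev K : ℕ := P.Q + P.J

/-- the exponents in units -/
noncomputable abbrev v : ℕ → ℝ := vv P.M P.κ P.q P.N

/-- the shares in units -/
noncomputable abbrev T : ℕ → ℝ := TT P.M P.S P.τ

/-- the exponents -/
noncomputable def m (j : ℕ) : ℝ :=
  if j = 0 then 0 else if j ≤ P.Q then P.v j * P.u
  else if j ≤ P.K then ((j : ℝ) - P.Q) / (P.J + 1) else 1

/-- the shares -/
noncomputable def s (j : ℕ) : ℝ :=
  if j ≤ 1 then 1 - P.T 1 * P.u ^ 2 else (P.T (j - 1) - P.T j) * P.u ^ 2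

/-- the amplitudes of the bonds -/
noncomputable def b (j : ℕ) : ℝ := P.β / √P.n * √(P.s j)

/-- admissible parameters -/
structure Ad : Prop where
  n2 : 2 ≤ P.n
  M1 : 1 ≤ P.M
  J3 : 3 ≤ P.J
  β1 : 1 < P.β
  u0 : 0 < P.u
  q0 : 0 < P.q
  qκ : P.q ≤ P.κ
  κ4 : P.κ ≤ 1 / 4
  N8 : 8 ≤ P.N
  S0 : 0 < P.S
  τ0 : 0 < P.τ
  uJ : 2 * ((P.N + 1) * P.u) ≤ 1 / (P.J + 1)
  Su : (P.S + 3 * P.τ) * P.u ^ 2 ≤ 1 / 2

variable {P} {j k l a : ℕ}

lemma m_low (h1 : 1 ≤ j) (h2 : j ≤ P.Q) : P.m j = P.v j * P.u := by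
  unfold m; rw [if_neg (by omega), if_pos h2]

lemma m_deep (h1 : 1 ≤ j) (h2 : j ≤ P.J) : P.m (P.Q + j) = j / (P.J + 1) := by
  unfold m
  rw [if_neg (by omega), if_neg (by omega), if_pos (by show P.Q + j ≤ P.Q + P.J; omega)]
  push_cast; ring

lemma m_last : P.m (P.K + 1) = 1 := by
  unfold m
  rw [if_neg (by omega), if_neg (by show ¬ P.Q + P.J + 1 ≤ P.Q; omega), if_neg (by omega)]

namespace Ad

variable (A : P.Ad)
include A

lemma n0 : 0 < P.n := by have := A.n2; omega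
lemma nR : (0 : ℝ) < P.n := Nat.cast_pos.2 A.n0
lemma β0 : 0 < P.β := by linarith [A.β1]
lemma N0 : 0 < P.N := by linarith [A.N8]
lemma κ0 : 0 < P.κ := A.q0.trans_le A.qκ
lemma qN : P.q ≤ P.N := by linarith [A.qκ, A.κ4, A.N8]
lemma MR : (0 : ℝ) < P.M := Nat.cast_pos.2 A.M1
lemma K0 : 0 < P.K := by show 0 < 2 * P.M + 3 + P.J; omega

lemma v_mono (h1 : 1 ≤ j) (h : j ≤ k) : P.v j ≤ P.v k :=
  vv_mono A.M1 A.q0.le A.qκ A.N0.le h1 h
lemma dv0 (h1 : 1 ≤ j) : 0 ≤ P.v (j + 1) - P.v j := dv_nonneg A.M1 A.q0.le A.qκ A.N0.le h1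
lemma v_le (h1 : 1 ≤ j) : P.v j ≤ P.N + 1 := vv_le A.M1 A.q0.le A.qκ A.N0.le h1
lemma v_ge (h1 : 1 ≤ j) : 1 - P.κ ≤ P.v j := vv_ge A.M1 A.q0.le A.qκ A.N0.le h1
lemma v_half (h1 : 1 ≤ j) : 1 / 2 ≤ P.v j := by linarith [A.v_ge h1, A.κ4]
lemma v_Q : P.v P.Q = P.N + 1 := vv_top A.M1 (by show 2 * P.M + 2 ≤ 2 * P.M + 3; omega)
lemma T_nonneg (j : ℕ) : 0 ≤ P.T j := TT_nonneg A.M1 A.S0.le A.τ0.le j
lemma T_le (h : 1 ≤ j) : P.T j ≤ P.S + 3 * P.τ := TT_le A.M1 A.S0.le A.τ0.le h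
lemma T_anti (h : j ≤ k) : P.T k ≤ P.T j := TT_anti A.M1 A.S0.le A.τ0.le h

lemma Tu (h : 1 ≤ j) : 0 ≤ P.T j * P.u ^ 2 ∧ P.T j * P.u ^ 2 ≤ (P.S + 3 * P.τ) * P.u ^ 2 :=
  ⟨mul_nonneg (A.T_nonneg j) (sq_nonneg _),
    mul_le_mul_of_nonneg_right (A.T_le h) (sq_nonneg _)⟩

lemma m_Q : P.m P.Q = (P.N + 1) * P.u := by
  rw [m_low (by show 1 ≤ 2 * P.M + 3; omega) le_rfl, A.v_Q]

lemma m_Q1 : P.m (P.Q + 1) = 1 / (P.J + 1) := by
  rw [m_deep le_rfl (by have := A.J3; omega)]; push_cast; ring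

lemma m_one : P.m 1 = (1 - P.κ) * P.u := by
  rw [m_low le_rfl (by show 1 ≤ 2 * P.M + 3; omega)]
  show vv P.M P.κ P.q P.N 1 * P.u = _
  rw [vv_one]

lemma m_half (h1 : 1 ≤ j) (h2 : j ≤ P.Q) : P.u / 2 ≤ P.m j := by
  rw [m_low h1 h2]
  have := mul_le_mul_of_nonneg_right (A.v_half h1) A.u0.le
  linarith

lemma m_le (h1 : 1 ≤ j) (h2 : j ≤ P.Q) : P.m j ≤ (P.N + 1) * P.u := by
  rw [m_low h1 h2]
  exact mul_le_mul_of_nonneg_right (A.v_le h1) A.u0.le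

lemma Nu0 : 0 < (P.N + 1) * P.u := mul_pos (by linarith [A.N0]) A.u0

lemma Nu1 : 2 * ((P.N + 1) * P.u) ≤ 1 := by
  refine A.uJ.trans ?_
  rw [div_le_one (by positivity)]
  have : (0 : ℝ) ≤ P.J := Nat.cast_nonneg _
  linarith

lemma u1 : P.u ≤ 1 := by nlinarith [A.Nu1, A.N8, A.u0]

lemma em : Em P.K P.m where
  m0 := by simp [m]
  mK := m_last
  mono := fun l hl => by
    have hJ : (0 : ℝ) < P.J + 1 := by positivity
    have hu := A.u0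
    rcases Nat.eq_zero_or_pos l with h0 | h0
    · rw [h0, zero_add, A.m_one]
      have : P.m 0 = 0 := by simp [m]
      rw [this]
      exact mul_nonneg (by linarith [A.κ4]) hu.le
    rcases lt_trichotomy l P.Q with h | h | h
    · rw [m_low h0 h.le, m_low (by omega) h]
      exact mul_le_mul_of_nonneg_right (A.v_mono h0 (by omega)) hu.le
    · rw [h, A.m_Q, A.m_Q1]
      linarith [A.uJ, A.Nu0]
    · obtain ⟨i, rfl⟩ := Nat.exists_eq_add_of_le h.le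
      have hi : i ≤ P.J := by
        have : P.Q + i ≤ P.Q + P.J := hl
        omega
      rw [m_deep (by omega) hi]
      rcases eq_or_lt_of_le hi with h2 | h2
      · rw [h2, m_last, div_le_one hJ]; linarith
      · rw [add_assoc, m_deep (by omega) (by omega)]
        refine div_le_div_of_nonneg_right ?_ hJ.le
        push_cast; linarith
  pos := by
    rw [A.m_one]
    exact mul_pos (by linarith [A.κ4]) A.u0

lemma s_nonneg (j : ℕ) : 0 ≤ P.s j := by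
  unfold s
  split_ifs with h
  · linarith [(A.Tu (le_refl 1)).2, A.Su]
  · exact mul_nonneg (by linarith [A.T_anti (show j - 1 ≤ j by omega)]) (sq_nonneg _)

lemma b_sq (j : ℕ) : P.b j ^ 2 = P.β ^ 2 / P.n * P.s j := by
  unfold b
  rw [mul_pow, div_pow, Real.sq_sqrt A.nR.le, Real.sq_sqrt (A.s_nonneg j)]

lemma b_nonneg (j : ℕ) : 0 ≤ P.b j :=
  mul_nonneg (div_nonneg A.β0.le (Real.sqrt_nonneg _)) (Real.sqrt_nonneg _)

lemma na (K : ℕ) : Na K P.b := fun j _ _ => A.b_nonneg j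

omit A in
lemma s_succ (h : 1 ≤ j) : P.s (j + 1) = (P.T j - P.T (j + 1)) * P.u ^ 2 := by
  unfold s; rw [if_neg (by omega)]; rfl

omit A in
lemma b_deep (h : P.Q < j) : P.b j = 0 := by
  obtain ⟨i, rfl⟩ : ∃ i, j = i + 1 := ⟨j - 1, by omega⟩
  have hi : 2 * P.M + 3 ≤ i := by
    have : 2 * P.M + 3 < i + 1 := h
    omega
  unfold b
  rw [s_succ (by omega)]
  show _ * √((TT P.M P.S P.τ i - TT P.M P.S P.τ (i + 1)) * _) = 0
  rw [TT_top hi, TT_top (by omega)]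
  simp

lemma dp : Dp P.Q P.J P.m P.b :=
  ⟨A.em, by show 1 ≤ 2 * P.M + 3; omega, fun _ h1 h2 => m_deep h1 h2, fun _ h => b_deep h⟩

lemma tv_b (h : 1 ≤ l) : tv l P.b = P.β ^ 2 / P.n * (1 - P.T l * P.u ^ 2) := by
  induction l, h using Nat.le_induction with
  | base =>
    rw [show (1 : ℕ) = 0 + 1 from rfl, tv_succ, A.b_sq]
    simp [tv, s]
  | succ l hl ih => rw [tv_succ, ih, A.b_sq, s_succ hl]; ring

lemma tv_top (h : P.Q ≤ l) : tv l P.b = P.β ^ 2 / P.n := by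
  have h' : 2 * P.M + 3 ≤ l := h
  rw [A.tv_b (by omega)]
  show _ * (1 - TT P.M P.S P.τ l * _) = _
  rw [TT_top h']; ring

lemma sum_top (h1 : 1 ≤ a) (h2 : a ≤ P.Q) :
    ∑ j ∈ Ico (a + 1) (P.Q + 1), P.b j ^ 2 = P.β ^ 2 / P.n * (P.T a * P.u ^ 2) := by
  have h := tv_le h2 P.b
  rw [A.tv_top le_rfl, A.tv_b h1] at h
  linarith

lemma bt2_eq (h : 1 ≤ l) : bt2 P.n P.b l = P.β ^ 2 * (1 - P.T l * P.u ^ 2) := by
  rw [bt2_tv, A.tv_b h]
  have := A.nR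
  field_simp

lemma nb_sq (j : ℕ) : P.n * P.b j ^ 2 = P.β ^ 2 * P.s j := by
  rw [A.b_sq]
  have := A.nR
  field_simp

lemma b_A (h1 : 2 ≤ j) (h2 : j ≤ P.M + 1) :
    P.b j ^ 2 = P.β ^ 2 / P.n * (P.S / P.M * P.u ^ 2) := by
  obtain ⟨i, rfl⟩ : ∃ i, j = i + 1 := ⟨j - 1, by omega⟩
  rw [A.b_sq, s_succ (by omega)]
  show _ * ((TT P.M P.S P.τ i - TT P.M P.S P.τ (i + 1)) * _) = _
  rw [dT_A h2]

lemma b_top : P.τ * P.u ^ 2 ≤ P.n * P.b (P.Q - 1) ^ 2 ∧ P.τ * P.u ^ 2 ≤ P.n * P.b P.Q ^ 2 := by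
  have hβ : 1 ≤ P.β ^ 2 := one_le_pow₀ A.β1.le
  have h0 : 0 ≤ P.τ * P.u ^ 2 := mul_nonneg A.τ0.le (sq_nonneg _)
  have e1 : P.s (P.Q - 1) = P.τ * P.u ^ 2 := by
    rw [show P.Q - 1 = 2 * P.M + 1 + 1 from rfl, s_succ (by omega)]
    show (TT P.M P.S P.τ (2 * P.M + 1) - TT P.M P.S P.τ (2 * P.M + 2)) * _ = _
    rw [TT_P A.M1, TT_P1]; ring
  have e2 : P.s P.Q = P.τ * P.u ^ 2 := by
    rw [show P.Q = 2 * P.M + 2 + 1 from rfl, s_succ (by omega)]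
    show (TT P.M P.S P.τ (2 * P.M + 2) - TT P.M P.S P.τ (2 * P.M + 3)) * _ = _
    rw [TT_P1, TT_top le_rfl]; ring
  rw [A.nb_sq, A.nb_sq, e1, e2]
  constructor <;> nlinarith

end Ad

end Pa

end Vale.Agent.N146.Sharp
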