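import Vale.Agent.P146.H97.CG2

/-!
# P146, the sharp constant: removal of a small field below a head with a large exponent
-/

open MeasureTheory ProbabilityTheory

namespace Vale.Agent.N146.Sharp

open Vale.Agent.P157 Vale.Agent.P157.Lv Vale.Agent.P157.Lv.Sy Vale.Agent.P146
open Vale.Agent.P146.H425 Vale.Agent.P146.R1 Vale.Agent.P146.H332 Vale.Agent.P146.H325
open Vale.Agent.P146.U Vale.Agent.P146.H97 Vale.Agent.P146.H93 Vale.Agent.P146.H479
open Vale.Agent.P146.H112 Vale.Agent.P146.H379.FS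

variable {n : ℕ} {β : ℝ}

/-- the exponents `2x, 4x, ..` on the shares `K0, R K0, ..` against one exponent `x0 ≤ x` -/
theorem tailG (hβ : 0 ≤ β) (h2 : Ex2Out β) (hL : LStar β) : ∃ C : ℝ, ∃ n0 : ℕ, 0 < C ∧
    ∀ n : ℕ, n0 ≤ n → ∀ (x0 x K0 : ℝ) (N : ℕ) (V : ℕ → (Pair n → ℝ) → ℝ), 0 < x0 → x0 ≤ x →
    (n : ℝ) ^ (-(1 / 6) : ℝ) ≤ x → x ≤ (n : ℝ) ^ (-(21 / 200) : ℝ) → 4 * x ^ 2 ≤ K0 →
    RR ^ N * K0 ≤ 1 / 2 → 1 / 2 ≤ RR ^ (N + 1) * K0 →
    Rep (Fsk n β) x0 (2 * x) K0 (V 0) →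
    (∀ j < N, V (j + 1) = W (2 ^ (j + 1) * x) √(RR ^ (j + 1) * K0 - RR ^ j * K0) (V j)) →
    W (2 ^ (N + 1) * x) √(1 - RR ^ N * K0) (V N) 0 ≤
      W x0 √(1 - K0) (V 0) 0 + C * (n * x ^ 5) * (K0 / x ^ 2) ^ (-(1 / 1000) : ℝ) := by
  obtain ⟨M, Λ1, CL, n1, hM, hCL, hHy⟩ := hy_sk hβ h2 hL
  obtain ⟨C, hC, hch⟩ := chain (Λ1 := Λ1) hM hCL
  have hR2 := RR_two
  have hR4 := RR_four
  have hR0 : 0 < RR := by linarith
  obtain ⟨n2, hn2⟩ : ∃ n2 : ℕ, 2 ^ 1000 ≤ n2 := ⟨_, le_rfl⟩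
  refine ⟨128 * C * RR, max n1 n2, by positivity,
    fun n hn x0 x K0 N V hy0 hyx hx hx' hK hN hN1 hV0 hVs => ?_⟩
  have hn1 : n1 ≤ n := (le_max_left _ _).trans hn
  have hn1000 : 2 ^ 1000 ≤ n := hn2.trans ((le_max_right _ _).trans hn)
  clear hn2
  have hn0 : (0 : ℝ) < n := by
    have h3 : 0 < n := lt_of_lt_of_le (by positivity) hn1000
    exact_mod_cast h3
  have hx0 : 0 < x := (Real.rpow_pos_of_pos hn0 _).trans_le hx
  have hx2 : 0 < x ^ 2 := by positivity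
  have hK0 : 0 < K0 := by linarith
  have htop := top_small' hn1000 hx hx' hK hN
  clear hn1000
  -- the sequences
  obtain ⟨b, hb⟩ : ∃ b : ℕ → ℝ, ∀ j, b j = 2 ^ j * x := ⟨fun j => 2 ^ j * x, fun _ => rfl⟩
  obtain ⟨K, hKd⟩ : ∃ K : ℕ → ℝ, ∀ j, K j = if j ≤ N then RR ^ j * K0 else 1 :=
    ⟨fun j => if j ≤ N then RR ^ j * K0 else 1, fun _ => rfl⟩
  obtain ⟨V', hV'⟩ : ∃ V' : ℕ → (Pair n → ℝ) → ℝ, ∀ j, V' j = if j ≤ N then V j else
      W (2 ^ (N + 1) * x) √(1 - RR ^ N * K0) (V N) :=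
    ⟨fun j => if j ≤ N then V j else W (2 ^ (N + 1) * x) √(1 - RR ^ N * K0) (V N), fun _ => rfl⟩
  have hKj : ∀ j ≤ N, K j = RR ^ j * K0 := fun j hj => by rw [hKd, if_pos hj]
  have hKN : K (N + 1) = 1 := by rw [hKd, if_neg (by omega)]
  have hVj : ∀ j ≤ N, V' j = V j := fun j hj => by rw [hV', if_pos hj]
  have hVN : V' (N + 1) = W (2 ^ (N + 1) * x) √(1 - RR ^ N * K0) (V N) := by
    rw [hV', if_neg (by omega)]
  have hbp : ∀ j, 0 < b j := fun j => by rw [hb]; positivity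
  have hbm : ∀ j, b j ≤ b (j + 1) := fun j => by
    rw [hb, hb, pow_succ]
    have : 0 < 2 ^ j * x := by positivity
    linarith
  have hbmono : Monotone b := monotone_nat_of_le_succ hbm
  have hb0 : b 0 = x := by rw [hb, pow_zero, one_mul]
  have hRj : ∀ j : ℕ, (1 : ℝ) ≤ RR ^ j := fun j => one_le_pow₀ (by linarith)
  have hKmono : ∀ j ≤ N, K j ≤ 1 / 2 := by
    intro j hj
    rw [hKj j hj]
    refine le_trans (mul_le_mul_of_nonneg_right ?_ hK0.le) hN
    exact pow_le_pow_right₀ (by linarith) hj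
  have hK2 : ∀ j < N + 1, 2 * K j ≤ K (j + 1) := by
    intro j hj
    rcases eq_or_lt_of_le (Nat.lt_succ_iff.1 hj) with rfl | hlt
    · rw [hKN, hKj _ le_rfl]
      linarith
    · rw [hKj j hlt.le, hKj (j + 1) hlt, pow_succ]
      have h3 : 0 < RR ^ j * K0 := by positivity
      have h4 : RR ^ j * RR * K0 = RR * (RR ^ j * K0) := by ring
      rw [h4]
      exact mul_le_mul_of_nonneg_right hR2 h3.le
  have hratio : ∀ j < N + 1, K (j + 1) / K j ≤ 2 * RR := by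
    intro j hj
    rcases eq_or_lt_of_le (Nat.lt_succ_iff.1 hj) with rfl | hlt
    · rw [hKN, hKj _ le_rfl, div_le_iff₀ (by positivity)]
      rw [pow_succ] at hN1
      linarith
    · rw [hKj j hlt.le, hKj (j + 1) hlt, pow_succ, div_le_iff₀ (by positivity)]
      have : 0 < RR ^ j * K0 := by positivity
      have h5 : 0 < RR * (RR ^ j * K0) := by positivity
      linarith
  have hbK : ∀ j < N + 1, b (j + 1) ^ 2 ≤ K j := by
    intro j hj
    rw [hKj j (by omega), hb]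
    have e1 : ((2 : ℝ) ^ (j + 1) * x) ^ 2 = 4 ^ j * (4 * x ^ 2) := by
      rw [mul_pow, ← pow_mul, mul_comm (j + 1) 2, pow_mul, pow_succ]
      norm_num
      ring
    rw [e1]
    exact mul_le_mul (pow_le_pow_left₀ (by norm_num) hR4 j) hK (by positivity) (by positivity)
  have hHyj : ∀ j < N + 1, Hy (Fsk n β) n M Λ1 CL x0 (b (j + 1)) := by
    intro j hj
    refine hHy n hn1 x0 (b (j + 1)) hy0 ?_ ?_
    · refine hx.trans ?_
      rw [← hb0]
      exact hbmono (Nat.zero_le _)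
    · refine le_trans ?_ htop
      have := hbmono (show j + 1 ≤ N + 1 by omega)
      rwa [hb (N + 1)] at this
  have hK00 : K 0 = K0 := by rw [hKj 0 (Nat.zero_le _), pow_zero, one_mul]
  have hb1 : b 1 = 2 * x := by rw [hb, pow_one]
  have hmain := hch (Pair n) (Fsk n β) _ _ _ n (AP.c11_Fsk n β) (AP.cv_Fsk n β) hn0 x0 b K V'
    (N + 1) hy0 (by rw [hb1]; linarith) (fun j => hbm (j + 1)) (by rw [hK00]; exact hK0) hK2
    (fun j hj => hKmono j (by omega)) (by rw [hKN]) hbK hHyj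
    (by rw [hVj 0 (Nat.zero_le _), hK00, hb1]; exact hV0)
    (fun j hj => by
      rcases eq_or_lt_of_le (Nat.lt_succ_iff.1 hj) with rfl | hlt
      · rw [hVN, hKN, hKj _ le_rfl, hb, hVj _ le_rfl]
      · rw [hVj _ hlt, hVs j hlt, hVj _ hlt.le, hKj _ hlt, hKj _ hlt.le, hb]) (N + 1) le_rfl
  rw [hKN, sub_self, Real.sqrt_zero, hVN, W_zero hy0, hK00, hVj 0 (Nat.zero_le _)] at hmain
  refine hmain.trans (add_le_add le_rfl ?_)
  -- the sum of the costs
  obtain ⟨P, hP⟩ : ∃ P, P = (K0 / x ^ 2) ^ (-(1 / 1000) : ℝ) := ⟨_, rfl⟩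
  have hP0 : 0 ≤ P := by rw [hP]; positivity
  rw [← hP]
  have hcost : ∀ j ∈ Finset.range (N + 1), cost n C b K j ≤
      64 * C * RR * (n * x ^ 5) * P * (1 / 2) ^ j := by
    intro j hj
    have hj' : j < N + 1 := Finset.mem_range.1 hj
    have h3 : (K j / b (j + 1) ^ 2) ^ (-(1 / 1000) : ℝ) ≤ P * (2 ^ (j + 1) / 2 ^ (7 * j)) := by
      have e1 : K j / b (j + 1) ^ 2 = K0 / x ^ 2 * (RR ^ j / 4 ^ (j + 1)) := by
        rw [hKj j (by omega), hb, mul_pow, ← pow_mul, mul_comm (j + 1) 2, pow_mul]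
        norm_num
        field_simp
      rw [e1, Real.mul_rpow (by positivity) (by positivity), ← hP]
      exact mul_le_mul_of_nonneg_left (RR_rpow j) hP0
    unfold cost
    calc C / 2 * ((n : ℝ) * b (j + 1) ^ 5) * (K (j + 1) / K j) *
          (K j / b (j + 1) ^ 2) ^ (-(1 / 1000) : ℝ)
        ≤ C / 2 * (n * b (j + 1) ^ 5) * (2 * RR) * (P * (2 ^ (j + 1) / 2 ^ (7 * j))) := by
          have hb5 : 0 < b (j + 1) ^ 5 := pow_pos (hbp _) 5
          refine mul_le_mul (mul_le_mul_of_nonneg_left (hratio j hj') (by positivity)) h3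
            (by
              have : 0 < K j := by rw [hKj j (by omega)]; positivity
              positivity) (by positivity)
      _ = 64 * C * RR * (n * x ^ 5) * P * (1 / 2) ^ j := by
          rw [hb, pow_mul, one_div, inv_pow]
          have e2 : ((2 : ℝ) ^ 7) ^ j = (2 ^ j) ^ 7 := by rw [← pow_mul, ← pow_mul, mul_comm]
          have e3 : (2 : ℝ) ^ (j + 1) = 2 * 2 ^ j := pow_succ' 2 j
          rw [e2, e3]
          have hp : (0 : ℝ) < 2 ^ j := by positivity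
          generalize (2 : ℝ) ^ j = u at hp
          field_simp
          ring
  refine (Finset.sum_le_sum hcost).trans ?_
  rw [← Finset.mul_sum]
  have hgeo : ∑ j ∈ Finset.range (N + 1), (1 / 2 : ℝ) ^ j ≤ 2 := by
    have := geom_sum_eq (show (1 / 2 : ℝ) ≠ 1 by norm_num) (N + 1)
    rw [this]
    have h3 : (0 : ℝ) < (1 / 2) ^ (N + 1) := by positivity
    have e1 : ((1 / 2 : ℝ) ^ (N + 1) - 1) / (1 / 2 - 1) = 2 * (1 - (1 / 2) ^ (N + 1)) := by ring
    rw [e1]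
    linarith
  have h5 : 0 ≤ 64 * C * RR * (n * x ^ 5) * P := by positivity
  refine (mul_le_mul_of_nonneg_left hgeo h5).trans (le_of_eq (by ring))

/-- the exponential moment with the spike, any inner part -/
theorem spikeG {x a R E : ℝ} {V0 : (Pair n → ℝ) → ℝ} (hn : 0 < n) (hR : 1 < R) (hx : 0 < x)
    (ha : 0 < a) (hAx : a ≤ 1 / 2) (hLV : Lip V0)
    (hP : ∀ N : ℕ, R ^ N * a ≤ 1 / 2 → 1 / 2 ≤ R * (R ^ N * a) →
      W (2 ^ (N + 1) * x) √(1 - R ^ N * a)
        (VV x (fun j => √(R ^ (j + 1) * a - R ^ j * a)) V0 N) 0 ≤ E) :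
    Real.log (∫ z, Lk n √(n / 2) √(1 - a) (√(1 - a) • z) *
      Real.exp (x * V0 (fun p => (√(1 - a) • z) (Sum.inl p))) ∂(gI (Es n))) ≤
      Real.log (2 * R) / 2 + x * E := by
  have hT : H379.FS.TT n := H310.tt hn
  have hn' : (0 : ℝ) < n := Nat.cast_pos.2 hn
  obtain ⟨N, hN1, hN2⟩ := exists_N hR ha hAx
  have hR0 : 0 < R := by linarith
  have hLV' : Lip fun z : Es n → ℝ => V0 fun p => z (Sum.inl p) := by
    obtain ⟨L, hL, h⟩ := hLV
    refine ⟨L, hL, fun y y' => (h _ _).trans (mul_le_mul_of_nonneg_left ?_ hL)⟩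
    rw [pi_norm_le_iff_of_nonneg (norm_nonneg _)]
    intro p
    exact norm_le_pi_norm (y - y') (Sum.inl p)
  -- the grid
  obtain ⟨K, hK⟩ : ∃ K : ℕ → ℝ, K = fun j => R ^ j * a := ⟨_, rfl⟩
  have hKj : ∀ j, K j = R ^ j * a := fun j => by rw [hK]
  have hK0 : ∀ j, 0 < K j := fun j => by rw [hKj]; positivity
  have hKs : ∀ j, K (j + 1) = R * K j := fun j => by rw [hKj, hKj, pow_succ]; ring
  have hKN : ∀ j ≤ N, K j ≤ 1 / 2 := by
    intro j hj
    refine le_trans ?_ hN1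
    rw [hKj]
    exact mul_le_mul_of_nonneg_right (pow_le_pow_right₀ hR.le hj) ha.le
  have hKm : ∀ j, K j ≤ K (j + 1) := fun j => by
    rw [hKs]
    nlinarith [hK0 j]
  have hr2 : ∀ j ≤ N, √(1 - K j) ^ 2 = 1 - K j := fun j hj =>
    Real.sq_sqrt (by have := hKN j hj; linarith)
  have hs2 : ∀ j, √(K (j + 1) - K j) ^ 2 = K (j + 1) - K j := fun j =>
    Real.sq_sqrt (by have := hKm j; linarith)
  have hl2 : √(n / 2 : ℝ) ^ 2 = n / 2 := Real.sq_sqrt (by positivity)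
  have hlr : ∀ j ≤ N, (n : ℝ) - 2 * √(n / 2 : ℝ) ^ 2 * √(1 - K j) ^ 2 = n * K j := by
    intro j hj
    rw [hl2, hr2 j hj]
    ring
  have hlt : ∀ j ≤ N, 2 * √(n / 2 : ℝ) ^ 2 * √(1 - K j) ^ 2 < n := by
    intro j hj
    have h1 := hlr j hj
    have h2 : 0 < n * K j := mul_pos hn' (hK0 j)
    linarith
  have hlog : Real.exp (Real.log (2 * R) / 2) = √(2 * R) := by
    rw [Real.exp_half, Real.exp_log (by positivity)]
  have hrec := rec_main (κ := Es n) (L := fun j => Lk n √(n / 2) √(1 - K j))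
    (r := fun j => √(1 - K j)) (s := fun j => √(K (j + 1) - K j))
    (ξ := fun _ => Real.log (2 * R) / 2) (F := fun z => V0 fun p => z (Sum.inl p)) (x := x) N
    (fun j _ => hT.eg _ _) (fun j _ => hT.pos _ _) (fun j _ => hT.egi _ _)
    hLV' hx (fun j hj => ?_) (fun j hj => ?_) ?_
  · have hK00 : K 0 = a := by rw [hKj, pow_zero, one_mul]
    simp only [hK00] at hrec
    refine hrec.trans (add_le_add ?_ (mul_le_mul_of_nonneg_left ?_ hx.le))
    · have h1 : ∑ j ∈ Finset.range (N + 1), Real.log (2 * R) / 2 / 2 ^ (j + 1) =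
          Real.log (2 * R) / 2 * ∑ j ∈ Finset.range (N + 1), (1 : ℝ) / 2 ^ (j + 1) := by
        rw [Finset.mul_sum]
        exact Finset.sum_congr rfl fun j _ => by rw [mul_one_div]
      rw [h1]
      have h2 : 0 ≤ Real.log (2 * R) / 2 :=
        div_nonneg (Real.log_nonneg (by linarith)) (by norm_num)
      have h3 := mul_le_mul_of_nonneg_left (geo_le N) h2
      linarith
    · have h1 := hP N hN1 hN2
      have e1 := VV_inl (n := n) hLV hx (fun j => √(K (j + 1) - K j)) N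
      rw [e1, W_inl (lip_VV hLV hx _ N).measurable]
      have e2 : (fun j => √(K (j + 1) - K j)) =
          fun j => √(R ^ (j + 1) * a - R ^ j * a) := by
        funext j
        rw [hKj, hKj]
      rw [e2]
      simp only [Pi.zero_apply]
      rw [hKj]
      exact h1
  · rw [hr2 (j + 1) hj, hr2 j hj.le, hs2]
    ring
  · have h1 := hT.two √(n / 2) √(1 - K j) √(1 - K (j + 1)) √(K (j + 1) - K j)
      (by rw [hr2 (j + 1) hj, hr2 j hj.le, hs2]; ring) (hlt j hj.le)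
    refine h1.trans ?_
    rw [hlr j hj.le, hlr (j + 1) hj, hKs, hlog]
    refine Real.sqrt_le_sqrt ?_
    rw [div_le_iff₀ (mul_pos hn' (hK0 j))]
    have h2 : 0 < R * (n * K j) := mul_pos hR0 (mul_pos hn' (hK0 j))
    linarith
  · have h1 := hT.one √(n / 2) √(1 - K N) (hlt N le_rfl)
    refine h1.trans ?_
    rw [hlr N le_rfl, hlog]
    refine Real.sqrt_le_sqrt ?_
    rw [div_le_iff₀ (mul_pos hn' (hK0 N))]
    have h2 : 1 / 2 ≤ R * K N := by rw [hKj]; exact hN2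
    nlinarith

end Vale.Agent.N146.Sharp
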