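import Vale.Agent.N146.Sharp.Pick

/-!
# P146 (c): tools for the normalisation of the rows (helper38)
-/

namespace Vale.Agent.N146.Sharp

open Finset
open Vale.Agent.P157 Vale.Agent.P157.Lv Vale.Agent.P157.Lv.Sy
open Vale.Agent.P146 Vale.Agent.P146.U
open Vale.Agent.P146.H93 (Cd skS Em linS_sk)
open Vale.Agent.P146.H479 (Na Rq Tq QB QW)
open Vale.Agent.P146.H758 (tv Ap Pu)
open Vale.Agent.P146.H186 (cSK)
open Vale.Agent.P146.H295 (gg spn zs)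
open Vale.Agent.P146.H877x (Hz Lr KV SB)
open Vale.Agent.P146.H379.Row

section num

lemma row_num {β u ρ χ B m G L F c e1 : ℝ} (hβ : 0 < β) (hu : 0 < u) (he : 0 ≤ e1)
    (h1 : |L + F - (ρ * (1 - B * χ ^ 2) + χ * (m * B * ρ ^ 2 + G))| ≤ e1 * u ^ 3 / 4)
    (h2 : |6 * L - c * (B * ρ) ^ 3| ≤ e1 * u ^ 3) :
    |(B * χ ^ 2 - 1) / u ^ 2 * (β * ρ / u) - β * χ * (B / β ^ 2) * (m / u) * (β * ρ / u) ^ 2 -
      β * χ * (G / u ^ 3) + β ^ 4 * c / 6 * (B / β ^ 2) ^ 3 * (β * ρ / u) ^ 3 +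
      β * F / u ^ 3| ≤ β * e1 := by
  have e : (B * χ ^ 2 - 1) / u ^ 2 * (β * ρ / u) -
      β * χ * (B / β ^ 2) * (m / u) * (β * ρ / u) ^ 2 -
      β * χ * (G / u ^ 3) + β ^ 4 * c / 6 * (B / β ^ 2) ^ 3 * (β * ρ / u) ^ 3 + β * F / u ^ 3 =
      β / u ^ 3 * ((L + F - (ρ * (1 - B * χ ^ 2) + χ * (m * B * ρ ^ 2 + G))) -
        (6 * L - c * (B * ρ) ^ 3) / 6) := by
    field_simp
    ring
  have hu3 : 0 < u ^ 3 := by positivity
  rw [e, abs_mul, abs_of_pos (by positivity : 0 < β / u ^ 3)]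
  have a1 := abs_le.1 h1
  have a2 := abs_le.1 h2
  have h0 : 0 ≤ e1 * u ^ 3 := by positivity
  have h3 : |(L + F - (ρ * (1 - B * χ ^ 2) + χ * (m * B * ρ ^ 2 + G))) -
      (6 * L - c * (B * ρ) ^ 3) / 6| ≤ e1 * u ^ 3 := by
    rw [abs_le]
    constructor <;> linarith [a1.1, a1.2, a2.1, a2.2]
  calc _ ≤ β / u ^ 3 * (e1 * u ^ 3) := mul_le_mul_of_nonneg_left h3 (by positivity)
    _ = β * e1 := by field_simp

lemma abs_mul_le' {a b x y : ℝ} (h : |a| ≤ x) (hb : 0 ≤ b) (hy : b ≤ y) : |a * b| ≤ x * y := by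
  rw [abs_mul, abs_of_nonneg hb]
  exact mul_le_mul h hy hb ((abs_nonneg _).trans h)

lemma row_num2 {A a r x y v G g c f E ea ζ σ C V c1 : ℝ}
    (h : |A * r - x * y * v * r ^ 2 - x * G + c * y ^ 3 * r ^ 3 + f| ≤ E) (hA : |A - a| ≤ ea)
    (hx : |x - 1| ≤ ζ) (hy0 : 1 - σ ≤ y) (hy1 : y ≤ 1) (hσ : σ ≤ 1) (hr0 : 0 ≤ r) (hr : r ≤ C)
    (hv0 : 0 ≤ v) (hv : v ≤ V) (hG0 : (1 - σ) * g ≤ G) (hG : G ≤ g) (hg0 : 0 ≤ g)
    (hg : g ≤ V * C ^ 2) (hc0 : 0 ≤ c) (hc : c ≤ c1) :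
    |a * r - v * r ^ 2 - g + c * r ^ 3 + f| ≤
      E + ea * C + (ζ + σ) * (2 * (V * C ^ 2)) + 3 * σ * (c1 * C ^ 3) := by
  have hσ0 : 0 ≤ σ := by linarith
  have hy : 0 ≤ y := by linarith
  have hζ : 0 ≤ ζ := (abs_nonneg _).trans hx
  have hG' : 0 ≤ G := le_trans (mul_nonneg (by linarith) hg0) hG0
  have t1 : |(A - a) * r| ≤ ea * C := abs_mul_le' hA hr0 hr
  have s1 : |x * y - 1| ≤ ζ + σ := by
    have s2 : |(x - 1) * y| ≤ ζ * 1 := abs_mul_le' hx hy hy1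
    have s3 := abs_le.1 s2
    rw [abs_le]
    constructor <;> nlinarith [s3.1, s3.2]
  have t2 : |(x * y - 1) * (v * r ^ 2)| ≤ (ζ + σ) * (V * C ^ 2) :=
    abs_mul_le' s1 (by positivity)
      (mul_le_mul hv (pow_le_pow_left₀ hr0 hr 2) (by positivity) (hv0.trans hv))
  have t3 : |(x - 1) * G| ≤ ζ * (V * C ^ 2) := abs_mul_le' hx hG' (hG.trans hg)
  have t4 : g - G ≤ σ * (V * C ^ 2) := by
    have := mul_le_mul_of_nonneg_left hg hσ0
    linarith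
  have s4 : |1 - y ^ 3| ≤ 3 * σ := by
    have y2 : y ^ 2 ≤ 1 := pow_le_one₀ hy hy1
    have y3 : y ^ 3 ≤ 1 := pow_le_one₀ hy hy1
    rw [abs_of_nonneg (by linarith)]
    have e : 1 - y ^ 3 = (1 - y) * (1 + y + y ^ 2) := by ring
    rw [e]
    calc _ ≤ σ * 3 := mul_le_mul (by linarith) (by linarith) (by positivity) hσ0
      _ = _ := by ring
  have t5 : |(1 - y ^ 3) * (c * r ^ 3)| ≤ 3 * σ * (c1 * C ^ 3) :=
    abs_mul_le' s4 (by positivity)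
      (mul_le_mul hc (pow_le_pow_left₀ hr0 hr 3) (by positivity) (hc0.trans hc))
  have e : a * r - v * r ^ 2 - g + c * r ^ 3 + f =
      (A * r - x * y * v * r ^ 2 - x * G + c * y ^ 3 * r ^ 3 + f) - (A - a) * r +
        (x * y - 1) * (v * r ^ 2) + (x - 1) * G - (g - G) + (1 - y ^ 3) * (c * r ^ 3) := by ring
  have b0 := abs_le.1 h
  have b1 := abs_le.1 t1
  have b2 := abs_le.1 t2
  have b3 := abs_le.1 t3
  have b5 := abs_le.1 t5
  have e2 : (ζ + σ) * (2 * (V * C ^ 2)) =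
      (ζ + σ) * (V * C ^ 2) + ζ * (V * C ^ 2) + σ * (V * C ^ 2) := by ring
  have t6 : 0 ≤ σ * (V * C ^ 2) := mul_nonneg hσ0 (hg0.trans hg)
  rw [e, e2, abs_le]
  constructor <;> linarith [b0.1, b0.2, b1.1, b1.2, b2.1, b2.2, b3.1, b3.2, b5.1, b5.2]

lemma a_num {u xl xP Tl TP T1 Z ζ σ W : ℝ} (hu : 0 < u) (hl : |xl - 1| ≤ ζ) (hP : |xP - 1| ≤ ζ)
    (hζ : ζ ≤ 1) (hx : xP = xl + u ^ 2 * Z) (hZ0 : 0 ≤ Z) (hZ : Z ≤ W) (h0 : 0 ≤ TP)
    (h1 : TP ≤ Tl) (h2 : Tl ≤ T1) (hσ : T1 * u ^ 2 ≤ σ) :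
    |((1 - Tl * u ^ 2) * xl ^ 2 - 1) / u ^ 2 -
      ((((1 - TP * u ^ 2) * xP ^ 2 - 1) / u ^ 2 + TP) - Tl - 2 * Z)| ≤
      (2 * ζ + 4 * σ) * W + 3 * ζ * T1 := by
  have e : ((1 - Tl * u ^ 2) * xl ^ 2 - 1) / u ^ 2 -
      ((((1 - TP * u ^ 2) * xP ^ 2 - 1) / u ^ 2 + TP) - Tl - 2 * Z) =
      (2 - (1 - TP * u ^ 2) * (xP + xl)) * Z + (1 - xl ^ 2) * (Tl - TP) := by
    rw [hx]
    field_simp
    ring
  have a1 := abs_le.1 hl
  have a2 := abs_le.1 hP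
  have hs0 : 0 ≤ TP * u ^ 2 := by positivity
  have hs : TP * u ^ 2 ≤ σ :=
    (mul_le_mul_of_nonneg_right (h1.trans h2) (sq_nonneg u)).trans hσ
  have s1 : |2 - (1 - TP * u ^ 2) * (xP + xl)| ≤ 2 * ζ + 4 * σ := by
    have s2 : |TP * u ^ 2 * (xP + xl)| ≤ σ * 4 :=
      abs_mul_le' (by rwa [abs_of_nonneg hs0]) (by linarith [a1.1, a2.1]) (by linarith [a1.2, a2.2])
    have s3 := abs_le.1 s2
    rw [abs_le]
    constructor <;> nlinarith [s3.1, s3.2, a1.1, a1.2, a2.1, a2.2]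
  have s4 : |1 - xl ^ 2| ≤ 3 * ζ := by
    have s5 : |(xl - 1) * (xl + 1)| ≤ ζ * 3 :=
      abs_mul_le' hl (by linarith [a1.1]) (by linarith [a1.2])
    have e2 : 1 - xl ^ 2 = -((xl - 1) * (xl + 1)) := by ring
    rw [e2, abs_neg]
    linarith
  have t1 := abs_mul_le' s1 hZ0 hZ
  have t2 : |(1 - xl ^ 2) * (Tl - TP)| ≤ 3 * ζ * T1 := abs_mul_le' s4 (by linarith) (by linarith)
  rw [e]
  exact (abs_add_le _ _).trans (add_le_add t1 t2)

end num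

section sk

variable {n K l : ℕ} {m b w : ℕ → ℝ} {θ D κ B0 : ℝ}

lemma ch_eq (hn : 0 < n) : ch n K m b w l = cSK n K m b w (l + 1) / n := by
  have hn' : (0 : ℝ) < n := Nat.cast_pos.2 hn
  rw [H479.cSK_Rq hn, mul_div_cancel_left₀ _ hn'.ne']
  rfl

lemma Vr_eq (hm : Em K m) (hn : 0 < n) (hK : 0 < K) (hl : l ≤ K) :
    Vr n K m b w l = Tq n K m b w l - Rq n K m b w l ^ 2 := by
  have hS : (skS n K m b w).Reg := (linS_sk hm b w).reg
  have hlK : l ≤ (skS n K m b w).K := hl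
  have F := H295.fldP_sk hn hK hm b w (P := fun _ => False) (fun _ h => h.elim)
  show (skS n K m b w).pairEx l (fun x y => (Rov H325.sp x y -
      (skS n K m b w).Rl H325.sp l) ^ 2) =
    (skS n K m b w).pairEx l (fun x y => Rov H325.sp x y ^ 2) - (skS n K m b w).Rl H325.sp l ^ 2
  set S := skS n K m b w with hSd
  have e1 : (fun x y => (Rov H325.sp x y - S.Rl H325.sp l) ^ 2) = fun x y : Fin n → ℤˣ =>
      (Rov H325.sp x y ^ 2 + (-2 * S.Rl H325.sp l) * Rov H325.sp x y) +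
        S.Rl H325.sp l ^ 2 := by
    funext x y
    ring
  rw [e1, hS.pairEx_add hlK (fun x y => Rov H325.sp x y ^ 2 +
    (-2 * S.Rl H325.sp l) * Rov H325.sp x y) (fun _ _ => S.Rl H325.sp l ^ 2),
    hS.pairEx_add hlK (fun x y => Rov H325.sp x y ^ 2)
    (fun x y => (-2 * S.Rl H325.sp l) * Rov H325.sp x y), hS.pairEx_const_mul,
    hS.pairEx_const hlK]
  have e2 : S.Rl H325.sp l = S.pairEx l (Rov H325.sp) := F.Rl_eq_pairEx hlK
  have e3 : S.pairEx l (fun x y => Rov H325.sp x y) = S.Rl H325.sp l := e2.symm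
  rw [e3]
  ring

lemma Vr_nonneg (hm : Em K m) (hl : l ≤ K) : 0 ≤ Vr n K m b w l :=
  (linS_sk hm b w).reg.pairEx_nonneg (show l ≤ (skS n K m b w).K from hl) fun _ _ => sq_nonneg _

lemma Tq_le_one (hm : Em K m) (hn : 0 < n) (hK : 0 < K) (hl : l ≤ K) : Tq n K m b w l ≤ 1 := by
  have hS : (skS n K m b w).Reg := (linS_sk hm b w).reg
  have hlK : l ≤ (skS n K m b w).K := hl
  have F := H295.fldP_sk hn hK hm b w (P := fun _ => False) (fun _ h => h.elim)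
  have h := hS.pairEx_mono hlK (ψ := fun x y => Rov (spn n) x y ^ 2) (ψ' := fun _ _ => (1 : ℝ))
    fun x y => (sq_le_one_iff_abs_le_one _).2 (F.abs_Rov_le x y)
  rwa [hS.pairEx_const hlK] at h

lemma Vr_le_one (hm : Em K m) (hn : 0 < n) (hK : 0 < K) (hl : l ≤ K) : Vr n K m b w l ≤ 1 := by
  rw [Vr_eq hm hn hK hl]
  linarith [Tq_le_one (b := b) (w := w) hm hn hK hl, sq_nonneg (Rq n K m b w l)]

lemma Tq_le_of_four (hm : Em K m) (hl : l ≤ K)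
    (h4 : (skS n K m b w).pairEx l (fun x y => Rov H325.sp x y ^ 4) ≤ θ ^ 4) :
    Tq n K m b w l ≤ θ ^ 2 := by
  have hS : (skS n K m b w).Reg := (linS_sk hm b w).reg
  have hlK : l ≤ (skS n K m b w).K := hl
  have e4 : (fun x y : Fin n → ℤˣ => (Rov H325.sp x y ^ 2) ^ 2) =
      fun x y => Rov H325.sp x y ^ 4 := by
    funext x y
    ring
  have h := H295.pair_sq_le hS hlK (fun x y : Fin n → ℤˣ => Rov H325.sp x y ^ 2)
  rw [e4] at h
  have h5 : (skS n K m b w).pairEx l (fun x y => Rov H325.sp x y ^ 2) ^ 2 ≤ (θ ^ 2) ^ 2 := by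
    calc _ ≤ θ ^ 4 := h.trans h4
      _ = _ := by ring
  exact le_of_sq_le_sq h5 (by positivity)

/-- the mean of the local response -/
lemma Ex_Lr (hm : Em K m) (hl : l ≤ K) (i : Fin n) :
    (skS n K m b w).Ex (fun z _ => Lr (skS n K m b w) l i z) = ch n K m b w l := by
  have hS : (skS n K m b w).Reg := (linS_sk hm b w).reg
  have hd := fun j (hj : j ≤ K) => Ex_dd_sq (b := b) (w := w) hm hj i
  unfold ch
  set S := skS n K m b w with hSd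
  have hlK : l ≤ S.K := hl
  have e1 : S.Ex (fun z _ => Lr S l i z) = S.Ex (fun z x => 1 * Mm S l i z x) :=
    hS.Ex_T hlK (nh_fM hS l i fun _ => 1)
  have hN : ∀ j ∈ Finset.Ico (l + 1) (S.K + 1), Nh (ι := Cd n K) (X := Fin n → ℤˣ) fun z x =>
      S.p j * (H325.sp x i * dd S j i z) := fun j hj => by
    rw [Finset.mem_Ico] at hj
    exact Nh.const_mul _ (Nh.mul (nh_sp i) (Nh.fst (eg_dd hS (by omega) i)))
  have e2 : (fun z x => 1 * Mm S l i z x) = fun z x => (1 : ℝ) -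
      ∑ j ∈ Finset.Ico (l + 1) (S.K + 1), S.p j * (H325.sp x i * dd S j i z) := by
    funext z x
    unfold Mm
    ring
  rw [e1, e2, hS.Ex_sub (fun _ => EG.const 1) (Nh.sum _ hN), hS.Ex_const, hS.Ex_sum _ hN]
  refine congrArg (fun t => 1 - t) (Finset.sum_congr rfl fun j hj => ?_)
  rw [Finset.mem_Ico] at hj
  have hj' : j ≤ S.K := show j ≤ K by omega
  rw [Sy.Ex_const_mul, ← hd j hj']
  have e3 := hS.Ex_mul_T hj' (dep_dd S j i) (eg_dd hS hj' i) (nh_sp i)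
  have e4 : (fun (z : Cd n K → ℝ) (x : Fin n → ℤˣ) => H325.sp x i * dd S j i z) =
      fun z x => dd S j i z * H325.sp x i := by
    funext z x
    ring
  have e5 : (fun (z : Cd n K → ℝ) (_ : Fin n → ℤˣ) => S.T j (fun _ x => H325.sp x i) z ^ 2) =
      fun z _ => dd S j i z * S.T j (fun _ x => H325.sp x i) z := by
    funext z x
    rw [sq]
    rfl
  rw [e4, e5, e3]
  rfl

/-- **The field part of the row from below.** -/
theorem FdA_lo (hm : Em K m) (hn : 0 < n) (hl1 : 1 ≤ l) (hl : l ≤ K)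
    (H : Hz n K m b w l θ D κ B0) :
    w 1 ^ 2 * (ch n K m b w l ^ 2 - KV ^ 2 * (40 * B0) * (θ + κ)) ≤ FdA n K m b w l := by
  have hS : (skS n K m b w).Reg := (linS_sk hm b w).reg
  have hn' : (0 : ℝ) < n := Nat.cast_pos.2 hn
  have h1 : ∀ i : Fin n, w 1 ^ 2 * (ch n K m b w l ^ 2 - KV ^ 2 * (40 * B0) * (θ + κ)) ≤
      ∑ q : Fin l, w (q + 1) ^ 2 * Fk (skS n K m b w) l (q + 1) i := by
    intro i
    have a1 := H877x.Fk_lo hm hn (by omega) hl H 1 i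
    have eV : EG (Lr (skS n K m b w) l i) := eg_Vf hS hl i _
    have a2 := hS.Ex_cs (f := fun z _ => Lr (skS n K m b w) l i z) (g := fun _ _ => (1 : ℝ))
      (Nh.fst eV) (fun _ => EG.const 1)
    simp only [mul_one, one_pow] at a2
    rw [Ex_Lr hm hl i, hS.Ex_const, mul_one] at a2
    have a3 := Finset.single_le_sum (s := Finset.univ)
      (f := fun q : Fin l => w (q + 1) ^ 2 * Fk (skS n K m b w) l (q + 1) i)
      (fun q _ => mul_nonneg (sq_nonneg _) (Fk_nonneg _ _)) (Finset.mem_univ ⟨0, by omega⟩)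
    refine le_trans ?_ a3
    show _ ≤ w (0 + 1) ^ 2 * Fk (skS n K m b w) l (0 + 1) i
    exact mul_le_mul_of_nonneg_left (by linarith) (sq_nonneg _)
  unfold FdA
  have h2 := Finset.sum_le_sum (s := Finset.univ) fun i _ => h1 i
  rw [Finset.sum_const, Finset.card_univ, Fintype.card_fin, nsmul_eq_mul] at h2
  have h3 := mul_le_mul_of_nonneg_left h2 (by positivity : (0 : ℝ) ≤ 1 / n)
  rwa [← mul_assoc, one_div_mul_cancel hn'.ne', one_mul] at h3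

end sk

end Vale.Agent.N146.Sharp
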