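import Vale.Agent.N146.Sharp.NormA

/-!
# P146 (c): the rows in units (helper38)
-/

namespace Vale.Agent.N146.Sharp

open Finset
open Vale.Agent.P157 Vale.Agent.P157.Lv Vale.Agent.P157.Lv.Sy
open Vale.Agent.P146 Vale.Agent.P146.U
open Vale.Agent.P146.H93 (Cd skS Em linS_sk)
open Vale.Agent.P146.H479 (Na Rq Tq QB QW)
open Vale.Agent.P146.H758 (tv Ap Pu)
open Vale.Agent.P146.H186 (cSK)
open Vale.Agent.P146.H295 (gg spn zs)
open Vale.Agent.P146.H877x (Hz Gd Gs Lr KV SB eT)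
open Vale.Agent.P146.H379.Row

set_option linter.unusedSectionVars false

namespace Pa

/-- the overlaps in units -/
noncomputable def r (P : Pa) (w : ℕ → ℝ) (l : ℕ) : ℝ := P.β * Rq P.n P.K P.m P.b w l / P.u

/-- the second moments in units -/
noncomputable def th (P : Pa) (w : ℕ → ℝ) (l : ℕ) : ℝ :=
  P.β ^ 2 * Tq P.n P.K P.m P.b w l / P.u ^ 2

/-- the field terms in units -/
noncomputable def f (P : Pa) (w : ℕ → ℝ) (l : ℕ) : ℝ := P.β * FdA P.n P.K P.m P.b w l / P.u ^ 3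

/-- the numbers -/
structure Nm (P : Pa) (k R g ζ C δ t e1 c1 : ℝ) : Prop where
  k0 : 0 < k
  k2 : k ≤ 1 / 2
  R0 : 0 < R
  NC : P.N + 1 ≤ C
  Cu : C * P.u ≤ 1
  sm : 4 * (C * P.u) ^ 2 * (P.β ^ 2 + 2 * k * P.u ^ 3) ≤ 1 / 4
  δ0 : 0 < δ
  δC : δ ≤ C
  t0 : 0 < t
  t1 : t ≤ 1
  e0 : 0 ≤ e1
  eT : eT P.n (C * P.u) (δ * P.u) (2 * k * P.u ^ 3) (P.β ^ 2) g (P.q / P.M * P.u) R t
    (P.N / P.M * P.u) ≤ e1 * P.u ^ 3
  cs : 20 * (2 * P.M) * g / (P.q / P.M * P.u) ^ 2 ≤ (C * P.u) ^ 2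
  ζ2 : ζ ≤ 1 / 2
  xi : (ζ + (P.S + 3 * P.τ) * P.u ^ 2) * (6 * ((P.N + 1) * (P.β * C) ^ 2) +
    3 * ((P.S + 3 * P.τ) * (P.β * C)) + 3 * (c1 * (P.β * C) ^ 3)) ≤ e1
  φ1 : P.β * (KV ^ 2 * (60 * P.β ^ 2) * (C * P.u + 2 * k * P.u ^ 3)) ≤ e1
  φ2 : KV ^ 2 * (60 * P.β ^ 2) * (C * P.u + 2 * k * P.u ^ 3) ≤ 1 / (8 * P.β ^ 2)

/-- the fourth moments -/
def Fo (P : Pa) (w : ℕ → ℝ) (C : ℝ) : Prop := ∀ l, l ≤ 2 * P.M + 1 →
  (skS P.n P.K P.m P.b w).pairEx l (fun x y => Rov H325.sp x y ^ 4) ≤ (C * P.u) ^ 4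

variable {P : Pa} {w : ℕ → ℝ} {k R ω g gd ζ C δ t e1 c c1 e : ℝ} {j l : ℕ}

lemma PK (h : l ≤ 2 * P.M + 2) : l < P.K := by show l < 2 * P.M + 3 + P.J; omega
lemma PQ (h : l ≤ 2 * P.M + 3) : l ≤ P.Q := h

namespace Ad

variable (A : P.Ad)
include A

lemma dm (h1 : 1 ≤ j) (h2 : j ≤ 2 * P.M + 2) :
    P.m (j + 1) - P.m j = (P.v (j + 1) - P.v j) * P.u := by
  rw [m_low (by omega) (PQ (by omega)), m_low h1 (PQ (by omega))]; ring

lemma gap (h1 : 2 ≤ j) (h2 : j ≤ 2 * P.M + 1) :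
    P.q / P.M * P.u ≤ P.m (j + 1) - P.m j ∧ P.m (j + 1) - P.m j ≤ P.N / P.M * P.u := by
  rw [A.dm (by omega) (by omega)]
  obtain ⟨a1, a2⟩ := dv_mem (κ := P.κ) A.M1 A.qN h1 h2
  exact ⟨mul_le_mul_of_nonneg_right a1 A.u0.le, mul_le_mul_of_nonneg_right a2 A.u0.le⟩

lemma π0 : 0 < P.q / P.M * P.u := mul_pos (div_pos A.q0 A.MR) A.u0

lemma r0 (h : l ≤ P.K) : 0 ≤ P.r w l :=
  div_nonneg (mul_nonneg A.β0.le (H479.Rq_nonneg A.n0 A.em h)) A.u0.le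

lemma r_mono (h : j ≤ l) (hl : l ≤ P.K) : P.r w j ≤ P.r w l := by
  have h1 : Rq P.n P.K P.m P.b w j ≤ Rq P.n P.K P.m P.b w l :=
    H607.Rl_mono (H295.fldP_sk A.n0 A.K0 A.em P.b w (P := fun _ => False) (fun _ h => h.elim)) h hl
  exact div_le_div_of_nonneg_right (mul_le_mul_of_nonneg_left h1 A.β0.le) A.u0.le

lemma th_mono (h : j ≤ l) (hl : l ≤ P.K) : P.th w j ≤ P.th w l :=
  div_le_div_of_nonneg_right (mul_le_mul_of_nonneg_left (H479.Tq_mono A.n0 A.em h hl)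
    (sq_nonneg _)) (sq_nonneg _)

lemma th_sub (h : l ≤ P.K) :
    P.th w l - P.r w l ^ 2 = P.β ^ 2 / P.u ^ 2 * Vr P.n P.K P.m P.b w l := by
  rw [Vr_eq A.em A.n0 A.K0 h]
  unfold th r
  have := A.u0
  field_simp

lemma rt (h : l ≤ P.K) : P.r w l ^ 2 ≤ P.th w l := by
  have h1 := A.th_sub (w := w) h
  have h2 : 0 ≤ P.β ^ 2 / P.u ^ 2 * Vr P.n P.K P.m P.b w l :=
    mul_nonneg (by positivity) (Vr_nonneg A.em h)
  linarith

lemma th0 (h : l ≤ P.K) : 0 ≤ P.th w l := (sq_nonneg _).trans (A.rt h)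

lemma tC (h4 : Fo P w C) (h : l ≤ 2 * P.M + 1) : P.th w l ≤ (P.β * C) ^ 2 := by
  have h1 := Tq_le_of_four A.em (PK (by omega)).le (h4 l h)
  have hu := A.u0
  unfold th
  rw [div_le_iff₀ (by positivity)]
  calc _ ≤ P.β ^ 2 * (C * P.u) ^ 2 := mul_le_mul_of_nonneg_left h1 (sq_nonneg _)
    _ = _ := by ring

lemma rC (h4 : Fo P w C) (hC : 0 ≤ C) (h : l ≤ 2 * P.M + 1) : P.r w l ≤ P.β * C :=
  le_of_sq_le_sq ((A.rt (PK (by omega)).le).trans (A.tC h4 h)) (mul_nonneg A.β0.le hC)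

lemma RqC (h4 : Fo P w C) (hC : 0 ≤ C) (h : l ≤ 2 * P.M + 1) :
    Rq P.n P.K P.m P.b w l ≤ C * P.u := by
  have h1 := A.rC h4 hC h
  unfold r at h1
  rw [div_le_iff₀ A.u0, mul_assoc] at h1
  exact le_of_mul_le_mul_left h1 A.β0

/-- a good level -/
lemma hz (B : Bw P w k R ω) (H : Nm P k R g ζ C δ t e1 c1) (h4 : Fo P w C) (h1 : 1 ≤ l)
    (h2 : l ≤ 2 * P.M + 1) (hg : P.th w l ≤ P.r w l ^ 2 + δ ^ 2) :
    Hz P.n P.K P.m P.b w l (C * P.u) (δ * P.u) (2 * k * P.u ^ 3) (P.β ^ 2) where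
  θ0 := mul_pos (by linarith [H.NC, A.N0]) A.u0
  θ1 := H.Cu
  D0 := mul_pos H.δ0 A.u0
  Dθ := mul_le_mul_of_nonneg_right H.δC A.u0.le
  mθ := (A.m_le (by omega) (PQ (by omega))).trans (mul_le_mul_of_nonneg_right H.NC A.u0.le)
  κw := by
    have h3 : tv l w ≤ tv P.Q w := tv_mono (PQ (by omega)) w
    have h5 : SB w l = tv l w := rfl
    linarith [B.tQ, H.R0]
  B1 := one_le_pow₀ A.β1.le
  bB := by
    rw [A.bt2_eq h1]
    have := mul_nonneg (sq_nonneg P.β) (A.Tu h1).1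
    linarith
  sm := H.sm
  h4 := h4 l h2
  h2 := by
    have h3 := A.th_sub (w := w) (PK (l := l) (by omega)).le
    have h5 := Vr_nonneg (n := P.n) (b := P.b) (w := w) A.em (PK (l := l) (by omega)).le
    have hu := A.u0
    have hβ : 1 ≤ P.β ^ 2 := one_le_pow₀ A.β1.le
    show Vr P.n P.K P.m P.b w l ≤ _
    have h6 : P.β ^ 2 / P.u ^ 2 * Vr P.n P.K P.m P.b w l ≤ δ ^ 2 := by linarith
    rw [div_mul_eq_mul_div, div_le_iff₀ (by positivity)] at h6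
    calc Vr P.n P.K P.m P.b w l = 1 * Vr P.n P.K P.m P.b w l := (one_mul _).symm
      _ ≤ P.β ^ 2 * Vr P.n P.K P.m P.b w l := mul_le_mul_of_nonneg_right hβ h5
      _ ≤ _ := by rw [mul_pow]; exact h6

lemma gdl (W : Sw P A.K0 w k R ω g gd ζ) (hR : 0 < R) (h1 : 2 ≤ l) (h2 : l ≤ 2 * P.M + 1) :
    Gd P.n P.K P.m P.b w l g (P.q / P.M * P.u) R where
  l1 := by omega
  lK := PK (by omega)
  w0 := W.pos l (by omega) (PK (by omega)).le
  w1 := W.pos (l + 1) (by omega) (PK (by omega))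
  π0 := A.π0
  gap := (A.gap h1 h2).1
  R0 := hR
  fld := by linarith [W.wR (l + 1) (by omega) (PQ (by omega))]
  g0 := W.gl l (by omega) (PQ (by omega))
  g1 := W.gl (l + 1) (by omega) (PQ (by omega))

lemma chi (W : Sw P A.K0 w k R ω g gd ζ) (h2 : l ≤ 2 * P.M + 1) :
    |P.β * ch P.n P.K P.m P.b w l - 1| ≤ ζ := by
  rw [ch_eq A.n0]
  exact W.rs (l + 1) (by omega) (PQ (by omega))

lemma var (W : Sw P A.K0 w k R ω g gd ζ) (H : Nm P k R g ζ C δ t e1 c1) (h4 : Fo P w C) :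
    ∑ l ∈ Ico 2 (2 * P.M + 1), (P.th w l - P.r w l ^ 2) ≤ 6 * (P.β * C) ^ 2 := by
  have hM := A.M1
  have hu := A.u0
  have h1 := H295.conc_sum_sk (b := P.b) (w := w) A.n0 A.K0 A.em (a := 2) (c := 2 * P.M + 1)
    (by omega) (by omega) (PK (by omega)) (fun p h1 h2 => W.pos p (by omega) (PK (by omega)).le)
    A.π0 (fun l h1 h2 => (A.gap h1 h2).1) (fun l h1 h2 => W.gl l (by omega) (PQ (by omega)))
  have h2 : ∑ l ∈ Ico 2 (2 * P.M + 1), Vr P.n P.K P.m P.b w l ≤ 6 * (C * P.u) ^ 2 := by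
    have h3 : H295.Th (skS P.n P.K P.m P.b w) (spn P.n) (2 * P.M + 1) ≤ (C * P.u) ^ 2 :=
      Tq_le_of_four A.em (PK (by omega)).le (h4 _ le_rfl)
    have hg : 0 ≤ g := (A.gdl W H.R0 (l := 2) le_rfl (by omega)).gnn A.em A.n0
    have h5 : 20 * (((2 * P.M + 1 : ℕ) : ℝ) - ((2 : ℕ) : ℝ)) * g / (P.q / P.M * P.u) ^ 2 ≤
        20 * (2 * P.M) * g / (P.q / P.M * P.u) ^ 2 := by
      refine div_le_div_of_nonneg_right (mul_le_mul_of_nonneg_right ?_ hg) (sq_nonneg _)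
      push_cast; linarith
    refine le_trans (sum_le_sum fun l _ => ?_) (h1.trans (by linarith [H.cs]))
    exact le_add_of_nonneg_right (by positivity)
  rw [sum_congr rfl fun l hl => A.th_sub (PK (by rw [mem_Ico] at hl; omega)).le, ← mul_sum]
  calc _ ≤ P.β ^ 2 / P.u ^ 2 * (6 * (C * P.u) ^ 2) :=
        mul_le_mul_of_nonneg_left h2 (by positivity)
    _ = _ := by field_simp

lemma sum_dv {a b : ℕ} (h : a ≤ b) : ∑ i ∈ Ico a b, (P.v (i + 1) - P.v i) = P.v b - P.v a :=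
  sum_Ico_sub P.v h

lemma sum_dv_le {a b : ℕ} (ha : 1 ≤ a) (h : a ≤ b) {x : ℕ → ℝ} {X : ℝ} (hX : 0 ≤ X)
    (hx : ∀ i, a ≤ i → i < b → 0 ≤ x i ∧ x i ≤ X) :
    0 ≤ ∑ i ∈ Ico a b, (P.v (i + 1) - P.v i) * x i ∧
      ∑ i ∈ Ico a b, (P.v (i + 1) - P.v i) * x i ≤ (P.N + 1) * X := by
  constructor
  · refine sum_nonneg fun i hi => ?_
    rw [mem_Ico] at hi
    exact mul_nonneg (A.dv0 (by omega)) (hx i hi.1 hi.2).1
  · calc _ ≤ ∑ i ∈ Ico a b, (P.v (i + 1) - P.v i) * X := by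
          refine sum_le_sum fun i hi => ?_
          rw [mem_Ico] at hi
          exact mul_le_mul_of_nonneg_left (hx i hi.1 hi.2).2 (A.dv0 (by omega))
      _ = (P.v b - P.v a) * X := by rw [← sum_mul, A.sum_dv h]
      _ ≤ _ := mul_le_mul_of_nonneg_right
          (by linarith [A.v_le (show 1 ≤ b by omega), A.v_half ha]) hX

lemma chi_sub (h1 : 1 ≤ l) (h2 : l ≤ 2 * P.M + 1) :
    P.β * ch P.n P.K P.m P.b w (2 * P.M + 1) = P.β * ch P.n P.K P.m P.b w l +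
      P.u ^ 2 * ∑ i ∈ Ico (l + 1) (2 * P.M + 1 + 1), (P.v (i + 1) - P.v i) * P.r w i := by
  have hu := A.u0
  have e : P.u ^ 2 * ∑ i ∈ Ico (l + 1) (2 * P.M + 1 + 1), (P.v (i + 1) - P.v i) * P.r w i =
      P.β * ∑ i ∈ Ico (l + 1) (2 * P.M + 1 + 1), (P.m (i + 1) - P.m i) *
        (skS P.n P.K P.m P.b w).Rl H325.sp i := by
    rw [mul_sum, mul_sum]
    refine sum_congr rfl fun i hi => ?_
    rw [mem_Ico] at hi
    rw [A.dm (by omega) (by omega)]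
    show _ = P.β * ((P.v (i + 1) - P.v i) * P.u * Rq P.n P.K P.m P.b w i)
    unfold r
    field_simp
  rw [e]
  unfold ch
  rw [← sum_Ico_consecutive _ (show l + 1 ≤ 2 * P.M + 1 + 1 by omega)
    (show 2 * P.M + 1 + 1 ≤ P.K + 1 by have := PK (P := P) (l := 2 * P.M + 2) le_rfl; omega)]
  ring

lemma Gs_eq (h2 : l ≤ 2 * P.M + 1) : Gs P.n P.K P.m P.b w l / P.u ^ 3 =
    ∑ i ∈ Ico 1 l, (P.v (i + 1) - P.v i) * ((1 - P.T i * P.u ^ 2) * P.th w i) := by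
  have hu := A.u0
  unfold Gs
  rw [sum_div]
  refine sum_congr rfl fun i hi => ?_
  rw [mem_Ico] at hi
  rw [A.dm hi.1 (by omega), A.bt2_eq hi.1, Tt_eq A.em A.n0 (PK (by omega)).le]
  show (P.v (i + 1) - P.v i) * P.u * (P.β ^ 2 * (1 - P.T i * P.u ^ 2)) *
    Tq P.n P.K P.m P.b w i / P.u ^ 3 = _
  unfold th
  field_simp

lemma Gs_mem (h2 : l ≤ 2 * P.M + 1) :
    (1 - (P.S + 3 * P.τ) * P.u ^ 2) * gR P.v (P.th w) l ≤ Gs P.n P.K P.m P.b w l / P.u ^ 3 ∧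
      Gs P.n P.K P.m P.b w l / P.u ^ 3 ≤ gR P.v (P.th w) l := by
  rw [A.Gs_eq h2]
  unfold gR
  rw [mul_sum]
  constructor <;> refine sum_le_sum fun i hi => ?_ <;> rw [mem_Ico] at hi
  · have a1 := mul_nonneg (A.dv0 hi.1) (A.th0 (w := w) (PK (l := i) (by omega)).le)
    have a2 := mul_le_mul_of_nonneg_right (A.Tu hi.1).2 a1
    nlinarith
  · have a1 := mul_nonneg (A.dv0 hi.1) (A.th0 (w := w) (PK (l := i) (by omega)).le)
    have a2 := mul_nonneg (A.Tu hi.1).1 a1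
    nlinarith

/-- the row at a good level -/
lemma row (W : Sw P A.K0 w k R ω g gd ζ) (H : Nm P k R g ζ C δ t e1 c1) (h4 : Fo P w C)
    (hc0 : 0 ≤ c) (hc : P.β ^ 4 * c / 6 ≤ c1) (h1 : 2 ≤ l) (h2 : l ≤ 2 * P.M)
    (hg : P.th w l ≤ P.r w l ^ 2 + δ ^ 2)
    (hI : |6 * NL P.K P.m P.b w l ⟨0, A.n0⟩ -
      c * (bt2 P.n P.b l * (skS P.n P.K P.m P.b w).Rl H325.sp l) ^ 3| ≤ e1 * P.u ^ 3) :
    |aR (2 * P.M + 1) (((1 - P.T (2 * P.M + 1) * P.u ^ 2) *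
        (P.β * ch P.n P.K P.m P.b w (2 * P.M + 1)) ^ 2 - 1) / P.u ^ 2 + P.T (2 * P.M + 1))
        P.v P.T (P.r w) l * P.r w l - P.v (l + 1) * P.r w l ^ 2 - gR P.v (P.th w) l +
      P.β ^ 4 * c / 6 * P.r w l ^ 3 + P.f w l| ≤ (P.β + 1) * e1 := by
  have hu := A.u0
  have hβ := A.β0
  have hC : 0 ≤ C := by linarith [H.NC, A.N0]
  have hz := A.hz W.toBw H h4 (by omega) (by omega) hg
  have r1 := H877x.rowW A.em ⟨0, A.n0⟩ (a := l) (q := l + 1) (by omega) le_rfl (by omega)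
    (PK (by omega)) (A.gdl W H.R0 h1 (by omega)) H.t0 H.t1 (A.gap h1 (by omega)).2 hz.mθ
    (A.RqC h4 hC (l := l) (by omega)) hz
  rw [Nat.add_sub_cancel] at r1
  have r2 := row_num hβ hu H.e0 (r1.trans (by linarith [H.eT])) hI
  have e1' : bt2 P.n P.b l / P.β ^ 2 = 1 - P.T l * P.u ^ 2 := by
    rw [A.bt2_eq (by omega)]; field_simp
  have e2 : P.m (l + 1) / P.u = P.v (l + 1) := by
    rw [m_low (by omega) (PQ (by omega))]; field_simp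
  have e3 : bt2 P.n P.b l * ch P.n P.K P.m P.b w l ^ 2 =
      (1 - P.T l * P.u ^ 2) * (P.β * ch P.n P.K P.m P.b w l) ^ 2 := by
    rw [A.bt2_eq (by omega)]; ring
  rw [e1', e2, e3] at r2
  have hT := A.Tu (j := l) (by omega)
  have hβC : 0 ≤ P.β * C := mul_nonneg hβ.le hC
  have z1 := A.sum_dv_le (a := l + 1) (b := 2 * P.M + 1 + 1) (by omega) (by omega) hβC
    (x := P.r w) fun i _ hi => ⟨A.r0 (PK (by omega)).le, A.rC h4 hC (by omega)⟩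
  have z2 := A.sum_dv_le (a := 1) (b := l) le_rfl (by omega) (sq_nonneg (P.β * C))
    (x := P.th w) fun i _ hi => ⟨A.th0 (PK (by omega)).le, A.tC h4 (by omega)⟩
  have a1 := a_num hu (A.chi W (l := l) (by omega)) (A.chi W le_rfl) (by linarith [H.ζ2])
    (A.chi_sub (by omega) (by omega)) z1.1 z1.2 (A.T_nonneg (2 * P.M + 1))
    (A.T_anti (show l ≤ 2 * P.M + 1 by omega)) (A.T_le (by omega)) le_rfl
  have g1 := A.Gs_mem (w := w) (l := l) (by omega)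
  have r3 := row_num2 r2 a1 (A.chi W (l := l) (by omega))
    (σ := (P.S + 3 * P.τ) * P.u ^ 2) (by linarith [hT.2]) (by linarith [hT.1])
    (by linarith [A.Su]) (A.r0 (PK (by omega)).le) (A.rC h4 hC (by omega))
    (by linarith [A.v_half (j := l + 1) (by omega)]) (A.v_le (by omega)) g1.1 g1.2 z2.1 z2.2
    (by positivity) hc
  refine r3.trans ?_
  have hζ : 0 ≤ ζ := (abs_nonneg _).trans (A.chi W le_rfl)
  have hσ : 0 ≤ (P.S + 3 * P.τ) * P.u ^ 2 := hT.1.trans hT.2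
  have hST : 0 ≤ P.S + 3 * P.τ := by linarith [A.S0, A.τ0]
  have hc1 : 0 ≤ c1 := le_trans (by positivity) hc
  have hN : 0 ≤ P.N + 1 := by linarith [A.N0]
  have x := H.xi
  have b1 : 0 ≤ ζ * ((P.N + 1) * (P.β * C) ^ 2) := by positivity
  have b2 : 0 ≤ (P.S + 3 * P.τ) * P.u ^ 2 * ((P.S + 3 * P.τ) * (P.β * C)) := by positivity
  have b3 : 0 ≤ ζ * (c1 * (P.β * C) ^ 3) := by positivity
  nlinarith

lemma fb (W : Sw P A.K0 w k R ω g gd ζ) (H : Nm P k R g ζ C δ t e1 c1) (h4 : Fo P w C)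
    (h1 : 2 ≤ l) (h2 : l ≤ 2 * P.M) (hg : P.th w l ≤ P.r w l ^ 2 + δ ^ 2) :
    k / (16 * P.β) ≤ P.f w l ∧ P.f w l ≤ 32 * P.β * k := by
  have hu := A.u0
  have hβ := A.β0
  have hk := H.k0
  have hz := A.hz W.toBw H h4 (by omega) (by omega) hg
  unfold f
  constructor
  · have a1 := FdA_lo A.em A.n0 (by omega) (PK (by omega)).le hz
    have a2 := abs_le.1 (A.chi W (l := l) (by omega))
    have a3 : 1 / (2 * P.β) ≤ ch P.n P.K P.m P.b w l := by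
      rw [div_le_iff₀ (by positivity)]; linarith [a2.1, H.ζ2]
    have a4 := pow_le_pow_left₀ (by positivity) a3 2
    have a5 : KV ^ 2 * (40 * P.β ^ 2) * (C * P.u + 2 * k * P.u ^ 3) ≤ 1 / (8 * P.β ^ 2) := by
      refine le_trans ?_ H.φ2
      have := hz.θ0
      gcongr
      norm_num
    have a6 : 1 / (8 * P.β ^ 2) ≤ ch P.n P.K P.m P.b w l ^ 2 -
        KV ^ 2 * (40 * P.β ^ 2) * (C * P.u + 2 * k * P.u ^ 3) := by
      have e : (1 / (2 * P.β)) ^ 2 = 1 / (8 * P.β ^ 2) + 1 / (8 * P.β ^ 2) := by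
        field_simp; ring
      linarith
    have a7 := mul_le_mul W.w1 a6 (by positivity) (sq_nonneg _)
    rw [le_div_iff₀ (by positivity)]
    calc k / (16 * P.β) * P.u ^ 3 = P.β * (k / 2 * P.u ^ 3 * (1 / (8 * P.β ^ 2))) := by
          field_simp; ring
      _ ≤ _ := mul_le_mul_of_nonneg_left (a7.trans a1) hβ.le
  · have a1 := FdA_le A.em P.b w A.n0 (PK (l := l) (by omega)).le
    rw [Fin.sum_univ_eq_sum_range (fun q => w (q + 1) ^ 2) l] at a1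
    have a2 : ∑ i ∈ range l, w (i + 1) ^ 2 ≤ 2 * k * P.u ^ 3 := hz.κw
    rw [div_le_iff₀ (by positivity)]
    calc _ ≤ P.β * (16 * (2 * k * P.u ^ 3)) := mul_le_mul_of_nonneg_left (by linarith) hβ.le
      _ = _ := by ring

lemma fm (W : Sw P A.K0 w k R ω g gd ζ) (H : Nm P k R g ζ C δ t e1 c1) (h4 : Fo P w C)
    (h0 : 2 ≤ j) (h1 : j ≤ l) (h2 : l ≤ 2 * P.M) (hg : P.th w l ≤ P.r w l ^ 2 + δ ^ 2) :
    P.f w j ≤ P.f w l + e1 := by
  have hu := A.u0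
  have hβ := A.β0
  have hk := H.k0
  have hz := A.hz W.toBw H h4 (by omega) (by omega) hg
  have a1 := H877x.FdA_mono A.em A.K0 A.n0 h1 (PK (by omega)).le hz
    ((A.m_le (by omega) (PQ (by omega))).trans (mul_le_mul_of_nonneg_right H.NC A.u0.le))
  have a0 : 0 ≤ P.β * (KV ^ 2 * (60 * P.β ^ 2) * (C * P.u + 2 * k * P.u ^ 3)) := by
    have := hz.θ0
    positivity
  have a2 : 2 * k * (P.β * (KV ^ 2 * (60 * P.β ^ 2) * (C * P.u + 2 * k * P.u ^ 3))) ≤ 1 * e1 :=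
    mul_le_mul (by linarith [H.k2]) H.φ1 a0 zero_le_one
  unfold f
  rw [div_add' _ _ _ (by positivity), div_le_div_iff_of_pos_right (by positivity)]
  have a3 := mul_le_mul_of_nonneg_left a1 hβ.le
  have a4 := mul_le_mul_of_nonneg_right a2 (by positivity : 0 ≤ P.u ^ 3)
  nlinarith

/-- **The numbers of the law.** -/
theorem rd (W : Sw P A.K0 w k R ω g gd ζ) (H : Nm P k R g ζ C δ t e1 c1) (h4 : Fo P w C)
    (hc0 : 0 ≤ c) (hc : P.β ^ 4 * c / 6 ≤ c1) (he : (P.β + 1) * e1 ≤ e)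
    (hI : ∀ l, 1 ≤ l → l + 2 ≤ P.Q →
      Hz P.n P.K P.m P.b w l (C * P.u) (δ * P.u) (2 * k * P.u ^ 3) (P.β ^ 2) →
      |6 * NL P.K P.m P.b w l ⟨0, A.n0⟩ -
        c * (bt2 P.n P.b l * (skS P.n P.K P.m P.b w).Rl H325.sp l) ^ 3| ≤ e1 * P.u ^ 3) :
    ∃ α : ℝ, RD P.M P.κ P.q P.N P.S P.τ (P.β * C) (P.β ^ 4 * c / 6) e δ (k / (16 * P.β))
      (32 * P.β * k) α (P.r w) (P.th w) (P.f w) :=
  ⟨_, {
    r0 := fun _ _ h => A.r0 (PK (by omega)).le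
    rm := fun _ _ _ h h' => A.r_mono h (PK (by omega)).le
    tm := fun _ _ _ h h' => A.th_mono h (PK (by omega)).le
    rt := fun _ _ h => A.rt (PK (by omega)).le
    tC := fun _ _ h => A.tC h4 h
    var := A.var W H h4
    row := fun l h1 h2 hg => (A.row W H h4 hc0 hc h1 h2 hg (hI l (by omega) (PQ (by omega))
      (A.hz W.toBw H h4 (by omega) (by omega) hg))).trans he
    fb := fun _ h1 h2 hg => A.fb W H h4 h1 h2 hg
    fm := fun _ _ h0 h1 h2 hg => (A.fm W H h4 h0 h1 h2 hg).trans (by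
      have := mul_nonneg A.β0.le H.e0
      linarith) }⟩

end Ad

end Pa

end Vale.Agent.N146.Sharp
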