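import Vale.Agent.N146.Sharp.Law

/-!
# P146 (c): the choice of the fields (helper38)
-/

namespace Vale.Agent.N146.Sharp

open Finset
open Vale.Agent.P157 Vale.Agent.P157.Lv Vale.Agent.P157.Lv.Sy
open Vale.Agent.P146 Vale.Agent.P146.U
open Vale.Agent.P146.H93 (skS Em linS_sk)
open Vale.Agent.P146.H479 (Na Rq Tq QB QW)
open Vale.Agent.P146.H758 (tv Ap Pu)
open Vale.Agent.P146.H186 (cSK)
open Vale.Agent.P146.H295 (gg spn zs)

namespace Pa

/-- fields in the box -/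
structure Bw (P : Pa) (w : ℕ → ℝ) (k R ω : ℝ) : Prop where
  pos : ∀ j, 1 ≤ j → j ≤ P.K → 0 < w j
  w1 : k / 2 * P.u ^ 3 ≤ w 1 ^ 2
  wR : ∀ j, 1 ≤ j → j ≤ P.Q → 2 * R ≤ w j ^ 2
  tQ : tv P.Q w + R ≤ 2 * k * P.u ^ 3
  dp : ∑ j ∈ Ico (P.Q + 1) (P.K + 1), w j ^ 2 ≤ 3 * P.J * ω

/-- the selected fields -/
structure Sw (P : Pa) (hK : 0 < P.K) (w : ℕ → ℝ) (k R ω g gd ζ : ℝ) : Prop
    extends Bw P w k R ω where
  gl : ∀ p, 1 ≤ p → p ≤ P.Q → gg (skS P.n P.K P.m P.b w) (spn P.n) (zs hK) w p p ≤ g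
  gh : ∀ p, P.Q < p → p ≤ P.K → gg (skS P.n P.K P.m P.b w) (spn P.n) (zs hK) w p p ≤ gd
  rs : ∀ p, 1 ≤ p → p ≤ P.Q → |P.β * (cSK P.n P.K P.m P.b w p / P.n) - 1| ≤ ζ

variable {P : Pa} {w v : ℕ → ℝ} {k R ω Y A0 E δ : ℝ}

lemma Bw.na (B : Bw P w k R ω) : Na P.K w := fun j h1 h2 => (B.pos j h1 h2).le

/-- the centre of the box -/
noncomputable def cc (P : Pa) (k R ω : ℝ) (p : ℕ) : ℝ :=
  if p = 1 then k * P.u ^ 3 else if p ≤ P.Q then 3 * R else 2 * ω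

/-- two values -/
noncomputable def tw (P : Pa) (x y : ℝ) (p : ℕ) : ℝ := if p ≤ P.Q then x else y

lemma tw_lo {x y : ℝ} {p : ℕ} (h : p ≤ P.Q) : tw P x y p = x := if_pos h
lemma tw_hi {x y : ℝ} {p : ℕ} (h : P.Q < p) : tw P x y p = y := if_neg (by omega)

lemma Q3 : 3 ≤ P.Q := by show 3 ≤ 2 * P.M + 3; omega
lemma QK : P.Q ≤ P.K := Nat.le_add_right _ _

lemma cc_lo (hR : 0 < R) (hRk : 5 * P.Q * R ≤ k * P.u ^ 3) {p : ℕ} (h : p ≤ P.Q) :
    3 * R ≤ cc P k R ω p := by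
  have h3 : (3 : ℝ) ≤ P.Q := by exact_mod_cast Q3
  unfold cc
  split_ifs
  · nlinarith
  · exact le_rfl

lemma cc_hi {p : ℕ} (h : P.Q < p) : cc P k R ω p = 2 * ω := by
  have := Q3 (P := P)
  unfold cc; rw [if_neg (by omega), if_neg (by omega)]

lemma bw_of (hR : 0 < R) (hω : 0 < ω) (hRk : 5 * P.Q * R ≤ k * P.u ^ 3)
    (hv : ∀ p, 1 ≤ p → p ≤ P.K → |v p - cc P k R ω p| ≤ tw P R ω p) :
    Bw P (fun j => √(v j)) k R ω := by
  have h3 : (3 : ℝ) ≤ P.Q := by exact_mod_cast Q3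
  have hQ3 := Q3 (P := P)
  have hQK := QK (P := P)
  have lo : ∀ p, 1 ≤ p → p ≤ P.Q → 2 * R ≤ v p := fun p h1 h2 => by
    have h := abs_le.1 (hv p h1 (h2.trans QK))
    rw [tw_lo h2] at h
    linarith [cc_lo (ω := ω) hR hRk h2, h.1]
  have hi : ∀ p, P.Q < p → p ≤ P.K → ω ≤ v p ∧ v p ≤ 3 * ω := fun p h1 h2 => by
    have h := abs_le.1 (hv p (by omega) h2)
    rw [tw_hi h1, cc_hi h1] at h
    constructor <;> linarith [h.1, h.2]
  have ps : ∀ p, 1 ≤ p → p ≤ P.K → 0 < v p := fun p h1 h2 => by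
    rcases le_or_gt p P.Q with h | h
    · linarith [lo p h1 h]
    · linarith [(hi p h h2).1]
  have sq : ∀ p, 1 ≤ p → p ≤ P.K → √(v p) ^ 2 = v p := fun p h1 h2 =>
    Real.sq_sqrt (ps p h1 h2).le
  have h1 := abs_le.1 (hv 1 le_rfl (by omega))
  rw [tw_lo (by omega), show cc P k R ω 1 = k * P.u ^ 3 from if_pos rfl] at h1
  refine ⟨fun j h1 h2 => Real.sqrt_pos.2 (ps j h1 h2), ?_, fun j h1 h2 => ?_, ?_, ?_⟩
  · rw [sq 1 le_rfl (by omega)]; nlinarith [h1.1]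
  · rw [sq j h1 (by omega)]; exact lo j h1 h2
  · rw [tv_le (show 1 ≤ P.Q by omega)]
    have e1 : tv 1 (fun j => √(v j)) = v 1 := by
      rw [show (1 : ℕ) = 0 + 1 from rfl, tv_succ, sq _ le_rfl (by omega)]; simp [tv]
    have e2 : ∑ j ∈ Ico (1 + 1) (P.Q + 1), √(v j) ^ 2 ≤ (Ico (1 + 1) (P.Q + 1)).card • (4 * R) := by
      refine sum_le_card_nsmul _ _ _ fun j hj => ?_
      rw [mem_Ico] at hj
      rw [sq j (by omega) (by omega)]
      have h := abs_le.1 (hv j (by omega) (by omega))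
      rw [tw_lo (by omega), show cc P k R ω j = 3 * R by
        unfold cc; rw [if_neg (by omega), if_pos (by omega)]] at h
      linarith [h.2]
    rw [Nat.card_Ico, nsmul_eq_mul] at e2
    have e3 : ((P.Q + 1 - (1 + 1) : ℕ) : ℝ) = P.Q - 1 := by
      rw [Nat.cast_sub (by omega)]; push_cast; ring
    rw [e3] at e2
    rw [e1]
    nlinarith [h1.2]
  · have e2 : ∑ j ∈ Ico (P.Q + 1) (P.K + 1), √(v j) ^ 2 ≤
        (Ico (P.Q + 1) (P.K + 1)).card • (3 * ω) := by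
      refine sum_le_card_nsmul _ _ _ fun j hj => ?_
      rw [mem_Ico] at hj
      rw [sq j (by omega) (by omega)]
      exact (hi j (by omega) (by omega)).2
    rw [Nat.card_Ico, nsmul_eq_mul] at e2
    have e3 : P.K + 1 - (P.Q + 1) = P.J := by
      show P.Q + P.J + 1 - (P.Q + 1) = P.J
      omega
    rw [e3] at e2
    linarith

/-- the responses in the box -/
lemma Bw.resp (hR' : Resp) (A : P.Ad) (B : Bw P w k R ω) (hR : 0 < R) (hk : k ≤ 1 / 2)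
    (hAp : Ap P.n P.β (P.u / 2) Y (P.u ^ 3) A0 E) (hY : (P.N + 1) * P.u ≤ Y) (hY1 : Y ≤ 1)
    (hδ : 8 * (E + P.n / 2 * (3 * P.J * ω)) / R ≤ δ) {p : ℕ} (h1 : 1 ≤ p) (h2 : p ≤ P.K) :
    |cSK P.n P.K P.m P.b w p - tw P (P.n / P.β) 0 p| ≤ tw P δ P.n p := by
  have hQ3 := Q3 (P := P)
  obtain ⟨r1, r2⟩ := hR' P.n P.Q P.J P.β (P.u / 2) Y (P.u ^ 3) A0 E (R / 2) P.m P.b w A.β0.le
    A.em (by omega) (fun _ h => Ad.b_deep h) (A.na _) B.na
  have hu := A.u0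
  rcases le_or_gt p P.Q with h | h
  · rw [tw_lo h, tw_lo h]
    have h3 := r2 hAp (by positivity) (A.m_half le_rfl (by omega)) (A.m_Q.le.trans hY) hY1
      (A.tv_top le_rfl) (by positivity) (by
        have := B.tQ
        have h4 : 2 * k * P.u ^ 3 ≤ 1 * P.u ^ 3 :=
          mul_le_mul_of_nonneg_right (by linarith) (by positivity)
        linarith) p h1 h (by linarith [B.wR p h1 h])
    refine h3.trans (le_trans ?_ hδ)
    have h5 : (P.n : ℝ) / 2 * ∑ j ∈ Ico (P.Q + 1) (P.Q + P.J + 1), w j ^ 2 ≤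
        P.n / 2 * (3 * P.J * ω) := mul_le_mul_of_nonneg_left B.dp (by positivity)
    rw [div_le_div_iff₀ (by positivity) hR]
    nlinarith
  · rw [tw_hi h, tw_hi h, sub_zero, abs_of_nonneg (r1 p h1 h2).1]
    exact (r1 p h1 h2).2

/-- **The selection.** -/
theorem pick (hS : Sel) (hR' : Resp) (A : P.Ad) (hR : 0 < R) (hω : 0 < ω) (hk : k ≤ 1 / 2)
    (hRk : 5 * P.Q * R ≤ k * P.u ^ 3)
    (hAp : Ap P.n P.β (P.u / 2) Y (P.u ^ 3) A0 E) (hY : (P.N + 1) * P.u ≤ Y) (hY1 : Y ≤ 1)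
    (hδ0 : 0 < δ) (hδ : 8 * (E + P.n / 2 * (3 * P.J * ω)) / R ≤ δ) :
    ∃ w : ℕ → ℝ, Sw P A.K0 w k R ω (32 * δ / (P.u * P.n ^ 2 * R))
      (16 * (P.J + 1) / (P.n * ω)) (P.β * δ / P.n) := by
  have hn := A.nR
  have hu := A.u0
  have hβ := A.β0
  obtain ⟨v, hv, hg⟩ := hS P.n P.K A.K0 P.m P.b (cc P k R ω) (tw P R ω) (tw P δ P.n)
    (tw P (P.n / P.β) 0) A.n0 A.em (fun p h1 h2 => by
      rcases le_or_gt p P.Q with h | h
      · rw [tw_lo h, tw_lo h]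
        exact ⟨hR, by linarith [cc_lo (ω := ω) hR hRk h], hδ0⟩
      · rw [tw_hi h, tw_hi h, cc_hi h]
        exact ⟨hω, by linarith, hn⟩)
    (fun v hv p h1 h2 => (bw_of hR hω hRk hv).resp hR' A hR hk hAp hY hY1 hδ h1 h2)
  have B := bw_of hR hω hRk fun p h1 h2 => (hv p h1 h2).le
  refine ⟨_, B, fun p h1 h2 => (hg p h1 (h2.trans QK)).trans ?_,
    fun p h1 h2 => (hg p (by omega) h2).trans ?_, fun p h1 h2 => ?_⟩
  · rw [tw_lo h2, tw_lo h2]
    have h3 := A.m_half h1 h2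
    rw [div_le_div_iff₀ (by have : 0 < P.m p := by linarith
                            positivity) (by positivity)]
    have h4 : 0 ≤ δ * (P.n ^ 2 * R) := by positivity
    nlinarith
  · rw [tw_hi h1, tw_hi h1]
    obtain ⟨i, rfl⟩ := Nat.exists_eq_add_of_le h1.le
    have hi : i ≤ P.J := by
      have : P.Q + i ≤ P.Q + P.J := h2
      omega
    have hi1 : (1 : ℝ) ≤ i := by exact_mod_cast (show 1 ≤ i by omega)
    rw [m_deep (by omega) hi, div_le_div_iff₀ (by positivity) (by positivity)]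
    have e : 16 * ((P.J : ℝ) + 1) * (i / (P.J + 1) * P.n ^ 2 * ω) = i * (16 * P.n * (P.n * ω)) := by
      field_simp
    rw [e]
    have h4 : 0 ≤ 16 * (P.n : ℝ) * (P.n * ω) := by positivity
    nlinarith
  · have h3 := B.resp hR' A hR hk hAp hY hY1 hδ h1 (h2.trans QK)
    rw [tw_lo h2, tw_lo h2] at h3
    have e : P.β * (cSK P.n P.K P.m P.b (fun j => √(v j)) p / P.n) - 1 =
        P.β / P.n * (cSK P.n P.K P.m P.b (fun j => √(v j)) p - P.n / P.β) := by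
      field_simp
    rw [e, abs_mul, abs_of_pos (by positivity : 0 < P.β / P.n)]
    calc _ ≤ P.β / P.n * δ := mul_le_mul_of_nonneg_left h3 (by positivity)
      _ = _ := by ring

end Pa

end Vale.Agent.N146.Sharp
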