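import Mathlib

/-!
# P146 (c): the real-number part, statements (helper38)

Levels: `1` root, `2..M+1` bundle A, `M+2..2M+1` bundle B, `2M+2, 2M+3` top.
`vv` exponents, `TT l` share of the bonds of the levels `> l`, `r` overlaps, `th` second moments,
`f` field terms; a level `l` is good if `th l ≤ r l ^ 2 + δ ^ 2`.
-/

namespace Vale.Agent.N146.Sharp

open Finset

/-- the exponents in units of the scale -/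
noncomputable def vv (M : ℕ) (κ q N : ℝ) (l : ℕ) : ℝ :=
  if l ≤ 1 then 1 - κ else if l ≤ M + 2 then 1 - q + ((l : ℝ) - 2) * q / M
  else if l ≤ 2 * M + 2 then 1 + ((l : ℝ) - (M + 2)) * N / M else N + 1

/-- the share of the bonds of the levels `> l` -/
noncomputable def TT (M : ℕ) (S τ : ℝ) (l : ℕ) : ℝ :=
  if l ≤ M + 1 then 3 * τ + S * ((M : ℝ) + 1 - l) / M
  else if l ≤ 2 * M + 1 then 2 * τ + τ * (2 * (M : ℝ) + 1 - l) / M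
  else if l = 2 * M + 2 then τ else 0

/-- the lower levels in the row -/
noncomputable def gR (v th : ℕ → ℝ) (l : ℕ) : ℝ := ∑ i ∈ Ico 1 l, (v (i + 1) - v i) * th i

/-- the linear coefficient of the row -/
noncomputable def aR (P : ℕ) (α : ℝ) (v T r : ℕ → ℝ) (l : ℕ) : ℝ :=
  α - T l - 2 * ∑ i ∈ Ico (l + 1) (P + 1), (v (i + 1) - v i) * r i

/-- the numbers of one law -/
structure RD (M : ℕ) (κ q N S τ C c e δ f0 F α : ℝ) (r th f : ℕ → ℝ) : Prop where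
  r0 : ∀ l, 1 ≤ l → l ≤ 2 * M + 1 → 0 ≤ r l
  rm : ∀ j k, 1 ≤ j → j ≤ k → k ≤ 2 * M + 1 → r j ≤ r k
  tm : ∀ j k, 1 ≤ j → j ≤ k → k ≤ 2 * M + 1 → th j ≤ th k
  rt : ∀ l, 1 ≤ l → l ≤ 2 * M + 1 → r l ^ 2 ≤ th l
  tC : ∀ l, 1 ≤ l → l ≤ 2 * M + 1 → th l ≤ C ^ 2
  var : ∑ l ∈ Ico 2 (2 * M + 1), (th l - r l ^ 2) ≤ 6 * C ^ 2
  row : ∀ l, 2 ≤ l → l ≤ 2 * M → th l ≤ r l ^ 2 + δ ^ 2 →
    |aR (2 * M + 1) α (vv M κ q N) (TT M S τ) r l * r l - vv M κ q N (l + 1) * r l ^ 2 -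
      gR (vv M κ q N) th l + c * r l ^ 3 + f l| ≤ e
  fb : ∀ l, 2 ≤ l → l ≤ 2 * M → th l ≤ r l ^ 2 + δ ^ 2 → f0 ≤ f l ∧ f l ≤ F
  fm : ∀ j k, 2 ≤ j → j ≤ k → k ≤ 2 * M → th k ≤ r k ^ 2 + δ ^ 2 → f j ≤ f k + e

/-- **K-side**: the energy of the bundle A is at most `1 / (96 c³)`. -/
def RealK : Prop :=
  ∀ c0 ε S C : ℝ, 0 < c0 → 0 < ε → 0 < S → 1 ≤ C →
    ∃ a0 : ℝ, 0 < a0 ∧ ∀ δ : ℝ, 0 < δ → δ ≤ a0 → ∃ M0 : ℕ, ∀ M : ℕ, M0 ≤ M →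
      ∀ (κ q N τ c e f0 F α : ℝ) (r th f : ℕ → ℝ), 0 < q → q ≤ κ → q ≤ a0 → 0 < N → 0 < τ →
        c0 ≤ c → e ≤ a0 → 0 ≤ f0 → F ≤ a0 → RD M κ q N S τ C c e δ f0 F α r th f →
        ∑ i ∈ Icc 2 (M + 1), S / M * th i ≤ 1 / (96 * c ^ 3) + ε

/-- **L-side**: if the overlaps are large at large exponents, the energy of the bundle A is at least
`1 / (96 c³)`. -/
def RealL : Prop :=
  ∀ c0 c1 ε N : ℝ, 0 < c0 → c0 ≤ c1 → 0 < ε → 8 ≤ N →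
    ∃ a0 S0 : ℝ, 0 < a0 ∧ ∀ τ S C f0 : ℝ, 0 < τ → τ ≤ a0 → S0 ≤ S → 1 ≤ C → 0 < f0 →
      ∃ a1 : ℝ, 0 < a1 ∧ ∀ δ : ℝ, 0 < δ → δ ≤ a1 → ∃ M0 : ℕ, ∀ M : ℕ, M0 ≤ M →
        ∀ (κ q c e F α : ℝ) (r th f : ℕ → ℝ), 0 < q → q ≤ κ → κ ≤ a0 → q ≤ a1 → 0 ≤ c → c ≤ c1 →
          e ≤ a1 → F ≤ a0 → RD M κ q N S τ C c e δ f0 F α r th f →
          (∀ l, 1 ≤ l → l ≤ 2 * M → N / 4 ≤ vv M κ q N (l + 1) → 1 / c0 ^ 2 ≤ th l) →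
          (c0 ≤ c → 1 / (96 * c ^ 3) - ε ≤ ∑ i ∈ Icc 2 (M + 1), S / M * th (i - 1)) ∧
          (c < c0 → 1 / (5000 * c0 ^ 3) ≤ ∑ i ∈ Icc 2 (M + 1), S / M * th (i - 1))

end Vale.Agent.N146.Sharp
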