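import Vale.Agent.N146.Sharp.RDef

/-!
# P146 (c): the real-number part, common kit (helper68)
-/

namespace Vale.Agent.N146.Sharp.RL

open Finset

section grid
variable {M : ℕ} {κ q N S τ : ℝ}

lemma vv_one : vv M κ q N 1 = 1 - κ := by simp [vv]

lemma vv_A {l : ℕ} (h2 : 2 ≤ l) (h : l ≤ M + 2) :
    vv M κ q N l = 1 - q + ((l : ℝ) - 2) * q / M := by
  unfold vv
  rw [if_neg (by omega), if_pos h]

lemma vv_B (hM : 0 < M) {l : ℕ} (h1 : M + 2 ≤ l) (h : l ≤ 2 * M + 2) :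
    vv M κ q N l = 1 + ((l : ℝ) - (M + 2)) * N / M := by
  have hM' : (M : ℝ) ≠ 0 := by positivity
  unfold vv
  rw [if_neg (by omega)]
  by_cases e : l ≤ M + 2
  · have : l = M + 2 := by omega
    subst this
    rw [if_pos le_rfl]
    push_cast
    field_simp
    ring
  · rw [if_neg e, if_pos h]

lemma TT_A {l : ℕ} (h : l ≤ M + 1) : TT M S τ l = 3 * τ + S * ((M : ℝ) + 1 - l) / M := by
  unfold TT
  rw [if_pos h]

lemma TT_B (hM : 0 < M) {l : ℕ} (h1 : M + 1 ≤ l) (h : l ≤ 2 * M + 1) :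
    TT M S τ l = 2 * τ + τ * (2 * (M : ℝ) + 1 - l) / M := by
  have hM' : (M : ℝ) ≠ 0 := by positivity
  unfold TT
  by_cases e : l ≤ M + 1
  · have : l = M + 1 := by omega
    subst this
    rw [if_pos le_rfl]
    push_cast
    field_simp
    ring
  · rw [if_neg e, if_pos h]

lemma dv_one : vv M κ q N (1 + 1) - vv M κ q N 1 = κ - q := by
  rw [vv_A (by omega) (by omega), vv_one]
  push_cast
  ring

lemma dv_A {i : ℕ} (h2 : 2 ≤ i) (h : i ≤ M + 1) :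
    vv M κ q N (i + 1) - vv M κ q N i = q / M := by
  rw [vv_A (by omega) (by omega), vv_A h2 (by omega)]
  push_cast
  ring

lemma dv_B (hM : 0 < M) {i : ℕ} (h2 : M + 2 ≤ i) (h : i ≤ 2 * M + 1) :
    vv M κ q N (i + 1) - vv M κ q N i = N / M := by
  rw [vv_B hM (by omega) (by omega), vv_B hM h2 (by omega)]
  push_cast
  ring

lemma dv_nn (hM : 0 < M) (hq : 0 ≤ q) (hk : q ≤ κ) (hN : 0 ≤ N) {i : ℕ} (h1 : 1 ≤ i)
    (h : i ≤ 2 * M + 1) : 0 ≤ vv M κ q N (i + 1) - vv M κ q N i := by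
  rcases Nat.lt_or_ge i 2 with a | a
  · have : i = 1 := by omega
    subst this
    rw [dv_one]
    linarith
  · rcases Nat.lt_or_ge (M + 1) i with a' | a'
    · rw [dv_B hM (by omega) h]
      positivity
    · rw [dv_A a a']
      positivity

lemma dv_le (hM : 0 < M) (hN : q ≤ N) {i : ℕ} (h1 : 2 ≤ i)
    (h : i ≤ 2 * M + 1) : vv M κ q N (i + 1) - vv M κ q N i ≤ N / M := by
  rcases Nat.lt_or_ge (M + 1) i with a' | a'
  · rw [dv_B hM (by omega) h]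
  · rw [dv_A h1 a']
    gcongr

lemma TT_anti (hM : 0 < M) (hS : 0 ≤ S) (hτ : 0 ≤ τ) {j k : ℕ} (hjk : j ≤ k)
    (h : k ≤ 2 * M + 1) : TT M S τ k ≤ TT M S τ j := by
  have hM' : (0 : ℝ) < M := by positivity
  have c : (j : ℝ) ≤ k := by exact_mod_cast hjk
  rcases Nat.lt_or_ge (M + 1) k with a | a
  · rw [TT_B hM a.le h]
    rcases Nat.lt_or_ge (M + 1) j with a' | a'
    · rw [TT_B hM a'.le (by omega)]
      gcongr
    · rw [TT_A a']
      have c1 : (j : ℝ) ≤ M + 1 := by exact_mod_cast a'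
      have c2 : (M : ℝ) + 1 ≤ k := by exact_mod_cast a.le
      have e1 : 0 ≤ S * ((M : ℝ) + 1 - j) / M := by
        apply div_nonneg (mul_nonneg hS (by linarith)) hM'.le
      have e2 : τ * (2 * (M : ℝ) + 1 - k) / M ≤ τ := by
        rw [div_le_iff₀ hM']
        apply mul_le_mul_of_nonneg_left (by linarith) hτ
      linarith
  · rw [TT_A a, TT_A (by omega)]
    gcongr

end grid

section ident
variable {P : ℕ} {α c : ℝ} {v T r th : ℕ → ℝ}

lemma v_sub (v : ℕ → ℝ) {j k : ℕ} (h : j ≤ k) : ∑ i ∈ Ico j k, (v (i + 1) - v i) = v k - v j := by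
  induction k, h using Nat.le_induction with
  | base => simp
  | succ k hk ih => rw [sum_Ico_succ_top hk, ih]; ring

lemma a_sub {j k : ℕ} (h : j ≤ k) (hk : k ≤ P) :
    aR P α v T r k - aR P α v T r j =
      T j - T k + 2 * ∑ i ∈ Ico (j + 1) (k + 1), (v (i + 1) - v i) * r i := by
  unfold aR
  rw [← sum_Ico_consecutive (fun i => (v (i + 1) - v i) * r i) (Nat.succ_le_succ h)
    (Nat.succ_le_succ hk)]
  ring

lemma g_sub {j k : ℕ} (h1 : 1 ≤ j) (h : j ≤ k) :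
    gR v th k - gR v th j = ∑ i ∈ Ico j k, (v (i + 1) - v i) * th i := by
  unfold gR
  rw [← sum_Ico_consecutive (fun i => (v (i + 1) - v i) * th i) h1 h]
  ring

/-- the row polynomial without the field term -/
noncomputable def H0 (P : ℕ) (α c : ℝ) (v T r th : ℕ → ℝ) (l : ℕ) (x : ℝ) : ℝ :=
  aR P α v T r l * x - v (l + 1) * x ^ 2 - gR v th l + c * x ^ 3

lemma H0_sub {j k : ℕ} (h1 : 1 ≤ j) (h : j ≤ k) (hk : k ≤ P) (x : ℝ) :
    H0 P α c v T r th k x - H0 P α c v T r th j x =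
      (T j - T k) * x - ∑ i ∈ Ico (j + 1) (k + 1), (v (i + 1) - v i) * (x - r i) ^ 2 +
      (∑ i ∈ Ico (j + 1) (k + 1), (v (i + 1) - v i) * r i ^ 2 -
        ∑ i ∈ Ico j k, (v (i + 1) - v i) * th i) := by
  have e1 := a_sub (α := α) (v := v) (T := T) (r := r) h hk
  have e2 := g_sub (v := v) (th := th) h1 h
  have e3 := v_sub v (Nat.succ_le_succ h)
  have e4 : ∑ i ∈ Ico (j + 1) (k + 1), (v (i + 1) - v i) * (x - r i) ^ 2 =
      (∑ i ∈ Ico (j + 1) (k + 1), (v (i + 1) - v i)) * x ^ 2 -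
      2 * (∑ i ∈ Ico (j + 1) (k + 1), (v (i + 1) - v i) * r i) * x +
      ∑ i ∈ Ico (j + 1) (k + 1), (v (i + 1) - v i) * r i ^ 2 := by
    rw [sum_mul, mul_assoc, sum_mul, mul_sum, ← sum_sub_distrib, ← sum_add_distrib]
    exact sum_congr rfl fun i _ => by ring
  unfold H0
  rw [e4, e3, ← e2]
  simp only [Nat.succ_eq_add_one]
  linear_combination x * e1

end ident

section rd
variable {M : ℕ} {κ q N S τ C c e δ f0 F α : ℝ} {r th f : ℕ → ℝ}

lemma th_nn (h : RD M κ q N S τ C c e δ f0 F α r th f) {l : ℕ} (h1 : 1 ≤ l)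
    (h2 : l ≤ 2 * M + 1) : 0 ≤ th l := le_trans (sq_nonneg _) (h.rt l h1 h2)

lemma r_le (h : RD M κ q N S τ C c e δ f0 F α r th f) (hC : 0 ≤ C) {l : ℕ} (h1 : 1 ≤ l)
    (h2 : l ≤ 2 * M + 1) : r l ≤ C :=
  (pow_le_pow_iff_left₀ (h.r0 l h1 h2) hC two_ne_zero).1 ((h.rt l h1 h2).trans (h.tC l h1 h2))

lemma var_sub (h : RD M κ q N S τ C c e δ f0 F α r th f) {a b : ℕ} (ha : 2 ≤ a)
    (hb : b ≤ 2 * M + 1) : ∑ l ∈ Ico a b, (th l - r l ^ 2) ≤ 6 * C ^ 2 := by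
  refine le_trans (sum_le_sum_of_subset_of_nonneg (Ico_subset_Ico ha hb) ?_) h.var
  intro i hi _
  rw [mem_Ico] at hi
  exact sub_nonneg.2 (h.rt i (by omega) (by omega))

/-- every window of `nb + 1` levels contains a good one -/
lemma good_win (h : RD M κ q N S τ C c e δ f0 F α r th f) {nb : ℕ}
    (hnb : 6 * C ^ 2 ≤ (nb + 1) * δ ^ 2) {a : ℕ} (ha : 2 ≤ a) (hb : a + nb ≤ 2 * M) :
    ∃ l, a ≤ l ∧ l ≤ a + nb ∧ th l ≤ r l ^ 2 + δ ^ 2 := by
  by_contra hc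
  push Not at hc
  have h1 := var_sub h (b := a + nb + 1) ha (by omega)
  have h2 : ∑ _l ∈ Ico a (a + nb + 1), δ ^ 2 < ∑ l ∈ Ico a (a + nb + 1), (th l - r l ^ 2) := by
    apply sum_lt_sum_of_nonempty (nonempty_Ico.2 (by omega))
    intro i hi
    rw [mem_Ico] at hi
    have := hc i hi.1 (by omega)
    linarith
  rw [sum_const, Nat.card_Ico, nsmul_eq_mul] at h2
  have e : a + nb + 1 - a = nb + 1 := by omega
  rw [e] at h2
  push_cast at h2
  linarith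

lemma ex_nb (C : ℝ) {δ : ℝ} (hδ : 0 < δ) : ∃ nb : ℕ, 6 * C ^ 2 ≤ (nb + 1) * δ ^ 2 := by
  obtain ⟨n, hn⟩ := exists_nat_ge (6 * C ^ 2 / δ ^ 2)
  refine ⟨n, ?_⟩
  rw [div_le_iff₀ (by positivity)] at hn
  nlinarith [sq_nonneg δ]

/-- the bracket of `H0_sub` -/
lemma brk (h : RD M κ q N S τ C c e δ f0 F α r th f) (hM : 0 < M) (hq : 0 ≤ q) (hk : q ≤ κ)
    (hN : q ≤ N) {j k : ℕ} (h2 : 2 ≤ j) (hjk : j ≤ k) (hk2 : k ≤ 2 * M) :
    -(7 * C ^ 2 * (N / M)) ≤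
      ∑ i ∈ Ico (j + 1) (k + 1), (vv M κ q N (i + 1) - vv M κ q N i) * r i ^ 2 -
        ∑ i ∈ Ico j k, (vv M κ q N (i + 1) - vv M κ q N i) * th i ∧
    ∑ i ∈ Ico (j + 1) (k + 1), (vv M κ q N (i + 1) - vv M κ q N i) * r i ^ 2 -
        ∑ i ∈ Ico j k, (vv M κ q N (i + 1) - vv M κ q N i) * th i ≤ C ^ 2 * (N / M) := by
  have hN0 : 0 ≤ N := hq.trans hN
  have hw : 0 ≤ N / M := by positivity
  have hw2 : 0 ≤ C ^ 2 * (N / M) := by positivity
  rcases hjk.eq_or_lt with e | hlt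
  · subst e
    simp only [Ico_self, sum_empty, sub_zero]
    constructor <;> linarith
  rw [sum_Ico_succ_top (by omega), sum_eq_sum_Ico_succ_bot hlt]
  have d0 : ∀ i, 2 ≤ i → i ≤ 2 * M → 0 ≤ vv M κ q N (i + 1) - vv M κ q N i :=
    fun i a b => dv_nn hM hq hk hN0 (by omega) (by omega)
  have d1 : ∀ i, 2 ≤ i → i ≤ 2 * M → vv M κ q N (i + 1) - vv M κ q N i ≤ N / M :=
    fun i a b => dv_le hM hN a (by omega)
  have e1 : ∑ i ∈ Ico (j + 1) k, (vv M κ q N (i + 1) - vv M κ q N i) * th i -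
      ∑ i ∈ Ico (j + 1) k, (vv M κ q N (i + 1) - vv M κ q N i) * r i ^ 2 =
      ∑ i ∈ Ico (j + 1) k, (vv M κ q N (i + 1) - vv M κ q N i) * (th i - r i ^ 2) := by
    rw [← sum_sub_distrib]
    exact sum_congr rfl fun i _ => by ring
  have e2 : 0 ≤ ∑ i ∈ Ico (j + 1) k, (vv M κ q N (i + 1) - vv M κ q N i) * (th i - r i ^ 2) := by
    apply sum_nonneg
    intro i hi
    rw [mem_Ico] at hi
    exact mul_nonneg (d0 i (by omega) (by omega)) (sub_nonneg.2 (h.rt i (by omega) (by omega)))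
  have e3 : ∑ i ∈ Ico (j + 1) k, (vv M κ q N (i + 1) - vv M κ q N i) * (th i - r i ^ 2) ≤
      N / M * (6 * C ^ 2) := by
    refine le_trans ?_ (mul_le_mul_of_nonneg_left (var_sub h (a := j + 1) (b := k) (by omega)
      (by omega)) hw)
    rw [mul_sum]
    apply sum_le_sum
    intro i hi
    rw [mem_Ico] at hi
    exact mul_le_mul_of_nonneg_right (d1 i (by omega) (by omega))
      (sub_nonneg.2 (h.rt i (by omega) (by omega)))
  have k0 := d0 k (by omega) hk2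
  have k1 := d1 k (by omega) hk2
  have j0 := d0 j h2 (by omega)
  have j1 := d1 j h2 (by omega)
  have a1 : 0 ≤ (vv M κ q N (k + 1) - vv M κ q N k) * r k ^ 2 := mul_nonneg k0 (sq_nonneg _)
  have a2 : (vv M κ q N (k + 1) - vv M κ q N k) * r k ^ 2 ≤ N / M * C ^ 2 :=
    mul_le_mul k1 ((h.rt k (by omega) (by omega)).trans (h.tC k (by omega) (by omega)))
      (sq_nonneg _) hw
  have a3 : 0 ≤ (vv M κ q N (j + 1) - vv M κ q N j) * th j :=
    mul_nonneg j0 (th_nn h (by omega) (by omega))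
  have a4 : (vv M κ q N (j + 1) - vv M κ q N j) * th j ≤ N / M * C ^ 2 :=
    mul_le_mul j1 (h.tC j (by omega) (by omega)) (th_nn h (by omega) (by omega)) hw
  constructor <;> linarith

lemma g_nn (h : RD M κ q N S τ C c e δ f0 F α r th f) (hM : 0 < M) (hq : 0 ≤ q) (hk : q ≤ κ)
    (hN : 0 ≤ N) {l : ℕ} (hl : l ≤ 2 * M + 1) : 0 ≤ gR (vv M κ q N) th l := by
  apply sum_nonneg
  intro i hi
  rw [mem_Ico] at hi
  exact mul_nonneg (dv_nn hM hq hk hN hi.1 (by omega)) (th_nn h hi.1 (by omega))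

lemma g_le (h : RD M κ q N S τ C c e δ f0 F α r th f) (hM : 0 < M) (hq : 0 ≤ q) (hk : q ≤ κ)
    (hN : 0 ≤ N) {l : ℕ} (h1 : 1 ≤ l) (hl : l ≤ 2 * M + 1) :
    gR (vv M κ q N) th l ≤ (vv M κ q N l - vv M κ q N 1) * th l := by
  rw [← v_sub _ h1, sum_mul]
  apply sum_le_sum
  intro i hi
  rw [mem_Ico] at hi
  exact mul_le_mul_of_nonneg_left (h.tm i l hi.1 hi.2.le hl) (dv_nn hM hq hk hN hi.1 (by omega))

lemma a_mono (h : RD M κ q N S τ C c e δ f0 F α r th f) (hM : 0 < M) (hq : 0 ≤ q) (hk : q ≤ κ)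
    (hN : 0 ≤ N) {j k : ℕ} (hjk : j ≤ k) (hl : k ≤ 2 * M + 1) :
    TT M S τ j - TT M S τ k ≤ aR (2 * M + 1) α (vv M κ q N) (TT M S τ) r k -
      aR (2 * M + 1) α (vv M κ q N) (TT M S τ) r j := by
  rw [a_sub hjk hl]
  have : 0 ≤ ∑ i ∈ Ico (j + 1) (k + 1), (vv M κ q N (i + 1) - vv M κ q N i) * r i := by
    apply sum_nonneg
    intro i hi
    rw [mem_Ico] at hi
    exact mul_nonneg (dv_nn hM hq hk hN (by omega) (by omega)) (h.r0 i (by omega) (by omega))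
  linarith

lemma vv_A_bd (hM : 0 < M) (hq : 0 ≤ q) {l : ℕ} (h2 : 2 ≤ l) (h : l ≤ M + 2) :
    1 - q ≤ vv M κ q N l ∧ vv M κ q N l ≤ 1 := by
  have hM' : (0 : ℝ) < M := by positivity
  have c1 : (2 : ℝ) ≤ l := by exact_mod_cast h2
  have c2 : (l : ℝ) ≤ M + 2 := by exact_mod_cast h
  rw [vv_A h2 h]
  have e1 : 0 ≤ ((l : ℝ) - 2) * q / M := div_nonneg (mul_nonneg (by linarith) hq) hM'.le
  have e2 : ((l : ℝ) - 2) * q / M ≤ q := by
    rw [div_le_iff₀ hM']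
    nlinarith
  constructor <;> linarith

end rd

end Vale.Agent.N146.Sharp.RL
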