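import Vale.Agent.N146.Sharp.RealKit

/-!
# P146 (c): L-side, the crossing claim (helper68)
-/

namespace Vale.Agent.N146.Sharp.RL

open Finset

lemma cubic {A V B c y b z μ C D x : ℝ} (hc : 0 ≤ c) (hy : 0 ≤ y) (hyb : y < b) (hbz : b < z)
    (hz : z ≤ C) (hD : 0 ≤ D) (hμ : D * (C * b) ≤ μ / 2) (hμ0 : 0 ≤ μ)
    (py : -(μ / 2) ≤ A * y - V * y ^ 2 - B + c * y ^ 3)
    (pb : A * b - V * b ^ 2 - B + c * b ^ 3 ≤ -μ)
    (pz : -(μ / 2) ≤ A * z - V * z ^ 2 - B + c * z ^ 3) (hx : z ≤ x) :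
    D * (x - z) ^ 2 ≤ (A * x - V * x ^ 2 - B + c * x ^ 3) - (A * z - V * z ^ 2 - B + c * z ^ 3) := by
  have zy : 0 < z - y := by linarith
  have zb : 0 < z - b := by linarith
  have by' : 0 < b - y := by linarith
  have e1 : μ / 2 * (z - y) ≤ (-V + c * (y + b + z)) * ((z - b) * (b - y)) * (z - y) := by
    have i1 := mul_le_mul_of_nonneg_right pz by'.le
    have i2 := mul_le_mul_of_nonneg_right py zb.le
    have i3 := mul_le_mul_of_nonneg_right pb zy.le
    linarith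
  have e2 : μ / 2 ≤ (-V + c * (y + b + z)) * ((z - b) * (b - y)) := le_of_mul_le_mul_right e1 zy
  have e3 : (z - b) * (b - y) ≤ C * b :=
    mul_le_mul (by linarith) (by linarith) by'.le (by linarith)
  have e4 : D ≤ -V + c * (y + b + z) := by
    have : D * ((z - b) * (b - y)) ≤ (-V + c * (y + b + z)) * ((z - b) * (b - y)) :=
      le_trans (mul_le_mul_of_nonneg_left e3 hD) (hμ.trans e2)
    exact le_of_mul_le_mul_right this (mul_pos zb by')
  have e5 : D ≤ -V + c * (x + b + z) := by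
    have : c * (y + b + z) ≤ c * (x + b + z) := mul_le_mul_of_nonneg_left (by linarith) hc
    linarith
  have xz : 0 ≤ x - z := by linarith
  have e6 : D * (x - z) ≤ (-V + c * (x + b + z)) * (x - b) :=
    mul_le_mul e5 (by linarith) xz (hD.trans e5)
  have e7 := mul_le_mul_of_nonneg_right e6 (mul_nonneg xz zb.le)
  have e8 : 0 ≤ (x - z) * ((A * z - V * z ^ 2 - B + c * z ^ 3) -
      (A * b - V * b ^ 2 - B + c * b ^ 3)) := mul_nonneg xz (by linarith)
  apply le_of_mul_le_mul_right _ zb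
  linarith

variable {M : ℕ} {κ q N S τ C c e δ f0 F α : ℝ} {r th f : ℕ → ℝ}

/-- the row polynomials are negative at `b` -/
lemma neg_at (h : RD M κ q N S τ C c e δ f0 F α r th f) (hM : 0 < M) (hq : 0 ≤ q) (hk : q ≤ κ)
    (hN : q ≤ N) (hS : 0 ≤ S) (hτ : 0 ≤ τ) {b e1 : ℝ} (hb : 0 < b) (hcb : c * b ≤ 1 / 2)
    (ha : aR (2 * M + 1) α (vv M κ q N) (TT M S τ) r (M + 1) ≤ b / 2 - e1)
    {k : ℕ} (h2 : 2 ≤ k) (hk2 : k ≤ 2 * M) :
    H0 (2 * M + 1) α c (vv M κ q N) (TT M S τ) r th k b ≤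
      -(e1 * b) + q * b ^ 2 + τ * b + C ^ 2 * (N / M) := by
  have hN0 : 0 ≤ N := hq.trans hN
  have hw : 0 ≤ C ^ 2 * (N / M) := by positivity
  have hτb : 0 ≤ τ * b := by positivity
  have A : ∀ l, 2 ≤ l → l ≤ M + 1 →
      H0 (2 * M + 1) α c (vv M κ q N) (TT M S τ) r th l b ≤ -(e1 * b) + q * b ^ 2 := by
    intro l l2 lM
    have a1 := a_mono h hM hq hk hN0 lM (by omega)
    have a2 := TT_anti hM hS hτ lM (by omega : M + 1 ≤ 2 * M + 1)
    have a3 := g_nn h hM hq hk hN0 (l := l) (by omega)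
    have a4 := (vv_A_bd (κ := κ) (N := N) hM hq (l := l + 1) (by omega) (by omega)).1
    have a5 := mul_le_mul_of_nonneg_right a4 (sq_nonneg b)
    have a6 : aR (2 * M + 1) α (vv M κ q N) (TT M S τ) r l * b ≤ (b / 2 - e1) * b :=
      mul_le_mul_of_nonneg_right (by linarith) hb.le
    have a7 := mul_le_mul_of_nonneg_right hcb (sq_nonneg b)
    unfold H0
    nlinarith
  rcases Nat.lt_or_ge (M + 1) k with a | a
  · have i := H0_sub (P := 2 * M + 1) (α := α) (c := c) (v := vv M κ q N) (T := TT M S τ) (r := r)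
      (th := th) (j := M + 1) (k := k) (by omega) a.le (by omega) b
    have b1 := (brk h hM hq hk hN (j := M + 1) (k := k) (by omega) a.le hk2).2
    have b2 := A (M + 1) (by omega) le_rfl
    have b3 : 0 ≤ ∑ i ∈ Ico (M + 1 + 1) (k + 1),
        (vv M κ q N (i + 1) - vv M κ q N i) * (b - r i) ^ 2 := by
      apply sum_nonneg
      intro i hi
      rw [mem_Ico] at hi
      exact mul_nonneg (dv_nn hM hq hk hN0 (by omega) (by omega)) (sq_nonneg _)
    have b4 := TT_anti hM hS hτ (j := k) (k := 2 * M + 1) (by omega) le_rfl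
    rw [TT_B hM (l := 2 * M + 1) (by omega) le_rfl] at b4
    have b5 : TT M S τ (M + 1) = 3 * τ := by
      rw [TT_A le_rfl]
      push_cast
      ring
    have b6 : (TT M S τ (M + 1) - TT M S τ k) * b ≤ τ * b := by
      apply mul_le_mul_of_nonneg_right _ hb.le
      push_cast at b4
      have : τ * (2 * (M : ℝ) + 1 - (2 * M + 1)) / M = 0 := by ring
      linarith
    linarith
  · have := A k h2 a
    linarith

/-- lower bound for the increments of the row polynomials -/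
lemma H0_low (h : RD M κ q N S τ C c e δ f0 F α r th f) (hM : 0 < M) (hq : 0 ≤ q) (hk : q ≤ κ)
    (hN : q ≤ N) {j k : ℕ} (h2 : 2 ≤ j) (hjk : j ≤ k) (hk2 : k ≤ 2 * M) {x Y : ℝ}
    (hY : ∀ i, j < i → i ≤ k → (x - r i) ^ 2 ≤ Y) :
    (TT M S τ j - TT M S τ k) * x - (vv M κ q N (k + 1) - vv M κ q N (j + 1)) * Y -
      7 * C ^ 2 * (N / M) ≤
    H0 (2 * M + 1) α c (vv M κ q N) (TT M S τ) r th k x -
      H0 (2 * M + 1) α c (vv M κ q N) (TT M S τ) r th j x := by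
  have hN0 : 0 ≤ N := hq.trans hN
  rw [H0_sub (by omega) hjk (by omega)]
  have b1 := (brk h hM hq hk hN h2 hjk hk2).1
  have b2 : ∑ i ∈ Ico (j + 1) (k + 1), (vv M κ q N (i + 1) - vv M κ q N i) * (x - r i) ^ 2 ≤
      (vv M κ q N (k + 1) - vv M κ q N (j + 1)) * Y := by
    rw [← v_sub _ (Nat.succ_le_succ hjk), sum_mul]
    apply sum_le_sum
    intro i hi
    rw [mem_Ico] at hi
    exact mul_le_mul_of_nonneg_left (hY i (by omega) (by omega))
      (dv_nn hM hq hk hN0 (by omega) (by omega))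
  linarith

lemma vv_inc (hM : 0 < M) (hN : q ≤ N) {j k : ℕ} (h2 : 2 ≤ j) (hjk : j ≤ k)
    (hk2 : k ≤ 2 * M + 2) : vv M κ q N k - vv M κ q N j ≤ ((k : ℝ) - j) * (N / M) := by
  rw [← v_sub _ hjk]
  refine le_trans (sum_le_card_nsmul _ _ (N / M) ?_) ?_
  · intro i hi
    rw [mem_Ico] at hi
    exact dv_le hM hN (by omega) (by omega)
  · rw [Nat.card_Ico, nsmul_eq_mul, Nat.cast_sub hjk]

lemma low_prev (h : RD M κ q N S τ C c e δ f0 F α r th f) (hM : 0 < M) (hq : 0 ≤ q) (hk : q ≤ κ)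
    (hN : q ≤ N) (hS : 0 ≤ S) (hτ : 0 ≤ τ) (hC : 0 ≤ C) {nb j k : ℕ} (j2 : 2 ≤ j) (jk : j < k)
    (jnb : k ≤ j + nb + 1) (kM : k ≤ 2 * M) (gj : th j ≤ r j ^ 2 + δ ^ 2)
    (gk : th k ≤ r k ^ 2 + δ ^ 2) :
    -(2 * e + (nb + 8) * C ^ 2 * (N / M)) ≤
      H0 (2 * M + 1) α c (vv M κ q N) (TT M S τ) r th k (r j) + f k := by
  have hN0 : 0 ≤ N := hq.trans hN
  have hw : 0 ≤ N / M := by positivity
  have rj0 := h.r0 j (by omega) (by omega)
  have b1 := H0_low h hM hq hk hN j2 jk.le kM (x := r j) (Y := C ^ 2) (by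
    intro i i1 i2
    have c1 := h.rm j i (by omega) i1.le (by omega)
    have c2 := r_le h hC (l := i) (by omega) (by omega)
    nlinarith only [c1, c2, rj0])
  have b2 : -e ≤ H0 (2 * M + 1) α c (vv M κ q N) (TT M S τ) r th j (r j) + f j :=
    (abs_le.1 (h.row j j2 (by omega) gj)).1
  have b3 := h.fm j k j2 jk.le kM gk
  have b4 := TT_anti hM hS hτ jk.le (by omega : k ≤ 2 * M + 1)
  have b5 : 0 ≤ (TT M S τ j - TT M S τ k) * r j := mul_nonneg (by linarith only [b4]) rj0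
  have b6 := vv_inc (κ := κ) hM hN (j := j + 1) (k := k + 1) (by omega) (by omega) (by omega)
  have c1 : (k : ℝ) ≤ j + nb + 1 := by exact_mod_cast jnb
  have b7 : (((k + 1 : ℕ) : ℝ) - ((j + 1 : ℕ) : ℝ)) * (N / M) ≤ (nb + 1) * (N / M) := by
    apply mul_le_mul_of_nonneg_right _ hw
    push_cast
    linarith only [c1]
  have b8 := mul_le_mul_of_nonneg_right (b6.trans b7) (sq_nonneg C)
  linarith only [b1, b2, b3, b5, b8]

lemma drift (h : RD M κ q N S τ C c e δ f0 F α r th f) (hM : 0 < M) (hq : 0 ≤ q) (hk : q ≤ κ)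
    (hN : q ≤ N) (hS : 0 ≤ S) (hτ : 0 ≤ τ) {nb m0 k : ℕ} {b D : ℝ} (hb : 0 < b)
    (hnb : 6 * C ^ 2 ≤ (nb + 1) * δ ^ 2) (n3 : q + (m0 + nb) * (N / M) ≤ D)
    (k2 : 2 ≤ k) (kM : max k (M + 1) + m0 + nb ≤ 2 * M) (gk : th k ≤ r k ^ 2 + δ ^ 2)
    (rk : b < r k)
    (cu : ∀ x, r k ≤ x → D * (x - r k) ^ 2 ≤ H0 (2 * M + 1) α c (vv M κ q N) (TT M S τ) r th k x -
      H0 (2 * M + 1) α c (vv M κ q N) (TT M S τ) r th k (r k)) :
    m0 * (τ / M) * b ≤ 3 * e + 7 * C ^ 2 * (N / M) := by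
  have hN0 : 0 ≤ N := hq.trans hN
  have hM' : (0 : ℝ) < M := by positivity
  have hw : 0 ≤ N / M := by positivity
  obtain ⟨B, hB, B1, B2, c3⟩ : ∃ B, B = max k (M + 1) ∧ k ≤ B ∧ M + 1 ≤ B ∧
      vv M κ q N (B + 1) - vv M κ q N (k + 1) ≤ q := by
    refine ⟨_, rfl, le_max_left _ _, le_max_right _ _, ?_⟩
    rcases Nat.lt_or_ge (M + 1) k with a | a
    · rw [max_eq_left a.le]
      linarith only [hq]
    · rw [max_eq_right a]
      have d1 := (vv_A_bd (κ := κ) (N := N) hM hq (l := k + 1) (by omega) (by omega)).1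
      have d2 := (vv_A_bd (κ := κ) (N := N) hM hq (l := M + 1 + 1) (by omega) (by omega)).2
      linarith only [d1, d2]
  rw [← hB] at kM
  clear hB
  obtain ⟨k', a1, a2, gk'⟩ := good_win h hnb (a := B + m0) (by omega) (by omega)
  have kk' : k ≤ k' := by omega
  have rk' := h.rm k k' (by omega) kk' (by omega)
  have cu' := cu _ rk'
  have p3 : -e ≤ H0 (2 * M + 1) α c (vv M κ q N) (TT M S τ) r th k (r k) + f k :=
    (abs_le.1 (h.row k k2 (by omega) gk)).1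
  have q1 := H0_low h hM hq hk hN k2 kk' (by omega) (x := r k') (Y := (r k' - r k) ^ 2) (by
    intro i i1 i2
    have c1 := h.rm k i (by omega) i1.le (by omega)
    have c2 := h.rm i k' (by omega) i2 (by omega)
    nlinarith only [c1, c2])
  have q2 : H0 (2 * M + 1) α c (vv M κ q N) (TT M S τ) r th k' (r k') + f k' ≤ e :=
    (abs_le.1 (h.row k' (by omega) (by omega) gk')).2
  have q3 := h.fm k k' k2 kk' (by omega) gk'
  have cB : (B : ℝ) + m0 ≤ k' := by exact_mod_cast a1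
  have cB' : (k' : ℝ) ≤ B + m0 + nb := by exact_mod_cast a2
  have q4 : m0 * (τ / M) ≤ TT M S τ k - TT M S τ k' := by
    have c1 := TT_anti hM hS hτ (j := k) (k := B) (by omega) (by omega)
    rw [TT_B hM (l := B) (by omega) (by omega)] at c1
    rw [TT_B hM (l := k') (by omega) (by omega)]
    have c2 : m0 * (τ / M) ≤ (k' - (B : ℝ)) * (τ / M) :=
      mul_le_mul_of_nonneg_right (by linarith only [cB]) (by positivity)
    have c3 : (k' - (B : ℝ)) * (τ / M) =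
        τ * (2 * (M : ℝ) + 1 - (B : ℝ)) / M - τ * (2 * (M : ℝ) + 1 - k') / M := by
      ring
    linarith only [c1, c2, c3]
  have q5 : vv M κ q N (k' + 1) - vv M κ q N (k + 1) ≤ D := by
    have c1 := vv_inc (κ := κ) hM hN (j := B + 1) (k := k' + 1) (by omega) (by omega) (by omega)
    have c2 : (((k' + 1 : ℕ) : ℝ) - ((B + 1 : ℕ) : ℝ)) * (N / M) ≤ (m0 + nb) * (N / M) := by
      apply mul_le_mul_of_nonneg_right _ hw
      push_cast
      linarith only [cB']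
    linarith only [c1, c2, c3, n3]
  have q6 := mul_le_mul_of_nonneg_right q5 (sq_nonneg (r k' - r k))
  have q7 : m0 * (τ / M) * b ≤ (TT M S τ k - TT M S τ k') * r k' :=
    mul_le_mul q4 (by linarith only [rk, rk']) hb.le (le_trans (by positivity) q4)
  linarith only [q1, q2, q3, q6, q7, cu', p3]

/-- **the crossing claim** -/
lemma claim (h : RD M κ q N S τ C c e δ f0 F α r th f) (hM : 0 < M) (hq : 0 ≤ q) (hk : q ≤ κ)
    (hN : q ≤ N) (hS : 0 ≤ S) (hτ : 0 ≤ τ) (hC : 1 ≤ C) (hc : 0 ≤ c) {nb m0 l0 l1 : ℕ}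
    {b e1 : ℝ} (hb : 0 < b) (hcb : c * b ≤ 1 / 2) (he1 : 0 < e1)
    (hnb : 6 * C ^ 2 ≤ (nb + 1) * δ ^ 2)
    (n1 : q * b ^ 2 + τ * b + C ^ 2 * (N / M) + F ≤ e1 * b / 2)
    (n2 : 2 * e + (nb + 8) * C ^ 2 * (N / M) ≤ e1 * b / 4)
    (n3 : q + (m0 + nb) * (N / M) ≤ e1 / (4 * C))
    (n4 : 3 * e + 7 * C ^ 2 * (N / M) < m0 * (τ / M) * b)
    (l02 : 2 ≤ l0) (l0M : l0 ≤ 2 * M) (g0 : th l0 ≤ r l0 ^ 2 + δ ^ 2) (r0 : r l0 ≤ b)
    (l12 : M + 1 ≤ l1) (l1M : l1 + m0 + nb ≤ 2 * M) (g1 : th l1 ≤ r l1 ^ 2 + δ ^ 2)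
    (r1 : b < r l1) :
    b / 2 - e1 ≤ aR (2 * M + 1) α (vv M κ q N) (TT M S τ) r (M + 1) := by
  classical
  by_contra ha
  push Not at ha
  have hN0 : 0 ≤ N := hq.trans hN
  have hC0 : 0 < C := by linarith only [hC]
  have he : 0 ≤ e := le_trans (abs_nonneg _) (h.row l0 l02 l0M g0)
  have row : ∀ l, 2 ≤ l → l ≤ 2 * M → th l ≤ r l ^ 2 + δ ^ 2 →
      -e ≤ H0 (2 * M + 1) α c (vv M κ q N) (TT M S τ) r th l (r l) + f l :=
    fun l a1 a2 a3 => (abs_le.1 (h.row l a1 a2 a3)).1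
  have neg : ∀ l, 2 ≤ l → l ≤ 2 * M → th l ≤ r l ^ 2 + δ ^ 2 →
      H0 (2 * M + 1) α c (vv M κ q N) (TT M S τ) r th l b + f l ≤ -(e1 * b / 2) := by
    intro l a1 a2 a3
    have b1 := neg_at h hM hq hk hN hS hτ hb hcb ha.le a1 a2
    have b2 := (h.fb l a1 a2 a3).2
    linarith only [b1, b2, n1]
  have ex : ∃ l, 2 ≤ l ∧ l ≤ 2 * M ∧ th l ≤ r l ^ 2 + δ ^ 2 ∧ b < r l :=
    ⟨l1, by omega, by omega, g1, r1⟩
  obtain ⟨k2, kM, gk, rk⟩ := Nat.find_spec ex
  have kmin : ∀ l, l < Nat.find ex → 2 ≤ l → l ≤ 2 * M → th l ≤ r l ^ 2 + δ ^ 2 → r l ≤ b := by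
    intro l a0 a1 a2 a3
    by_contra a4
    exact Nat.find_min ex a0 ⟨a1, a2, a3, not_le.1 a4⟩
  have kl1 : Nat.find ex ≤ l1 := Nat.find_min' ex ⟨by omega, by omega, g1, r1⟩
  generalize Nat.find ex = k at k2 kM gk rk kmin kl1
  have l0k : l0 < k := by
    by_contra a
    have := h.rm k l0 (by omega) (by omega) (by omega)
    linarith only [this, rk, r0]
  obtain ⟨j, j2, jk, jnb, gj⟩ : ∃ j, 2 ≤ j ∧ j < k ∧ k ≤ j + nb + 1 ∧
      th j ≤ r j ^ 2 + δ ^ 2 := by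
    rcases Nat.lt_or_ge k (nb + 3) with a | a
    · exact ⟨l0, l02, l0k, by omega, g0⟩
    · obtain ⟨j, a1, a2, a3⟩ := good_win h hnb (a := k - (nb + 1)) (by omega) (by omega)
      exact ⟨j, by omega, by omega, by omega, a3⟩
  have rj := kmin j jk j2 (by omega) gj
  have eb : 0 < e1 * b := mul_pos he1 hb
  have hnbw : 0 ≤ ((nb : ℝ) + 8) * C ^ 2 * (N / M) := by positivity
  have rjb : r j < b := by
    rcases rj.eq_or_lt with a | a
    · have b1 := row j j2 (by omega) gj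
      have b2 := neg j j2 (by omega) gj
      rw [a] at b1
      linarith only [b1, b2, n2, eb, hnbw, he]
    · exact a
  have p1 := low_prev h hM hq hk hN hS hτ hC0.le j2 jk jnb kM gj gk
  have p2 := neg k k2 kM gk
  have p3 := row k k2 kM gk
  have := drift h hM hq hk hN hS hτ hb hnb n3 k2 (by omega) gk rk (by
    intro x hx
    have cu := cubic (A := aR (2 * M + 1) α (vv M κ q N) (TT M S τ) r k) (V := vv M κ q N (k + 1))
      (B := gR (vv M κ q N) th k - f k) (c := c) (μ := e1 * b / 2) (D := e1 / (4 * C)) (x := x)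
      hc (h.r0 j (by omega) (by omega)) rjb rk (r_le h hC0.le (l := k) (by omega) (by omega))
      (by positivity) (by apply le_of_eq; field_simp; norm_num) (by positivity)
      (by unfold H0 at p1; linarith only [p1, n2]) (by unfold H0 at p2; linarith only [p2])
      (by unfold H0 at p3; linarith only [p3, n2, hnbw, he]) hx
    unfold H0
    linarith only [cu])
  linarith only [this, n4]

end Vale.Agent.N146.Sharp.RL
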