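import Vale.Agent.N146.Sharp.RealL1

/-!
# P146 (c): L-side, the Riemann sum (helper68)
-/

namespace Vale.Agent.N146.Sharp.RL

open Finset

/-- primitive of `2 c t (b - t) ^ 2` -/
noncomputable def GG (c b t : ℝ) : ℝ := 2 * c * (b ^ 2 * t ^ 2 / 2 - 2 * b * t ^ 3 / 3 + t ^ 4 / 4)

/-- the truncated root -/
noncomputable def tr (c b s : ℝ) : ℝ := min (√(s / c)) b

lemma GG_inc {c b x y : ℝ} (hc : 0 ≤ c) (hx : 0 ≤ x) (hxy : x ≤ y) (hy : y ≤ b) :
    GG c b y - GG c b x ≤ c * (y ^ 2 - x ^ 2) * (b - x) ^ 2 := by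
  obtain ⟨u, rfl⟩ : ∃ u, y = x + u := ⟨y - x, by ring⟩
  obtain ⟨w, rfl⟩ : ∃ w, b = x + u + w := ⟨b - x - u, by ring⟩
  have hu : 0 ≤ u := by linarith
  have hw : 0 ≤ w := by linarith
  have : 0 ≤ 2 * c * (x * u ^ 2 * (w + 2 * u / 3) + u ^ 3 * (2 * w / 3 + 5 * u / 12)) := by
    positivity
  unfold GG
  linarith

lemma tr_nn {c b s : ℝ} (hb : 0 ≤ b) : 0 ≤ tr c b s := le_min (Real.sqrt_nonneg _) hb

lemma tr_le {c b s : ℝ} : tr c b s ≤ b := min_le_right _ _

lemma tr_sq {c b s : ℝ} (hc : 0 < c) (hb : 0 ≤ b) (hs : 0 ≤ s) : c * tr c b s ^ 2 ≤ s := by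
  have h1 : tr c b s ^ 2 ≤ √(s / c) ^ 2 := pow_le_pow_left₀ (tr_nn hb) (min_le_left _ _) 2
  rw [Real.sq_sqrt (by positivity), le_div_iff₀ hc] at h1
  linarith

lemma le_tr {c b s x : ℝ} (hc : 0 < c) (hx : x ≤ b) (h : c * x ^ 2 ≤ s) : x ≤ tr c b s := by
  refine le_min (Real.le_sqrt_of_sq_le ?_) hx
  rw [le_div_iff₀ hc]
  linarith

lemma tr_step {c b s w : ℝ} (hc : 0 < c) (hb : 0 ≤ b) (hs : 0 ≤ s) (hw : 0 ≤ w) :
    GG c b (tr c b (s + w)) - GG c b (tr c b s) ≤ w * (b - tr c b s) ^ 2 := by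
  have m : tr c b s ≤ tr c b (s + w) := le_tr hc tr_le (by linarith [tr_sq hc hb hs])
  refine (GG_inc hc.le (tr_nn hb) m tr_le).trans ?_
  rcases le_total (√(s / c)) b with a | a
  · apply mul_le_mul_of_nonneg_right _ (sq_nonneg _)
    have e1 : tr c b s = √(s / c) := min_eq_left a
    have e2 : c * tr c b s ^ 2 = s := by
      rw [e1, Real.sq_sqrt (by positivity)]
      field_simp
    have e3 := tr_sq hc hb (s := s + w) (by linarith)
    linarith
  · have e1 : tr c b s = b := min_eq_right a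
    rw [e1]
    simp

variable {M : ℕ} {κ q N S τ C c e δ f0 F α : ℝ} {r th f : ℕ → ℝ}

lemma sumL (h : RD M κ q N S τ C c e δ f0 F α r th f) (hS : 0 ≤ S) {nb : ℕ}
    (hnb : 6 * C ^ 2 ≤ (nb + 1) * δ ^ 2) (hM : nb + 1 ≤ M) {cc b e2 : ℝ} (hc : 0 < cc)
    (hb : 0 ≤ b) (he : 0 ≤ e2) (hK : cc * b ^ 2 ≤ ((M : ℝ) - 1 - nb) * (S / M))
    (H : ∀ l, 2 ≤ l → l ≤ M + 1 → th l ≤ r l ^ 2 + δ ^ 2 → r l < b →
      cc * (b - r l) ^ 2 ≤ S * ((M : ℝ) + 1 - l) / M + e2) :
    cc * b ^ 4 / 6 - (e2 + (nb + 1) * (S / M)) * b ^ 2 ≤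
      ∑ i ∈ Icc 2 (M + 1), S / M * th (i - 1) := by
  have hw : 0 ≤ S / M := by positivity
  obtain ⟨e3, he3⟩ : ∃ e3, e3 = e2 + (nb + 1) * (S / M) := ⟨_, rfl⟩
  have e30 : 0 ≤ e3 := by rw [he3]; positivity
  have pt : ∀ m : ℕ, m + nb + 2 ≤ M → (b - tr cc b (e3 + m * (S / M))) ^ 2 ≤ th (M - m) := by
    intro m hm
    obtain ⟨l, a1, a2, a3⟩ := good_win h hnb (a := M - m - nb) (by omega) (by omega)
    have r0 := h.r0 l (by omega) (by omega)
    have b1 : b - r l ≤ tr cc b (e3 + m * (S / M)) := by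
      rcases lt_or_ge (r l) b with a | a
      · apply le_tr hc (by linarith)
        refine (H l (by omega) (by omega) a3 a).trans ?_
        have c1 : M ≤ l + m + nb := by omega
        have c2 : (M : ℝ) ≤ l + m + nb := by exact_mod_cast c1
        have c3 : ((M : ℝ) + 1 - l) * (S / M) ≤ (m + nb + 1) * (S / M) :=
          mul_le_mul_of_nonneg_right (by linarith) hw
        have c4 : S * ((M : ℝ) + 1 - l) / M = ((M : ℝ) + 1 - l) * (S / M) := by ring
        rw [he3]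
        linarith
      · exact le_trans (by linarith) (tr_nn hb)
    have b2 : (b - tr cc b (e3 + m * (S / M))) ^ 2 ≤ r l ^ 2 :=
      pow_le_pow_left₀ (sub_nonneg.2 tr_le) (by linarith) 2
    exact b2.trans ((h.rt l (by omega) (by omega)).trans
      (h.tm l (M - m) (by omega) (by omega) (by omega)))
  have ind : ∀ K : ℕ, K + nb + 1 ≤ M → GG cc b (tr cc b (e3 + K * (S / M))) - GG cc b (tr cc b e3) ≤
      ∑ i ∈ Ico (M + 2 - K) (M + 2), S / M * th (i - 1) := by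
    intro K
    induction K with
    | zero => intro _; simp
    | succ K ih =>
      intro hK
      have i1 := ih (by omega)
      have i2 := pt K (by omega)
      have i3 := tr_step hc hb (s := e3 + K * (S / M)) (by positivity) hw
      have i4 := mul_le_mul_of_nonneg_left i2 hw
      rw [sum_eq_sum_Ico_succ_bot (by omega)]
      have e1 : M + 2 - (K + 1) + 1 = M + 2 - K := by omega
      have e2 : M + 2 - (K + 1) - 1 = M - K := by omega
      have e4 : e3 + ((K + 1 : ℕ) : ℝ) * (S / M) = e3 + K * (S / M) + S / M := by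
        push_cast
        ring
      rw [e1, e2, e4]
      linarith
  obtain ⟨K, rfl⟩ : ∃ K, M = K + nb + 1 := ⟨M - nb - 1, by omega⟩
  have f1 := ind K le_rfl
  have f2 : tr cc b (e3 + K * (S / ((K + nb + 1 : ℕ) : ℝ))) = b := by
    apply le_antisymm tr_le (le_tr hc le_rfl _)
    have : ((K + nb + 1 : ℕ) : ℝ) - 1 - nb = K := by
      push_cast
      ring
    rw [this] at hK
    linarith
  have f3 := GG_inc hc.le le_rfl (tr_nn (c := cc) (s := e3) hb) tr_le
  have f4 := mul_le_mul_of_nonneg_right (tr_sq hc hb e30) (sq_nonneg b)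
  have f5 : ∑ i ∈ Ico (K + nb + 1 + 2 - K) (K + nb + 1 + 2),
      S / ((K + nb + 1 : ℕ) : ℝ) * th (i - 1) ≤
      ∑ i ∈ Icc 2 (K + nb + 1 + 1), S / ((K + nb + 1 : ℕ) : ℝ) * th (i - 1) := by
    apply sum_le_sum_of_subset_of_nonneg
    · intro i hi
      rw [mem_Ico] at hi
      rw [mem_Icc]
      omega
    · intro i hi _
      rw [mem_Icc] at hi
      exact mul_nonneg hw (th_nn h (by omega) (by omega))
  rw [f2] at f1
  rw [← he3]
  unfold GG at f1 f3
  linarith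

lemma rowA (h : RD M κ q N S τ C c e δ f0 F α r th f) (hM : 0 < M) (hq : 0 ≤ q) (hk : q ≤ κ)
    (hN : 0 ≤ N) (hf : κ * δ ^ 2 + e < f0) {l : ℕ} (l2 : 2 ≤ l) (lM : l ≤ M + 1)
    (g : th l ≤ r l ^ 2 + δ ^ 2) :
    aR (2 * M + 1) α (vv M κ q N) (TT M S τ) r l ≤ (1 + κ) * r l - c * r l ^ 2 := by
  have hκ : 0 ≤ κ := hq.trans hk
  have a1 := (abs_le.1 (h.row l l2 (by omega) g)).2
  have a2 := (h.fb l l2 (by omega) g).1
  have a3 := g_le h hM hq hk hN (l := l) (by omega) (by omega)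
  have a4 := (vv_A_bd (κ := κ) (N := N) hM hq l2 (by omega)).2
  have a5 := (vv_A_bd (κ := κ) (N := N) hM hq (l := l + 1) (by omega) (by omega)).2
  rw [vv_one] at a3
  have a6 : (vv M κ q N l - (1 - κ)) * th l ≤ κ * th l :=
    mul_le_mul_of_nonneg_right (by linarith) (th_nn h (by omega) (by omega))
  have a7 := mul_le_mul_of_nonneg_left g hκ
  have a8 := mul_le_mul_of_nonneg_right a5 (sq_nonneg (r l))
  have a9 : aR (2 * M + 1) α (vv M κ q N) (TT M S τ) r l * r l <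
      ((1 + κ) * r l - c * r l ^ 2) * r l := by linarith
  exact (lt_of_mul_lt_mul_right a9 (h.r0 l (by omega) (by omega))).le

lemma aA (h : RD M κ q N S τ C c e δ f0 F α r th f) (hM : 0 < M) (hq : 0 ≤ q) (hk : q ≤ κ)
    (hN : 0 ≤ N) (hC : 0 ≤ C) {l : ℕ} (l2 : 2 ≤ l) (lM : l ≤ M + 1) :
    aR (2 * M + 1) α (vv M κ q N) (TT M S τ) r (M + 1) - S * ((M : ℝ) + 1 - l) / M - 2 * q * C ≤
      aR (2 * M + 1) α (vv M κ q N) (TT M S τ) r l := by
  have a1 := a_sub (P := 2 * M + 1) (α := α) (v := vv M κ q N) (T := TT M S τ) (r := r) lM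
    (by omega)
  have a2 : ∑ i ∈ Ico (l + 1) (M + 1 + 1), (vv M κ q N (i + 1) - vv M κ q N i) * r i ≤
      (vv M κ q N (M + 1 + 1) - vv M κ q N (l + 1)) * C := by
    rw [← v_sub _ (Nat.succ_le_succ lM), sum_mul]
    apply sum_le_sum
    intro i hi
    rw [mem_Ico] at hi
    exact mul_le_mul_of_nonneg_left (r_le h hC (by omega) (by omega))
      (dv_nn hM hq hk hN (by omega) (by omega))
  have d1 := (vv_A_bd (κ := κ) (N := N) hM hq (l := l + 1) (by omega) (by omega)).1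
  have d2 := (vv_A_bd (κ := κ) (N := N) hM hq (l := M + 1 + 1) (by omega) (by omega)).2
  have a3 : (vv M κ q N (M + 1 + 1) - vv M κ q N (l + 1)) * C ≤ q * C :=
    mul_le_mul_of_nonneg_right (by linarith) hC
  rw [TT_A lM, TT_A le_rfl] at a1
  push_cast at a1
  have : S * ((M : ℝ) + 1 - (M + 1)) / M = 0 := by ring
  linarith

end Vale.Agent.N146.Sharp.RL
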