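import Vale.Agent.N146.Sharp.VT

/-! P146 (c): the crossing step of the L-side of the real-number part. -/

namespace Vale.Agent.N146.Sharp

open Finset Filter

/-- the linear coefficient at the last good level of the bundle A is almost `1 / (4 c)` -/
def Cross : Prop :=
  ∀ c0 c1 e1 N : ℝ, 0 < c0 → c0 ≤ c1 → 0 < e1 → 8 ≤ N →
    ∃ a0 : ℝ, 0 < a0 ∧ ∀ τ S C : ℝ, 0 < τ → τ ≤ a0 → 0 < S → 1 ≤ C →
      ∃ a1 : ℝ, 0 < a1 ∧ ∀ δ : ℝ, 0 < δ → δ ≤ a1 → ∃ M0 : ℕ, ∀ M : ℕ, M0 ≤ M →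
        ∀ (κ q c e f0 F α : ℝ) (r th f : ℕ → ℝ), 0 < q → q ≤ κ → q ≤ a1 → 0 ≤ c → c ≤ c1 →
          e ≤ a1 → 0 ≤ f0 → F ≤ a0 → RD M κ q N S τ C c e δ f0 F α r th f →
          (∀ l, 1 ≤ l → l ≤ 2 * M → N / 4 ≤ vv M κ q N (l + 1) → 1 / c0 ^ 2 ≤ th l) →
          ∀ j1 j0 : ℕ, 2 ≤ j1 → j1 ≤ M + 1 → th j1 ≤ r j1 ^ 2 + δ ^ 2 →
            r j1 ≤ 1 / (2 * max c c0) → 2 ≤ j0 → j0 ≤ M + 1 → th j0 ≤ r j0 ^ 2 + δ ^ 2 →
            (∀ l, j0 < l → l ≤ M + 1 → ¬th l ≤ r l ^ 2 + δ ^ 2) →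
            1 / (4 * max c c0) - e1 ≤ aR (2 * M + 1) α (vv M κ q N) (TT M S τ) r j0

namespace RX

/-- beyond the third root a cubic grows quadratically -/
theorem cubic {p A V c u b w x C μ D : ℝ} (hc : 0 ≤ c) (u0 : 0 ≤ u) (ub : u < b) (bw : b < w)
    (wx : w ≤ x) (wC : w ≤ C) (D0 : 0 ≤ D) (hD : D * (C * b) ≤ μ / 2)
    (hb : A * b - V * b ^ 2 + c * b ^ 3 + p ≤ -μ)
    (hu : -(μ / 2) ≤ A * u - V * u ^ 2 + c * u ^ 3 + p)
    (hw : -(μ / 2) ≤ A * w - V * w ^ 2 + c * w ^ 3 + p) :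
    A * w - V * w ^ 2 + c * w ^ 3 + p + D * (x - w) ^ 2 ≤ A * x - V * x ^ 2 + c * x ^ 3 + p := by
  have b0 : 0 < b := u0.trans_lt ub
  have d1 : 0 < b - u := sub_pos.2 ub
  have d2 : 0 < w - b := sub_pos.2 bw
  have d3 : 0 ≤ x - w := sub_nonneg.2 wx
  have μ0 : 0 ≤ μ / 2 := le_trans (mul_nonneg D0 (mul_nonneg (by linarith) b0.le)) hD
  have k1 := mul_le_mul_of_nonneg_right (show μ / 2 ≤ (A * w - V * w ^ 2 + c * w ^ 3 + p) -
    (A * b - V * b ^ 2 + c * b ^ 3 + p) by linarith) d1.le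
  have k2 := mul_le_mul_of_nonneg_right (show μ / 2 ≤ (A * u - V * u ^ 2 + c * u ^ 3 + p) -
    (A * b - V * b ^ 2 + c * b ^ 3 + p) by linarith) d2.le
  have k3 : μ / 2 * (w - u) ≤ (-V + c * (u + b + w)) * ((w - b) * (b - u)) * (w - u) := by
    linarith
  have k4 := le_of_mul_le_mul_right k3 (by linarith)
  have k5 : D * ((w - b) * (b - u)) ≤ D * (C * b) :=
    mul_le_mul_of_nonneg_left (mul_le_mul (by linarith) (by linarith) d1.le (by linarith)) D0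
  have k6 : D ≤ -V + c * (u + b + w) := le_of_mul_le_mul_right (by linarith) (mul_pos d2 d1)
  have k7 : D ≤ -V + c * (b + w + x) := by
    have := mul_le_mul_of_nonneg_left (show u + b + w ≤ b + w + x by linarith) hc
    linarith
  have k8 : D * (x - w) ≤ (-V + c * (b + w + x)) * (x - b) :=
    mul_le_mul k7 (by linarith) d3 (D0.trans k7)
  have k9 := mul_le_mul_of_nonneg_right k8 (mul_nonneg d3 d2.le)
  have k10 := mul_nonneg d3 (show 0 ≤ (A * w - V * w ^ 2 + c * w ^ 3 + p) -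
    (A * b - V * b ^ 2 + c * b ^ 3 + p) by linarith)
  refine le_of_mul_le_mul_right ?_ d2
  linarith

theorem ev (A : ℝ) {B : ℝ} (hB : 0 < B) : ∀ᶠ M : ℕ in atTop, A ≤ B * M :=
  (tendsto_natCast_atTop_atTop.const_mul_atTop hB).eventually_ge_atTop A

/-- the row as a cubic polynomial -/
noncomputable def HH (M : ℕ) (κ q N S τ c α : ℝ) (r th f : ℕ → ℝ) (l : ℕ) (x : ℝ) : ℝ :=
  aR (2 * M + 1) α (vv M κ q N) (TT M S τ) r l * x - vv M κ q N (l + 1) * x ^ 2 + c * x ^ 3 +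
    (f l - gR (vv M κ q N) th l)

theorem sum_dv (v : ℕ → ℝ) {j k : ℕ} (h : j ≤ k) : ∑ i ∈ Ico j k, (v (i + 1) - v i) = v k - v j := by
  induction k, h using Nat.le_induction with
  | base => simp
  | succ k hk ih => rw [sum_Ico_succ_top hk, ih]; ring

variable {M : ℕ} {κ q N S τ C c e δ f0 F α : ℝ} {r th f : ℕ → ℝ} {j k : ℕ}

theorem aR_sub (h2 : j ≤ k) (h3 : k ≤ 2 * M + 1) :
    aR (2 * M + 1) α (vv M κ q N) (TT M S τ) r k - aR (2 * M + 1) α (vv M κ q N) (TT M S τ) r j =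
      TT M S τ j - TT M S τ k +
        2 * ∑ i ∈ Ico (j + 1) (k + 1), (vv M κ q N (i + 1) - vv M κ q N i) * r i := by
  have e1 := sum_Ico_consecutive (fun i => (vv M κ q N (i + 1) - vv M κ q N i) * r i)
    (by omega : j + 1 ≤ k + 1) (by omega : k + 1 ≤ 2 * M + 1 + 1)
  simp only [aR]
  linarith

theorem HH_sub (h1 : 1 ≤ j) (h2 : j ≤ k) (h3 : k ≤ 2 * M + 1) (x : ℝ) :
    HH M κ q N S τ c α r th f k x - HH M κ q N S τ c α r th f j x =
      (TT M S τ j - TT M S τ k) * x +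
        ∑ i ∈ Ico (j + 1) (k + 1), (vv M κ q N (i + 1) - vv M κ q N i) * (2 * r i * x - x ^ 2) -
        ∑ i ∈ Ico j k, (vv M κ q N (i + 1) - vv M κ q N i) * th i + (f k - f j) := by
  have e1 := aR_sub (κ := κ) (q := q) (N := N) (S := S) (τ := τ) (α := α) (r := r) h2 h3
  have e2 := sum_dv (vv M κ q N) (by omega : j + 1 ≤ k + 1)
  have e3 := sum_Ico_consecutive (fun i => (vv M κ q N (i + 1) - vv M κ q N i) * th i) h1 h2
  have e4 : ∑ i ∈ Ico (j + 1) (k + 1), (vv M κ q N (i + 1) - vv M κ q N i) * (2 * r i * x - x ^ 2) =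
      2 * x * ∑ i ∈ Ico (j + 1) (k + 1), (vv M κ q N (i + 1) - vv M κ q N i) * r i -
        x ^ 2 * ∑ i ∈ Ico (j + 1) (k + 1), (vv M κ q N (i + 1) - vv M κ q N i) := by
    rw [mul_sum, mul_sum, ← sum_sub_distrib]
    exact sum_congr rfl fun i _ => by ring
  simp only [HH, gR]
  linear_combination x * e1 - e4 + x ^ 2 * e2 + e3

section

variable (H : RD M κ q N S τ C c e δ f0 F α r th f)
include H

theorem th_nonneg (h1 : 1 ≤ j) (h2 : j ≤ 2 * M + 1) : 0 ≤ th j := (sq_nonneg _).trans (H.rt j h1 h2)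

theorem r_le (hC : 0 ≤ C) (h1 : 1 ≤ j) (h2 : j ≤ 2 * M + 1) : r j ≤ C :=
  le_of_sq_le_sq (by linarith [H.rt j h1 h2, H.tC j h1 h2]) hC

theorem var_sub (h1 : 2 ≤ j) (h2 : k ≤ 2 * M + 1) : ∑ i ∈ Ico j k, (th i - r i ^ 2) ≤ 6 * C ^ 2 :=
  (sum_le_sum_of_subset_of_nonneg (Ico_subset_Ico h1 h2) fun i hi _ => by
    rw [mem_Ico] at hi
    exact sub_nonneg.2 (H.rt i (by omega) (by omega))).trans H.var

/-- a run of bad levels is short -/
theorem bad_run (hδ : 0 < δ) (h1 : 2 ≤ j) (hjk : j ≤ k) (h2 : k ≤ 2 * M + 1)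
    (hb : ∀ l, j ≤ l → l < k → ¬th l ≤ r l ^ 2 + δ ^ 2) : (k : ℝ) - j ≤ 6 * C ^ 2 / δ ^ 2 := by
  have h3 := card_nsmul_le_sum (Ico j k) (fun i => th i - r i ^ 2) (δ ^ 2) fun i hi => by
    rw [mem_Ico] at hi
    linarith [not_le.1 (hb i hi.1 hi.2)]
  rw [Nat.card_Ico, nsmul_eq_mul, Nat.cast_sub hjk] at h3
  rw [le_div_iff₀ (pow_pos hδ 2)]
  exact h3.trans (var_sub H h1 h2)

/-- every long window contains a good level -/
theorem window (hδ : 0 < δ) {x : ℝ} (h1 : 2 ≤ x) (h2 : x + (6 * C ^ 2 / δ ^ 2 + 1) ≤ 2 * M) :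
    ∃ l : ℕ, x ≤ l ∧ (l : ℝ) ≤ x + (6 * C ^ 2 / δ ^ 2 + 1) ∧ th l ≤ r l ^ 2 + δ ^ 2 := by
  by_contra hn
  have p0 : 0 ≤ 6 * C ^ 2 / δ ^ 2 := by positivity
  have k1 := Nat.le_ceil x
  have k2 := Nat.ceil_lt_add_one (by linarith : 0 ≤ x)
  have k3 := Nat.floor_le p0
  have k4 := Nat.lt_floor_add_one (6 * C ^ 2 / δ ^ 2)
  have h3 := bad_run H hδ (j := ⌈x⌉₊) (k := ⌈x⌉₊ + ⌊6 * C ^ 2 / δ ^ 2⌋₊ + 1)
    (by exact_mod_cast h1.trans k1) (by omega)
    (by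
      have : ((⌈x⌉₊ + ⌊6 * C ^ 2 / δ ^ 2⌋₊ : ℕ) : ℝ) ≤ (2 * M : ℕ) := by push_cast; linarith
      have := Nat.cast_le.1 this
      omega)
    fun l h4 h5 h6 => hn ⟨l, k1.trans (by exact_mod_cast h4), by
      have : (l : ℝ) ≤ (⌈x⌉₊ + ⌊6 * C ^ 2 / δ ^ 2⌋₊ : ℕ) := by exact_mod_cast Nat.lt_succ_iff.1 h5
      push_cast at this
      linarith, h6⟩
  push_cast at h3
  linarith

theorem row (h1 : 2 ≤ j) (h2 : j ≤ 2 * M) (hg : th j ≤ r j ^ 2 + δ ^ 2) :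
    |HH M κ q N S τ c α r th f j (r j)| ≤ e :=
  le_trans (le_of_eq (by unfold HH; congr 1; ring)) (H.row j h1 h2 hg)

variable (hM : 1 ≤ M) (hq : 0 ≤ q) (hκ : q ≤ κ) (hN : q ≤ N)
include hM hq hκ hN

theorem gR_nonneg (h2 : j ≤ 2 * M + 1) : 0 ≤ gR (vv M κ q N) th j :=
  sum_nonneg fun i hi => by
    rw [mem_Ico] at hi
    exact mul_nonneg (dv_nonneg hM hq hκ (hq.trans hN) hi.1) (th_nonneg H hi.1 (by omega))

theorem aR_mono (hS : 0 ≤ S) (hτ : 0 ≤ τ) (h2 : j ≤ k) (h3 : k ≤ 2 * M + 1) :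
    aR (2 * M + 1) α (vv M κ q N) (TT M S τ) r j ≤ aR (2 * M + 1) α (vv M κ q N) (TT M S τ) r k := by
  rw [← sub_nonneg, aR_sub h2 h3]
  exact add_nonneg (sub_nonneg.2 (TT_anti hM hS hτ h2)) (mul_nonneg zero_le_two
    (sum_nonneg fun i hi => by
      rw [mem_Ico] at hi
      exact mul_nonneg (dv_nonneg hM hq hκ (hq.trans hN) (by omega)) (H.r0 i (by omega) (by omega))))

omit hκ in
theorem dv_th (h1 : 2 ≤ j) (h2 : j ≤ 2 * M + 1) :
    (vv M κ q N (j + 1) - vv M κ q N j) * th j ≤ N / M * C ^ 2 :=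
  mul_le_mul (dv_mem hM hN h1 h2).2 (H.tC j (by omega) h2) (th_nonneg H (by omega) h2)
    (div_nonneg (hq.trans hN) (Nat.cast_nonneg M))

theorem HH_up (h1 : 2 ≤ j) (h2 : j < k) (h3 : k ≤ 2 * M + 1) (x : ℝ) :
    HH M κ q N S τ c α r th f k x - HH M κ q N S τ c α r th f j x ≤
      (TT M S τ j - TT M S τ k) * x + N / M * C ^ 2 + (f k - f j) := by
  have d0 : ∀ i, 1 ≤ i → 0 ≤ vv M κ q N (i + 1) - vv M κ q N i := fun i hi =>
    dv_nonneg hM hq hκ (hq.trans hN) hi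
  have k0 : ∀ i, j < i → i ≤ k → (vv M κ q N (i + 1) - vv M κ q N i) * (2 * r i * x - x ^ 2) ≤
      (vv M κ q N (i + 1) - vv M κ q N i) * th i := fun i h4 h5 =>
    mul_le_mul_of_nonneg_left (by linarith [H.rt i (by omega) (by omega), sq_nonneg (x - r i)])
      (d0 i (by omega))
  have k1 := sum_le_sum (s := Ico (j + 1) k) fun i hi =>
    k0 i (mem_Ico.1 hi).1 (mem_Ico.1 hi).2.le
  have k2 := (k0 k h2 le_rfl).trans (dv_th H hM hq hN (by omega) h3)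
  have k3 := mul_nonneg (d0 j (by omega)) (th_nonneg H (j := j) (by omega) (by omega))
  rw [HH_sub (by omega) h2.le h3, sum_Ico_succ_top h2, sum_eq_sum_Ico_succ_bot h2]
  linarith

theorem HH_lo1 (hS : 0 ≤ S) (hτ : 0 ≤ τ) (h1 : 2 ≤ j) (h2 : j ≤ k) (h3 : k ≤ 2 * M + 1) :
    -((k - j) * (N / M * C ^ 2)) + (f k - f j) ≤
      HH M κ q N S τ c α r th f k (r j) - HH M κ q N S τ c α r th f j (r j) := by
  have r0 := H.r0 j (by omega) (by omega)
  have k1 := mul_nonneg (sub_nonneg.2 (TT_anti hM hS hτ h2)) r0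
  have k2 : 0 ≤ ∑ i ∈ Ico (j + 1) (k + 1),
      (vv M κ q N (i + 1) - vv M κ q N i) * (2 * r i * r j - r j ^ 2) := sum_nonneg fun i hi => by
    rw [mem_Ico] at hi
    have := mul_le_mul_of_nonneg_right (H.rm j i (by omega) (by omega) (by omega)) r0
    exact mul_nonneg (dv_nonneg hM hq hκ (hq.trans hN) (by omega)) (by nlinarith)
  have k3 := sum_le_card_nsmul (Ico j k) (fun i => (vv M κ q N (i + 1) - vv M κ q N i) * th i)
    (N / M * C ^ 2) fun i hi => by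
      rw [mem_Ico] at hi
      exact dv_th H hM hq hN (by omega) (by omega)
  rw [Nat.card_Ico, nsmul_eq_mul, Nat.cast_sub h2] at k3
  rw [HH_sub (by omega) h2 h3]
  linarith

theorem HH_lo2 (h1 : 2 ≤ j) (h2 : j < k) (h3 : k ≤ 2 * M + 1) :
    (TT M S τ j - TT M S τ k) * r k - (vv M κ q N (k + 1) - vv M κ q N (j + 1)) * (r k - r j) ^ 2 -
      7 * (N / M * C ^ 2) + (f k - f j) ≤
      HH M κ q N S τ c α r th f k (r k) - HH M κ q N S τ c α r th f j (r k) := by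
  have d0 : ∀ i, 1 ≤ i → 0 ≤ vv M κ q N (i + 1) - vv M κ q N i := fun i hi =>
    dv_nonneg hM hq hκ (hq.trans hN) hi
  have k1 : ∑ i ∈ Ico (j + 1) (k + 1), ((vv M κ q N (i + 1) - vv M κ q N i) * r i ^ 2 -
      (vv M κ q N (i + 1) - vv M κ q N i) * (r k - r j) ^ 2) ≤ ∑ i ∈ Ico (j + 1) (k + 1),
      (vv M κ q N (i + 1) - vv M κ q N i) * (2 * r i * r k - r k ^ 2) := sum_le_sum fun i hi => by
    rw [mem_Ico] at hi
    have j1 := H.rm j i (by omega) (by omega) (by omega)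
    have j2 := H.rm i k (by omega) (by omega) h3
    have j3 := mul_le_mul_of_nonneg_left (pow_le_pow_left₀ (sub_nonneg.2 j2)
      (show r k - r i ≤ r k - r j by linarith) 2) (d0 i (by omega))
    linarith
  have k2 : ∑ i ∈ Ico (j + 1) k, ((vv M κ q N (i + 1) - vv M κ q N i) * th i -
      (vv M κ q N (i + 1) - vv M κ q N i) * r i ^ 2) ≤
      ∑ i ∈ Ico (j + 1) k, N / M * (th i - r i ^ 2) := sum_le_sum fun i hi => by
    rw [mem_Ico] at hi
    have := mul_le_mul_of_nonneg_right (dv_mem (κ := κ) hM hN (j := i) (by omega) (by omega)).2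
      (sub_nonneg.2 (H.rt i (by omega) (by omega)))
    linarith
  have k3 := mul_le_mul_of_nonneg_left (var_sub H (j := j + 1) (by omega) h3)
    (div_nonneg (hq.trans hN) (Nat.cast_nonneg M))
  have k4 := dv_th H hM hq hN h1 (by omega)
  have k5 := mul_nonneg (d0 k (by omega)) (sq_nonneg (r k))
  rw [sum_sub_distrib, ← sum_mul, sum_dv _ (by omega), sum_Ico_succ_top h2] at k1
  rw [sum_sub_distrib, ← mul_sum] at k2
  rw [HH_sub (by omega) h2.le h3, sum_eq_sum_Ico_succ_bot h2]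
  linarith

/-- if the linear coefficient is small, every row is negative at `b` -/
theorem stepA (hδ : 0 < δ) (hS : 0 ≤ S) (hτ : 0 ≤ τ) {b e1 : ℝ} (b0 : 0 < b) (cb : c * b ≤ 1 / 2)
    (h1 : 2 ≤ j) (h2 : j ≤ M + 1) (hb : ∀ l, j < l → l ≤ M + 1 → ¬th l ≤ r l ^ 2 + δ ^ 2)
    (ha : aR (2 * M + 1) α (vv M κ q N) (TT M S τ) r j ≤ b / 2 - e1)
    (h3 : 2 ≤ k) (h4 : k ≤ 2 * M) (hk : th k ≤ r k ^ 2 + δ ^ 2) :
    HH M κ q N S τ c α r th f k b ≤
      (-e1 + q * b + τ + S * (6 * C ^ 2 / δ ^ 2) / M) * b + F + N / M * C ^ 2 := by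
  have hM' : (0 : ℝ) < M := by positivity
  have k0 : ∀ i, 2 ≤ i → i ≤ j → HH M κ q N S τ c α r th f i b ≤ (-e1 + q * b) * b + f i :=
    fun i h5 h6 => by
      have j1 := mul_le_mul_of_nonneg_right
        ((aR_mono H hM hq hκ hN hS hτ h6 (by omega)).trans ha) b0.le
      have j2 := mul_le_mul_of_nonneg_right
        (vv_ge' (j := i + 1) hM hq hκ (hq.trans hN) (by omega)) (sq_nonneg b)
      have j3 := mul_le_mul_of_nonneg_right cb (sq_nonneg b)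
      have j4 := gR_nonneg H hM hq hκ hN (j := i) (by omega)
      unfold HH
      linarith
  have k1 := (H.fb k h3 h4 hk).2
  have k2 : 0 ≤ N / M * C ^ 2 := mul_nonneg (div_nonneg (hq.trans hN) hM'.le) (sq_nonneg C)
  rcases le_or_gt k j with h | h
  · have k3 : 0 ≤ (τ + S * (6 * C ^ 2 / δ ^ 2) / M) * b := by positivity
    linarith [k0 k h3 h]
  · have k3 := bad_run H hδ (j := j + 1) (k := M + 2) (by omega) (by omega) (by omega)
      fun l h5 h6 => hb l h5 (by omega)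
    have k4 := TT_anti hM hS hτ (show k ≤ 2 * M + 1 by omega)
    have k5 : S * ((M : ℝ) + 1 - j) / M ≤ S * (6 * C ^ 2 / δ ^ 2) / M :=
      div_le_div_of_nonneg_right (mul_le_mul_of_nonneg_left (by push_cast at k3; linarith) hS)
        hM'.le
    rw [TT_P hM] at k4
    have k6 := mul_le_mul_of_nonneg_right (show TT M S τ j - TT M S τ k ≤
      τ + S * (6 * C ^ 2 / δ ^ 2) / M by rw [TT_A h2]; linarith) b0.le
    linarith [HH_up H hM hq hκ hN h1 h (by omega) b, k0 j h1 le_rfl]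

/-- the rows cannot stay negative at `b` while the overlaps cross `b` -/
theorem stepB (hδ : 0 < δ) (hS : 0 ≤ S) (hτ : 0 < τ) (hc : 0 ≤ c) (hC : 0 ≤ C) (N8 : 8 ≤ N)
    {b μ D : ℝ} (b0 : 0 < b) (D0 : 0 < D) (D1 : D ≤ 1) (hD : D * (C * b) ≤ μ / 2) (qD : q ≤ D / 2)
    (hn : 6 * C ^ 2 / δ ^ 2 + 1 ≤ D / (4 * N) * M)
    (he : 2 * e + (6 * C ^ 2 / δ ^ 2 + 1) * (N / M * C ^ 2) < μ / 2)
    (he' : 3 * e + 7 * (N / M * C ^ 2) ≤ τ * (D / (4 * N)) * b)
    (hA : ∀ k, 2 ≤ k → k ≤ 2 * M → th k ≤ r k ^ 2 + δ ^ 2 → HH M κ q N S τ c α r th f k b ≤ -μ)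
    (hB : ∀ l, 1 ≤ l → l ≤ 2 * M → N / 4 ≤ vv M κ q N (l + 1) → th l ≤ r l ^ 2 + δ ^ 2 → b < r l)
    (h1 : 2 ≤ j) (h2 : j ≤ M + 1) (hj : th j ≤ r j ^ 2 + δ ^ 2) (hb : r j ≤ b) : False := by
  classical
  have hM' : (0 : ℝ) < M := by positivity
  have N0 : 0 < N := by linarith
  have n0 : 0 ≤ 6 * C ^ 2 / δ ^ 2 := by positivity
  have B0 : 0 ≤ N / M * C ^ 2 := by positivity
  have s0 : D / (4 * N) * M ≤ 1 / 32 * M := mul_le_mul_of_nonneg_right
    (by rw [div_le_iff₀ (by positivity)]; linarith) hM'.le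
  have e0 : 0 ≤ e := (abs_nonneg _).trans (row H h1 (by omega) hj)
  obtain ⟨l, l1, l2, l3⟩ := window H hδ (x := M + 1 + M / 4) (by linarith) (by linarith)
  have l4 : M + 1 ≤ l := by exact_mod_cast (show (M : ℝ) + 1 ≤ l by linarith)
  have l5 : l ≤ 2 * M := by exact_mod_cast (show (l : ℝ) ≤ 2 * M by linarith)
  have l6 : b < r l := hB l (by omega) l5 (by
    rw [vv_B hM (by omega) (by omega)]
    have : N / 4 ≤ (((l + 1 : ℕ) : ℝ) - (M + 2)) * N / M := by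
      rw [le_div_iff₀ hM']
      have := mul_le_mul_of_nonneg_right l1 N0.le
      push_cast
      linarith
    linarith) l3
  have ex : ∃ k, 2 ≤ k ∧ th k ≤ r k ^ 2 + δ ^ 2 ∧ b < r k := ⟨l, by omega, l3, l6⟩
  obtain ⟨k, ⟨k1, k2, k3⟩, k4, k5⟩ : ∃ k, (2 ≤ k ∧ th k ≤ r k ^ 2 + δ ^ 2 ∧ b < r k) ∧ k ≤ l ∧
      ∀ i, i < k → 2 ≤ i → th i ≤ r i ^ 2 + δ ^ 2 → r i ≤ b :=
    ⟨Nat.find ex, Nat.find_spec ex, Nat.find_min' ex ⟨by omega, l3, l6⟩,
      fun i h3 h4 h5 => not_lt.1 fun h6 => Nat.find_min ex h3 ⟨h4, h5, h6⟩⟩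
  have jk : j < k := not_le.1 fun h => by linarith [H.rm k j (by omega) h (by omega)]
  obtain ⟨i, i1, i2, i3, i4⟩ : ∃ i, j ≤ i ∧ i < k ∧ th i ≤ r i ^ 2 + δ ^ 2 ∧
      ∀ m, i < m → m < k → ¬th m ≤ r m ^ 2 + δ ^ 2 := by
    have j1 : j ≤ k - 1 := by omega
    have j2 := Nat.findGreatest_le (P := fun m => th m ≤ r m ^ 2 + δ ^ 2) (k - 1)
    exact ⟨_, Nat.le_findGreatest (P := fun m => th m ≤ r m ^ 2 + δ ^ 2) j1 hj, by omega,
      Nat.findGreatest_spec (P := fun m => th m ≤ r m ^ 2 + δ ^ 2) j1 hj,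
      fun m h3 h4 => Nat.findGreatest_is_greatest h3 (by omega)⟩
  have i5 := bad_run H hδ (j := i + 1) (k := k) (by omega) i2 (by omega) i4
  have i6 := abs_le.1 (row H (j := i) (by omega) (by omega) i3)
  have i7 := abs_le.1 (row H k1 (by omega) k2)
  have i8 : ((k : ℝ) - i) * (N / M * C ^ 2) ≤ (6 * C ^ 2 / δ ^ 2 + 1) * (N / M * C ^ 2) :=
    mul_le_mul_of_nonneg_right (by push_cast at i5; linarith) B0
  have i9 : 0 ≤ (6 * C ^ 2 / δ ^ 2 + 1) * (N / M * C ^ 2) := by positivity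
  have ib : r i < b := lt_of_le_of_ne (k5 i i2 (by omega) i3) fun h => by
    have := hA i (by omega) (by omega) i3
    rw [h] at i6
    linarith
  have c1 := HH_lo1 H hM hq hκ hN hS hτ.le (j := i) (by omega) i2.le (by omega)
  have c2 := H.fm i k (by omega) i2.le (by omega) k2
  have b1 : (M : ℝ) + 1 ≤ (max k (M + 1) : ℕ) := by exact_mod_cast le_max_right _ _
  have b2 : ((max k (M + 1) : ℕ) : ℝ) ≤ l := by exact_mod_cast max_le k4 l4
  have b3 : k ≤ max k (M + 1) := le_max_left _ _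
  have b4 : M + 1 ≤ max k (M + 1) := le_max_right _ _
  have b5 : vv M κ q N (max k (M + 1) + 1) - vv M κ q N (k + 1) ≤ q := by
    rcases le_total k (M + 1) with h | h
    · rw [max_eq_right h, vv_mid hM]
      linarith [vv_ge' (j := k + 1) hM hq hκ N0.le (by omega)]
    · rw [max_eq_left h]
      linarith
  generalize max k (M + 1) = p at b1 b2 b3 b4 b5
  obtain ⟨m, m1, m2, m3⟩ := window H hδ (x := p + D / (4 * N) * M) (by linarith) (by linarith)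
  have m4 : p < m := by exact_mod_cast (show (p : ℝ) < m by linarith)
  have m5 : m ≤ 2 * M := by exact_mod_cast (show (m : ℝ) ≤ 2 * M by linarith)
  have m6 := abs_le.1 (row H (j := m) (by omega) m5 m3)
  have m7 := H.rm k m (by omega) (by omega) (by omega)
  have m8 := H.fm k m k1 (by omega) m5 m3
  have c3 : HH M κ q N S τ c α r th f k (r k) + D * (r m - r k) ^ 2 ≤
      HH M κ q N S τ c α r th f k (r m) :=
    cubic hc (H.r0 i (by omega) (by omega)) ib k3 m7 (r_le H hC (by omega) (by omega)) D0.le hD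
      (hA k k1 (by omega) k2) (show _ ≤ HH M κ q N S τ c α r th f k (r i) by linarith)
      (show _ ≤ HH M κ q N S τ c α r th f k (r k) by linarith)
  have c4 := HH_lo2 H hM hq hκ hN k1 (show k < m by omega) (by omega)
  have c5 : vv M κ q N (m + 1) - vv M κ q N (k + 1) ≤ D := by
    have j1 : vv M κ q N (m + 1) - vv M κ q N (p + 1) = ((m : ℝ) - p) * (N / M) := by
      rw [vv_B hM (by omega) (by omega), vv_B hM (by omega) (by omega)]
      push_cast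
      ring
    have j2 : ((m : ℝ) - p) * (N / M) ≤ 2 * (D / (4 * N) * M) * (N / M) :=
      mul_le_mul_of_nonneg_right (by linarith) (by positivity)
    have j3 : 2 * (D / (4 * N) * M) * (N / M) = D / 2 := by field_simp; ring
    linarith
  have c6 : τ * (D / (4 * N)) ≤ TT M S τ k - TT M S τ m := by
    have j1 : TT M S τ p - TT M S τ m = ((m : ℝ) - p) * (τ / M) := by
      rw [TT_B hM b4 (by omega), TT_B hM (by omega) (by omega)]
      ring
    have j2 : D / (4 * N) * M * (τ / M) ≤ ((m : ℝ) - p) * (τ / M) :=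
      mul_le_mul_of_nonneg_right (by linarith) (by positivity)
    have j3 : D / (4 * N) * M * (τ / M) = τ * (D / (4 * N)) := by field_simp
    linarith [TT_anti hM hS hτ.le b3]
  have c7 : τ * (D / (4 * N)) * b < (TT M S τ k - TT M S τ m) * r m :=
    mul_lt_mul' c6 (k3.trans_le m7) b0.le (lt_of_lt_of_le (by positivity) c6)
  have c8 := mul_le_mul_of_nonneg_right c5 (sq_nonneg (r m - r k))
  linarith

end

end RX

open RX in
theorem cross : Cross := by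
  intro c0 c1 e1 N h0 h01 e0 N8
  have h1 : 0 < c1 := h0.trans_le h01
  have N0 : 0 < N := by linarith
  obtain ⟨b1, hb1, p1⟩ : ∃ b1 : ℝ, b1 = 1 / (2 * c1) ∧ 0 < b1 := ⟨_, rfl, by positivity⟩
  refine ⟨min (e1 / 10) (e1 * b1 / 20), by positivity, fun τ S C τ0 τa S0 C1 => ?_⟩
  have C0 : 0 < C := by linarith
  obtain ⟨D, D0, D1, DC⟩ : ∃ D : ℝ, 0 < D ∧ D ≤ 1 ∧ D * C ≤ e1 / 4 :=
    ⟨min (e1 / 4 / C) 1, by positivity, min_le_right _ _, (le_div_iff₀ C0).1 (min_le_left _ _)⟩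
  obtain ⟨a1, a0, a2, a3, a4, a5, a6⟩ : ∃ a1 : ℝ, 0 < a1 ∧ a1 ≤ e1 * c0 / 5 ∧ a1 ≤ D / 2 ∧
      a1 ≤ τ * (D / (4 * N)) * b1 / 8 ∧ a1 ≤ e1 * b1 / 16 ∧ a1 ≤ 1 / (2 * c0) :=
    ⟨min (min (e1 * c0 / 5) (D / 2)) (min (min (τ * (D / (4 * N)) * b1 / 8) (e1 * b1 / 16))
      (1 / (2 * c0))), by positivity, by simp only [min_le_iff, le_refl, true_or],
      by simp only [min_le_iff, le_refl, true_or, or_true],
      by simp only [min_le_iff, le_refl, true_or, or_true],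
      by simp only [min_le_iff, le_refl, true_or, or_true],
      by simp only [min_le_iff, le_refl, or_true]⟩
  refine ⟨a1, a0, fun δ δ0 δa => eventually_atTop.1 ?_⟩
  filter_upwards [ev (S * (6 * C ^ 2 / δ ^ 2)) (show 0 < e1 / 10 by positivity),
    ev ((6 * C ^ 2 / δ ^ 2 + 1) * (N * C ^ 2)) (show 0 < e1 * b1 / 17 by positivity),
    ev (7 * (N * C ^ 2)) (show 0 < τ * (D / (4 * N)) * b1 / 2 by positivity),
    ev (6 * C ^ 2 / δ ^ 2 + 1) (show 0 < D / (4 * N) by positivity), eventually_ge_atTop 1]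
    with M m1 m2 m3 m4 hM κ q c e f0 F α r th f q0 qκ qa c2 c3 ea _ Fa H big j1 j0 i1 i2 i3 i4
    i5 i6 _ i8
  have hM' : (0 : ℝ) < M := by positivity
  have c4 : 0 < max c c0 := h0.trans_le (le_max_right _ _)
  obtain ⟨b, hb, b0⟩ : ∃ b : ℝ, b = 1 / (2 * max c c0) ∧ 0 < b := ⟨_, rfl, by positivity⟩
  have b2 : b1 ≤ b := by
    rw [hb1, hb]
    exact one_div_le_one_div_of_le (by positivity) (by linarith [max_le c3 h01])
  have b3 : max c c0 * b = 1 / 2 := by rw [hb]; field_simp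
  have b4 := mul_le_mul_of_nonneg_right (le_max_left c c0) b0.le
  have b5 := mul_le_mul_of_nonneg_right (le_max_right c c0) b0.le
  have b6 : 1 / (4 * max c c0) = b / 2 := by rw [hb]; field_simp; norm_num
  have b7 := mul_le_mul_of_nonneg_left b2 e0.le
  have b8 := mul_le_mul_of_nonneg_left b2 (show 0 ≤ τ * (D / (4 * N)) by positivity)
  have qN : q ≤ N := by linarith
  have n0 : 0 ≤ 6 * C ^ 2 / δ ^ 2 := by positivity
  have n1 : S * (6 * C ^ 2 / δ ^ 2) / M ≤ e1 / 10 := (div_le_iff₀ hM').2 m1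
  have n2 : (6 * C ^ 2 / δ ^ 2 + 1) * (N / M * C ^ 2) ≤ e1 * b1 / 17 :=
    le_of_eq_of_le (by ring) ((div_le_iff₀ hM').2 m2)
  have n3 : 7 * (N / M * C ^ 2) ≤ τ * (D / (4 * N)) * b1 / 2 :=
    le_of_eq_of_le (by ring) ((div_le_iff₀ hM').2 m3)
  have n4 : 0 ≤ 6 * C ^ 2 / δ ^ 2 * (N / M * C ^ 2) := by positivity
  have n5 : q * b ≤ e1 / 10 := by
    have := mul_le_mul_of_nonneg_right (qa.trans a2) b0.le
    have := mul_le_mul_of_nonneg_left b5 e0.le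
    rw [b3] at this
    linarith
  have n6 : 0 < e1 * b1 := by positivity
  have n7 : 0 < τ * (D / (4 * N)) * b1 := by positivity
  rw [b6]
  by_contra hn
  refine stepB H hM q0.le qκ qN δ0 S0.le τ0 c2 C0.le N8 (μ := e1 * b / 2) b0 D0 D1
    (by linarith [mul_le_mul_of_nonneg_right DC b0.le]) (by linarith) m4 (by linarith)
    (by linarith) (fun k k1 k2 k3 => ?_) (fun l l1 l2 l3 l4 => ?_) i1 i2 i3 (hb ▸ i4)
  · have k4 := stepA H hM q0.le qκ qN δ0 S0.le τ0.le b0 (by linarith) i5 i6 i8 (not_le.1 hn).le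
      k1 k2 k3
    have k5 := mul_le_mul_of_nonneg_right (show -e1 + q * b + τ + S * (6 * C ^ 2 / δ ^ 2) / M ≤
      -(7 / 10 * e1) by linarith [τa.trans (min_le_left _ _)]) b0.le
    linarith [Fa.trans (min_le_right _ _)]
  · have k1 := big l l1 l2 l3
    have k2 : δ ^ 2 ≤ (1 / (2 * c0)) ^ 2 := pow_le_pow_left₀ δ0.le (δa.trans a6) 2
    have k3 : b ^ 2 ≤ (1 / (2 * c0)) ^ 2 := pow_le_pow_left₀ b0.le
      (by rw [le_div_iff₀ (by positivity)]; linarith) 2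
    have k4 : 1 / c0 ^ 2 = 4 * (1 / (2 * c0)) ^ 2 := by field_simp; norm_num
    have k5 : 0 < (1 / (2 * c0)) ^ 2 := by positivity
    exact lt_of_pow_lt_pow_left₀ 2 (H.r0 l l1 (by omega)) (by linarith)

end Vale.Agent.N146.Sharp
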